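import Vale.Agent.P237.Petty.Cor.Grid.N17.LowCert

/-!
# P237: a cell in dimension 17, subdivisions
-/

namespace Vale.Agent.P237.Petty.Cor.Grid.N17.Low

def covers0 : cell.Covers table row0.1 :=
  ⟨(.cut .d 0 (.cut .v 16777216 (.cut .v 8388608 (.cut .v 4194304 (.cut .v 2097152 (.void 6 ⟨0, 0, 100000, 0, 0, 0, 0, 0, 0, ⟨0, 0⟩, 0⟩ 0 0) (.pos 7 .mm ⟨0, 0, 0, 0, 4442679, 0, 0, 0, 0, ⟨0, 0⟩, 0⟩ 0 0)) (.pos 5 .mm ⟨0, 0, 0, 0, 0, 99239, 0, 0, 0, ⟨0, 0⟩, 0⟩ 0 0)) (.cut .d (-8388608) (.cut .v 12582912 (.pos 8 .mm ⟨0, 0, 0, 0, 0, 0, 0, 0, 0, ⟨0, 0⟩, 0⟩ 0 0) (.pos 9 .mm ⟨0, 0, 0, 0, 0, 0, 0, 0, 0, ⟨0, 0⟩, 0⟩ 0 0)) (.cut .v 12582912 (.cut .d (-4194304) (.pos 8 .mm ⟨0,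 0, 0, 0, 0, 10907, 0, 0, 0, ⟨0, 0⟩, 0⟩ 0 0) (.pos 8 .mm ⟨0, 0, 0, 0, 1758604, 0, 0, 0, 0, ⟨0, 0⟩, 0⟩ 0 0)) (.cut .d (-4194304) (.cut .v 14680064 (.pos 12 .mm ⟨0, 0, 0, 0, 0, 47049, 0, 0, 0, ⟨0, 0⟩, 0⟩ 0 0) (.pos 13 .mm ⟨0, 0, 0, 0, 0, 29641, 0, 0, 0, ⟨0, 0⟩, 0⟩ 0 0)) (.cut .d (-2097152) (.cut .v 14680064 (.cut .d (-3145728) (.pos 12 .mm ⟨0, 0, 0, 0, 0, 72643, 0, 0, 0, ⟨0, 0⟩, 0⟩ 0 0) (.pos 12 .mm ⟨0, 0, 0, 0, 453892, 0, 0, 0, 0, ⟨0, 0⟩, 0⟩ 0 0)) (.cut .v 15728640 (.pos 16 .mm ⟨0, 0, 0, 0, 0, 88336, 0, 0, 0, ⟨0, 0⟩, 0⟩ 0 0) (.pos 17 .mm ⟨0, 0, 0, 0, 0, 69476, 0, 0, 0, ⟨0, 0⟩, 0⟩ 0 0))) (.cut .v 14680064 (.pos 12 .mm ⟨0, 0, 0, 0, 3110825, 746539, 0, 0, 0, ⟨0,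 0⟩, 0⟩ 0 0) (.cut .d (-1048576) (.cut .v 15728640 (.cut .d (-1572864) (.pos 16 .mm ⟨0, 0, 0, 0, 0, 95233, 0, 0, 0, ⟨0, 0⟩, 0⟩ 0 0) (.pos 16 .mm ⟨0, 0, 0, 0, 45920, 88596, 0, 0, 0, ⟨0, 0⟩, 0⟩ 0 0)) (.pos 17 .mm ⟨0, 0, 0, 0, 0, 0, 0, 0, 0, ⟨0, 0⟩, 0⟩ 0 0)) (.cut .v 15728640 (.pos 16 .mm ⟨0, 0, 0, 0, 0, 936156, 0, 0, 0, ⟨0, 0⟩, 0⟩ 0 0) (.cut .d (-524288) (.cut .v 16252928 (.pos 20 .mm ⟨0, 0, 0, 0, 0, 283097, 0, 0, 0, ⟨0, 0⟩, 0⟩ 0 0) (.pos 21 .mm ⟨0, 0, 0, 0, 0, 291956, 0, 0, 0, ⟨0, 0⟩, 0⟩ 0 0)) (.cut .v 16252928 (.pos 20 .mm ⟨0, 0, 0, 0, 0, 0, 0, 0, 0, ⟨0, 0⟩, 0⟩ 0 0) (.cut .l 750040 (.cut .l 483578 (.cut .d (-262144) (.cut .d (-393216) (.pos 21 .mm ⟨0, 0, 0,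 0, 0, 0, 0, 0, 0, ⟨0, 0⟩, 0⟩ 0 0) (.pos 21 .mm ⟨0, 0, 0, 0, 0, 0, 0, 0, 0, ⟨0, 0⟩, 0⟩ 0 0)) (.cut .v 16515072 (.pos 22 .mm ⟨0, 0, 0, 0, 0, 0, 0, 0, 0, ⟨0, 0⟩, 0⟩ 0 0) (.pos 23 .mm ⟨0, 0, 0, 0, 0, 0, 0, 0, 0, ⟨0, 0⟩, 0⟩ 0 0))) (.pos 21 .mm ⟨0, 0, 0, 0, 0, 0, 0, 0, 0, ⟨0, 0⟩, 0⟩ 0 0)) (.pos 21 .mm ⟨0, 0, 0, 0, 0, 0, 0, 0, 0, ⟨0, 0⟩, 0⟩ 0 0)))))))))))) (.cut .v 25165824 (.cut .v 20971520 (.cut .v 18874368 (.cut .v 17825792 (.cut .v 17301504 (.pos 33 .mp ⟨0, 0, 0, 0, 0, 124863, 0, 0, 0, ⟨0, 0⟩, 0⟩ 0 0) (.pos 34 .mp ⟨2275601, 0, 0, 0, 0, 0, 0, 0, 0, ⟨0, 0⟩, 0⟩ 0 0)) (.pos 32 .mp ⟨2784446, 0, 0, 0, 0, 0, 0, 0, 0, ⟨0, 0⟩, 0⟩ 0 0)) (.void 30 ⟨100000, 0, 0, 0, 0, 0,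 0, 0, 0, ⟨0, 0⟩, 0⟩ 0 0)) (.void 28 ⟨0, 0, 0, 0, 0, 0, 100000, 0, 0, ⟨0, 0⟩, 0⟩ 0 0)) (.void 26 ⟨0, 0, 0, 0, 0, 0, 100000, 0, 0, ⟨0, 0⟩, 0⟩ 0 0))) (.cut .v 16777216 (.cut .v 8388608 (.cut .v 4194304 (.cut .v 2097152 (.void 6 ⟨0, 0, 100000, 0, 0, 0, 0, 0, 0, ⟨0, 0⟩, 0⟩ 0 0) (.pos 7 .pm ⟨0, 0, 0, 0, 1980270, 0, 0, 0, 0, ⟨0, 0⟩, 0⟩ 0 0)) (.pos 5 .pm ⟨0, 0, 0, 0, 1881010, 0, 0, 0, 0, ⟨0, 0⟩, 0⟩ 0 0)) (.cut .v 12582912 (.pos 8 .pm ⟨0, 0, 0, 0, 1881838, 0, 0, 0, 0, ⟨0, 0⟩, 0⟩ 0 0) (.cut .s 851968 (.pos 9 .pm ⟨0, 0, 0, 0, 0, 0, 0, 268099, 0, ⟨(-1), 16624588⟩, 0⟩ 0 15) (.cut .s 1277952 (.pos 9 .pm ⟨0, 0, 0, 0, 0, 0, 0, 450821, 0, ⟨26140, 16147541⟩, 0⟩ 13 22) (.cut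 .s 1490944 (.pos 9 .pm ⟨0, 0, 0, 0, 0, 0, 0, 520852, 16940, ⟨57343, 15760822⟩, 15612959⟩ 19 26) (.cut .d 978803 (.cut .d 489401 (.cut .s 1597440 (.pos 9 .pm ⟨0, 0, 0, 0, 0, 0, 0, 0, 93049, ⟨0, 0⟩, 15612959⟩ 0 0) (.cut .d 244700 (.cut .d 122350 (.cut .d 61175 (.cut .d 30587 (.cut .d 15293 (.cut .v 14680064 (.void 12 ⟨0, 0, 0, 0, 100000, 0, 0, 0, 0, ⟨0, 0⟩, 0⟩ 0 0) (.cut .v 15728640 (.void 16 ⟨0, 0, 0, 0, 100000, 0, 0, 0, 0, ⟨0, 0⟩, 0⟩ 0 0) (.pos 17 .pm ⟨0, 0, 0, 0, 0, 0, 0, 0, 0, ⟨0, 0⟩, 0⟩ 0 0))) (.pos 9 .pm ⟨0, 0, 0, 0, 0, 0, 0, 0, 107245, ⟨0, 0⟩, 15612959⟩ 0 0)) (.pos 9 .pm ⟨0, 0, 0, 0, 0, 0, 0, 0, 0, ⟨0, 0⟩, 0⟩ 0 0)) (.pos 9 .pm ⟨0, 0, 0, 0, 0, 0, 0, 0,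 0, ⟨0, 0⟩, 0⟩ 0 0)) (.pos 9 .pm ⟨0, 0, 0, 0, 0, 0, 0, 0, 0, ⟨0, 0⟩, 0⟩ 0 0)) (.pos 9 .pm ⟨0, 0, 0, 0, 0, 0, 0, 0, 0, ⟨0, 0⟩, 0⟩ 0 0))) (.pos 9 .pm ⟨0, 0, 0, 0, 0, 0, 0, 2202804, 0, ⟨83977, 15487283⟩, 0⟩ 23 28)) (.pos 9 .pm ⟨0, 0, 0, 0, 0, 0, 0, 0, 2311514, ⟨0, 0⟩, 15612959⟩ 0 0))))))) (.cut .v 25165824 (.cut .v 20971520 (.cut .v 18874368 (.cut .d 978803 (.cut .v 17825792 (.cut .d 489401 (.cut .v 17301504 (.cut .l 750040 (.cut .l 483578 (.cut .d 244700 (.cut .v 17039360 (.cut .d 122350 (.pos 35 .pp ⟨0, 0, 0, 0, 0, 0, 0, 0, 0, ⟨0, 0⟩, 0⟩ 0 0) (.cut .s 851968 (.pos 35 .pp ⟨0, 0, 0, 0, 0, 0, 202597, 0, 0, ⟨0, 0⟩, 0⟩ 0 0) (.pos 35 .pp ⟨0, 0, 0, 0, 0, 0, 0, 0, 0,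 ⟨0, 0⟩, 0⟩ 0 0))) (.pos 36 .pp ⟨1865525, 0, 0, 0, 0, 0, 0, 0, 0, ⟨0, 0⟩, 0⟩ 0 0)) (.cut .l 350347 (.cut .v 17039360 (.cut .s 851968 (.pos 35 .pp ⟨1071422, 0, 0, 0, 0, 0, 90384, 0, 0, ⟨0, 0⟩, 0⟩ 0 0) (.pos 35 .pp ⟨380129, 0, 0, 0, 0, 0, 0, 274210, 0, ⟨36379, 15945910⟩, 0⟩ 13 27)) (.cut .d 367050 (.pos 36 .pp ⟨1500646, 0, 0, 0, 0, 0, 0, 228641, 0, ⟨(-1), 16290853⟩, 0⟩ 0 27) (.pos 36 .pp ⟨1723238, 0, 0, 0, 0, 0, 0, 170637, 0, ⟨(-1), 16290853⟩, 0⟩ 0 27))) (.pos 33 .pp ⟨282733, 0, 0, 0, 0, 0, 0, 0, 0, ⟨0, 0⟩, 0⟩ 0 0))) (.pos 33 .pp ⟨0, 0, 0, 0, 0, 0, 0, 0, 0, ⟨0, 0⟩, 0⟩ 0 0)) (.pos 33 .pp ⟨0, 0, 0, 0, 0, 0, 0, 0, 0, ⟨0, 0⟩, 0⟩ 0 0)) (.pos 34 .pp ⟨2037094, 0, 0,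 0, 0, 0, 0, 0, 0, ⟨0, 0⟩, 0⟩ 0 0)) (.cut .v 17301504 (.pos 33 .pp ⟨1808071, 0, 0, 0, 0, 0, 0, 81732, 0, ⟨(-1), 16255085⟩, 0⟩ 0 28) (.cut .d 734102 (.pos 34 .pp ⟨2099553, 0, 0, 0, 0, 0, 0, 0, 0, ⟨0, 0⟩, 0⟩ 0 0) (.pos 34 .pp ⟨2268868, 0, 0, 0, 0, 0, 0, 0, 0, ⟨0, 0⟩, 0⟩ 0 0)))) (.pos 32 .pp ⟨2615638, 0, 0, 0, 0, 0, 0, 0, 0, ⟨0, 0⟩, 0⟩ 0 0)) (.cut .v 17825792 (.cut .s 851968 (.pos 31 .pp ⟨2784200, 0, 0, 0, 0, 0, 0, 181169, 0, ⟨(-1), 16624588⟩, 0⟩ 0 15) (.pos 31 .pp ⟨1238597, 0, 0, 0, 0, 0, 0, 1904969, 0, ⟨43217, 15811252⟩, 0⟩ 13 30)) (.cut .l 750040 (.void 32 ⟨81363, 0, 0, 0, 0, 0, 0, 18637, 0, ⟨(-1), 16180053⟩, 0⟩ 0 30) (.cut .d 1468205 (.cut .v 18350080 (.cut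 .d 1223504 (.pos 43 .pp ⟨2789015, 0, 0, 0, 0, 0, 0, 0, 0, ⟨0, 0⟩, 0⟩ 0 0) (.cut .s 851968 (.pos 43 .pp ⟨4618662, 0, 0, 0, 0, 0, 0, 0, 0, ⟨0, 0⟩, 0⟩ 0 0) (.cut .s 1277952 (.pos 43 .pp ⟨3327755, 0, 0, 0, 0, 0, 0, 0, 0, ⟨0, 0⟩, 0⟩ 0 0) (.pos 43 .pp ⟨2832752, 0, 0, 0, 0, 0, 0, 0, 0, ⟨0, 0⟩, 0⟩ 0 0)))) (.pos 44 .pp ⟨4555180, 0, 0, 0, 0, 0, 0, 0, 0, ⟨0, 0⟩, 0⟩ 0 0)) (.cut .l 1016502 (.pos 32 .pp ⟨9261973, 0, 0, 0, 0, 0, 0, 5748723, 2281788, ⟨(-1), 16180053⟩, 17542451⟩ 0 30) (.cut .v 18350080 (.cut .s 851968 (.pos 43 .pp ⟨5956511, 0, 0, 0, 0, 0, 0, 0, 0, ⟨0, 0⟩, 0⟩ 0 0) (.cut .s 1277952 (.void 43 ⟨0, 0, 0, 0, 0, 0, 0, 100000, 0, ⟨28931, 16115072⟩, 0⟩ 14 22) (.pos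 43 .pp ⟨3074953, 0, 0, 0, 0, 0, 0, 1677810, 0, ⟨82079, 15479637⟩, 0⟩ 21 30))) (.cut .d 1712906 (.pos 44 .pp ⟨6209468, 0, 0, 0, 0, 0, 0, 2001497, 0, ⟨(-1), 16218147⟩, 0⟩ 0 29) (.void 44 ⟨55953, 0, 0, 0, 0, 0, 0, 44047, 0, ⟨(-1), 16180053⟩, 0⟩ 0 30)))))))) (.void 30 ⟨100000, 0, 0, 0, 0, 0, 0, 0, 0, ⟨0, 0⟩, 0⟩ 0 0)) (.void 28 ⟨0, 0, 0, 0, 0, 0, 100000, 0, 0, ⟨0, 0⟩, 0⟩ 0 0)) (.void 26 ⟨0, 0, 0, 0, 0, 0, 100000, 0, 0, ⟨0, 0⟩, 0⟩ 0 0)))),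
    by decide +kernel⟩

def covers1 : cell.Covers table row1.1 :=
  ⟨(.cut .d 0 (.cut .v 16777216 (.cut .v 8388608 (.void 2 ⟨0, 0, 0, 0, 50000, 50000, 0, 0, 0, ⟨0, 0⟩, 0⟩ 0 0) (.cut .v 12582912 (.void 8 ⟨0, 0, 0, 0, 50000, 50000, 0, 0, 0, ⟨0, 0⟩, 0⟩ 0 0) (.cut .d (-8388608) (.void 9 ⟨0, 0, 0, 0, 0, 100000, 0, 0, 0, ⟨0, 0⟩, 0⟩ 0 0) (.cut .d (-4194304) (.void 9 ⟨0, 0, 0, 0, 0, 100000, 0, 0, 0, ⟨0, 0⟩, 0⟩ 0 0) (.cut .d (-2097152) (.cut .v 14680064 (.pos 12 .mm ⟨0, 0, 0, 0, 0, 2831468, 0, 0, 0, ⟨0, 0⟩, 0⟩ 0 0) (.pos 13 .mm ⟨0, 0, 0, 0, 0, 914669, 0, 0, 0, ⟨0, 0⟩, 0⟩ 0 0)) (.cut .v 14680064 (.pos 12 .mm ⟨0, 0, 0, 0, 0, 113720, 0, 0, 0, ⟨0, 0⟩, 0⟩ 0 0) (.cut .d (-1048576)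 (.cut .v 15728640 (.pos 16 .mm ⟨0, 0, 0, 0, 0, 914669, 0, 0, 0, ⟨0, 0⟩, 0⟩ 0 0) (.pos 17 .mm ⟨0, 0, 0, 0, 0, 927527, 0, 0, 0, ⟨0, 0⟩, 0⟩ 0 0)) (.cut .v 15728640 (.cut .d (-524288) (.pos 16 .mm ⟨0, 0, 0, 0, 0, 383749, 0, 0, 0, ⟨0, 0⟩, 0⟩ 0 0) (.pos 16 .mm ⟨0, 0, 0, 0, 0, 121843, 0, 0, 0, ⟨0, 0⟩, 0⟩ 0 0)) (.cut .d (-524288) (.cut .v 16252928 (.pos 20 .mm ⟨0, 0, 0, 0, 0, 373329, 0, 0, 0, ⟨0, 0⟩, 0⟩ 0 0) (.pos 21 .mm ⟨0, 0, 0, 0, 0, 425480, 0, 0, 0, ⟨0, 0⟩, 0⟩ 0 0)) (.cut .v 16252928 (.cut .d (-262144) (.pos 20 .mm ⟨0, 0, 0, 0, 0, 141732, 0, 0, 0, ⟨0, 0⟩, 0⟩ 0 0) (.pos 20 .mm ⟨0, 0, 0, 0, 0, 0, 0, 0, 0, ⟨0, 0⟩, 0⟩ 0 0)) (.cut .d (-262144) (.cut .s 2359296 (.pos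 21 .mm ⟨0, 0, 0, 0, 0, 0, 0, 0, 0, ⟨0, 0⟩, 0⟩ 0 0) (.pos 21 .mm ⟨0, 0, 0, 0, 0, 0, 0, 0, 0, ⟨0, 0⟩, 0⟩ 0 0)) (.cut .v 16515072 (.cut .d (-131072) (.pos 22 .mm ⟨0, 0, 0, 0, 0, 0, 0, 0, 0, ⟨0, 0⟩, 0⟩ 0 0) (.pos 22 .mm ⟨0, 0, 0, 0, 0, 0, 0, 0, 0, ⟨0, 0⟩, 0⟩ 0 0)) (.pos 23 .mm ⟨0, 0, 0, 0, 0, 0, 0, 0, 0, ⟨0, 0⟩, 0⟩ 0 0))))))))))))) (.cut .v 25165824 (.cut .v 20971520 (.cut .v 18874368 (.pos 29 .mp ⟨351888, 0, 0, 0, 0, 0, 0, 0, 0, ⟨0, 0⟩, 0⟩ 0 0) (.void 30 ⟨100000, 0, 0, 0, 0, 0, 0, 0, 0, ⟨0, 0⟩, 0⟩ 0 0)) (.void 28 ⟨100000, 0, 0, 0, 0, 0, 0, 0, 0, ⟨0, 0⟩, 0⟩ 0 0)) (.void 26 ⟨0, 0, 0, 0, 0, 0, 100000, 0, 0, ⟨0, 0⟩, 0⟩ 0 0))) (.cut .v 16777216 (.cut .v 8388608 (.void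 2 ⟨0, 0, 0, 0, 100000, 0, 0, 0, 0, ⟨0, 0⟩, 0⟩ 0 0) (.cut .v 12582912 (.void 8 ⟨0, 0, 0, 0, 100000, 0, 0, 0, 0, ⟨0, 0⟩, 0⟩ 0 0) (.cut .d 1644958 (.cut .v 14680064 (.pos 12 .pm ⟨0, 0, 0, 0, 0, 0, 0, 0, 127937, ⟨0, 0⟩, 15100357⟩ 0 0) (.cut .d 822479 (.cut .v 15728640 (.pos 16 .pm ⟨0, 0, 0, 0, 0, 0, 0, 0, 0, ⟨0, 0⟩, 0⟩ 0 0) (.cut .d 411239 (.cut .v 16252928 (.pos 20 .pm ⟨0, 0, 0, 0, 0, 0, 0, 0, 0, ⟨0, 0⟩, 0⟩ 0 0) (.cut .d 205619 (.cut .v 16515072 (.pos 22 .pm ⟨0, 0, 0, 0, 0, 0, 0, 0, 0, ⟨0, 0⟩, 0⟩ 0 0) (.cut .s 2359296 (.pos 23 .pm ⟨0, 0, 0, 0, 0, 0, 0, 0, 0, ⟨0, 0⟩, 0⟩ 0 0) (.cut .s 2686976 (.pos 23 .pm ⟨0, 0, 0, 0, 0, 0, 0, 0, 0, ⟨0, 0⟩, 0⟩ 0 0) (.cut .d 102809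 (.cut .d 51404 (.pos 23 .pm ⟨0, 0, 0, 0, 0, 0, 0, 0, 0, ⟨0, 0⟩, 0⟩ 0 0) (.pos 23 .pm ⟨0, 0, 0, 0, 0, 0, 0, 0, 0, ⟨0, 0⟩, 0⟩ 0 0)) (.pos 23 .pm ⟨0, 0, 0, 0, 0, 0, 0, 0, 0, ⟨0, 0⟩, 0⟩ 0 0))))) (.pos 21 .pm ⟨0, 0, 0, 0, 0, 0, 0, 0, 0, ⟨0, 0⟩, 0⟩ 0 0))) (.pos 17 .pm ⟨0, 0, 0, 0, 0, 0, 0, 137443, 0, ⟨231021, 14050760⟩, 0⟩ 26 49))) (.pos 13 .pm ⟨0, 0, 0, 0, 0, 0, 0, 137443, 0, ⟨257620, 13848224⟩, 0⟩ 27 51))) (.void 9 ⟨0, 0, 0, 0, 0, 0, 0, 0, 100000, ⟨0, 0⟩, 15612959⟩ 0 0)))) (.cut .v 25165824 (.cut .v 20971520 (.cut .d 1644958 (.cut .v 18874368 (.cut .d 822479 (.cut .v 17825792 (.cut .d 411239 (.cut .v 17301504 (.cut .d 205619 (.cut .s 2359296 (.cut .v 17039360 (.cut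 .d 102809 (.pos 35 .pp ⟨0, 0, 0, 0, 0, 0, 0, 0, 0, ⟨0, 0⟩, 0⟩ 0 0) (.pos 35 .pp ⟨0, 0, 0, 0, 0, 0, 0, 0, 0, ⟨0, 0⟩, 0⟩ 0 0)) (.pos 36 .pp ⟨1150637, 0, 0, 0, 0, 0, 0, 0, 0, ⟨0, 0⟩, 0⟩ 0 0)) (.pos 33 .pp ⟨0, 0, 0, 0, 0, 0, 0, 0, 0, ⟨0, 0⟩, 0⟩ 0 0)) (.cut .l 750040 (.cut .v 17039360 (.cut .s 2359296 (.pos 35 .pp ⟨0, 0, 0, 0, 0, 0, 0, 564104, 0, ⟨151385, 14834874⟩, 0⟩ 26 37) (.pos 35 .pp ⟨0, 0, 0, 0, 0, 0, 0, 138158, 0, ⟨345014, 13474624⟩, 0⟩ 36 48)) (.cut .s 2359296 (.cut .s 2031616 (.pos 36 .pp ⟨591216, 0, 0, 0, 0, 0, 0, 964110, 0, ⟨121868, 15125504⟩, 0⟩ 26 32) (.pos 36 .pp ⟨146978, 0, 0, 0, 0, 0, 0, 860778, 0, ⟨193043, 14546645⟩, 0⟩ 31 37)) (.pos 36 .pp ⟨0,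 0, 0, 0, 0, 0, 0, 177383, 0, ⟨345014, 13474624⟩, 0⟩ 36 48))) (.pos 33 .pp ⟨0, 0, 0, 0, 0, 0, 0, 0, 0, ⟨0, 0⟩, 0⟩ 0 0))) (.pos 34 .pp ⟨601907, 0, 0, 0, 0, 0, 0, 0, 0, ⟨0, 0⟩, 0⟩ 0 0)) (.cut .v 17301504 (.cut .d 616859 (.cut .s 2359296 (.pos 33 .pp ⟨32657, 0, 0, 0, 0, 0, 0, 1018093, 0, ⟨157568, 14773994⟩, 0⟩ 26 38) (.pos 33 .pp ⟨0, 0, 0, 0, 0, 0, 0, 138874, 0, ⟨345014, 13474624⟩, 0⟩ 36 48)) (.pos 33 .pp ⟨0, 0, 0, 0, 0, 0, 0, 314111, 0, ⟨231021, 14050760⟩, 0⟩ 26 49)) (.cut .l 750040 (.cut .v 17563648 (.cut .d 616859 (.pos 41 .pp ⟨556628, 0, 0, 0, 0, 0, 0, 176601, 0, ⟨223970, 14120192⟩, 0⟩ 26 48) (.cut .s 2359296 (.pos 41 .pp ⟨44124, 0, 0, 0, 0, 0, 0, 1674376,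 0, ⟨157568, 14773994⟩, 0⟩ 26 38) (.pos 41 .pp ⟨0, 0, 0, 0, 0, 0, 0, 370793, 0, ⟨368598, 13331989⟩, 0⟩ 37 49))) (.pos 42 .pp ⟨877070, 0, 0, 0, 0, 0, 0, 415129, 0, ⟨231021, 14050760⟩, 0⟩ 26 49)) (.pos 34 .pp ⟨0, 0, 0, 0, 0, 0, 0, 0, 0, ⟨0, 0⟩, 0⟩ 0 0)))) (.pos 32 .pp ⟨1094822, 0, 0, 0, 0, 0, 0, 0, 0, ⟨0, 0⟩, 0⟩ 0 0)) (.cut .v 17825792 (.cut .d 1233718 (.cut .v 17301504 (.pos 33 .pp ⟨0, 0, 0, 0, 0, 0, 0, 259202, 0, ⟨250120, 13919332⟩, 0⟩ 27 50) (.cut .s 2359296 (.pos 34 .pp ⟨428875, 0, 0, 0, 0, 0, 0, 1183016, 0, ⟨172463, 14655637⟩, 0⟩ 27 39) (.pos 34 .pp ⟨0, 0, 0, 0, 0, 0, 0, 415190, 0, ⟨379309, 13257885⟩, 0⟩ 37 50))) (.pos 31 .pp ⟨0, 0, 0, 0, 0, 0, 0, 1131852,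 0, ⟨257620, 13848224⟩, 0⟩ 27 51)) (.cut .d 1233718 (.cut .v 18350080 (.cut .s 2359296 (.pos 43 .pp ⟨1241284, 0, 0, 0, 0, 0, 0, 423536, 0, ⟨172463, 14655637⟩, 0⟩ 27 39) (.pos 43 .pp ⟨0, 0, 0, 0, 0, 0, 0, 592924, 0, ⟨379309, 13257885⟩, 0⟩ 37 50)) (.pos 44 .pp ⟨1747180, 0, 0, 0, 0, 0, 0, 0, 0, ⟨0, 0⟩, 0⟩ 0 0)) (.cut .l 750040 (.pos 32 .pp ⟨2702657, 0, 0, 0, 0, 0, 0, 1895033, 0, ⟨257620, 13848224⟩, 0⟩ 27 51) (.cut .s 2359296 (.cut .v 18350080 (.cut .s 2031616 (.pos 43 .pp ⟨0, 0, 0, 0, 0, 0, 0, 2408396, 0, ⟨146768, 14899264⟩, 0⟩ 27 35) (.pos 43 .pp ⟨0, 0, 0, 0, 0, 0, 0, 1582607, 0, ⟨235774, 14229942⟩, 0⟩ 33 40)) (.cut .d 1439338 (.pos 44 .pp ⟨2157251, 0, 0, 0, 0,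 0, 0, 0, 0, ⟨0, 0⟩, 0⟩ 0 0) (.cut .s 2031616 (.pos 44 .pp ⟨2273153, 0, 0, 0, 0, 0, 0, 3928085, 0, ⟨154387, 14843538⟩, 0⟩ 28 35) (.pos 44 .pp ⟨1067576, 0, 0, 0, 0, 0, 0, 3075551, 0, ⟨235774, 14229942⟩, 0⟩ 33 40)))) (.cut .v 18350080 (.pos 43 .pp ⟨0, 0, 0, 0, 0, 0, 0, 910051, 0, ⟨404214, 13112379⟩, 0⟩ 38 51) (.pos 44 .pp ⟨34574, 0, 0, 0, 0, 0, 0, 1363157, 0, ⟨404214, 13112379⟩, 0⟩ 38 51))))))) (.pos 30 .pp ⟨3136051, 0, 0, 0, 0, 0, 0, 1165286, 0, ⟨245322, 13909954⟩, 0⟩ 26 51)) (.cut .d 2467437 (.cut .l 750040 (.void 27 ⟨0, 0, 0, 0, 0, 0, 8591, 80120, 11290, ⟨285935, 13640806⟩, 17739746⟩ 28 53) (.cut .v 18874368 (.cut .v 17825792 (.pos 31 .pp ⟨0, 0, 0, 0, 0, 0,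 0, 434914, 0, ⟨285935, 13640806⟩, 0⟩ 28 53) (.cut .v 18350080 (.pos 43 .pp ⟨884577, 0, 0, 0, 0, 0, 0, 1037578, 0, ⟨285935, 13640806⟩, 0⟩ 28 53) (.cut .s 2359296 (.cut .s 2031616 (.void 44 ⟨0, 0, 0, 0, 0, 0, 0, 100000, 0, ⟨160955, 14783488⟩, 0⟩ 28 36) (.void 44 ⟨0, 0, 0, 0, 0, 0, 0, 100000, 0, ⟨263597, 14031680⟩, 0⟩ 34 42)) (.pos 44 .pp ⟨0, 0, 0, 0, 0, 0, 0, 3483050, 0, ⟨441644, 12888704⟩, 0⟩ 39 53)))) (.cut .s 2359296 (.void 30 ⟨73115, 0, 0, 0, 0, 0, 0, 26885, 0, ⟨202357, 14404955⟩, 0⟩ 28 42) (.cut .s 2686976 (.void 30 ⟨0, 0, 0, 0, 0, 0, 0, 100000, 0, ⟨384316, 13265009⟩, 0⟩ 39 48) (.pos 30 .pp ⟨0, 0, 0, 0, 0, 0, 0, 9785284, 0, ⟨534069, 12442272⟩, 0⟩ 45 53)))))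 (.void 27 ⟨0, 0, 0, 0, 0, 0, 8589, 80301, 11110, ⟨324427, 13354230⟩, 17739746⟩ 29 56))) (.void 28 ⟨0, 0, 0, 0, 0, 0, 100000, 0, 0, ⟨0, 0⟩, 0⟩ 0 0)) (.void 26 ⟨0, 0, 0, 0, 0, 0, 100000, 0, 0, ⟨0, 0⟩, 0⟩ 0 0)))),
    by decide +kernel⟩

def covers2 : cell.Covers table row2.1 :=
  ⟨(.cut .d 0 (.cut .v 16777216 (.cut .v 8388608 (.void 2 ⟨0, 0, 0, 0, 50000, 50000, 0, 0, 0, ⟨0, 0⟩, 0⟩ 0 0) (.cut .v 12582912 (.pos 8 .mm ⟨0, 0, 0, 0, 0, 19127854, 0, 0, 0, ⟨0, 0⟩, 0⟩ 0 0) (.cut .d (-8388608) (.void 9 ⟨0, 0, 0, 0, 0, 100000, 0, 0, 0, ⟨0, 0⟩, 0⟩ 0 0) (.cut .d (-4194304) (.void 9 ⟨0, 0, 0, 0, 0, 100000, 0, 0, 0, ⟨0, 0⟩, 0⟩ 0 0) (.cut .d (-2097152) (.void 9 ⟨0, 0, 0, 0,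 0, 100000, 0, 0, 0, ⟨0, 0⟩, 0⟩ 0 0) (.cut .v 14680064 (.pos 12 .mm ⟨0, 0, 0, 0, 0, 106924, 0, 0, 0, ⟨0, 0⟩, 0⟩ 0 0) (.cut .d (-1048576) (.cut .v 15728640 (.pos 16 .mm ⟨0, 0, 0, 0, 0, 124931, 0, 0, 0, ⟨0, 0⟩, 0⟩ 0 0) (.pos 17 .mm ⟨0, 0, 0, 0, 0, 127770, 0, 0, 0, ⟨0, 0⟩, 0⟩ 0 0)) (.cut .v 15728640 (.cut .d (-524288) (.pos 16 .mm ⟨0, 0, 0, 0, 0, 127770, 0, 0, 0, ⟨0, 0⟩, 0⟩ 0 0) (.pos 16 .mm ⟨0, 0, 0, 0, 0, 112596, 0, 0, 0, ⟨0, 0⟩, 0⟩ 0 0)) (.cut .d (-524288) (.cut .v 16252928 (.pos 20 .mm ⟨0, 0, 0, 0, 0, 130609, 0, 0, 0, ⟨0, 0⟩, 0⟩ 0 0) (.pos 21 .mm ⟨0, 0, 0, 0, 0, 132029, 0, 0, 0, ⟨0, 0⟩, 0⟩ 0 0)) (.cut .v 16252928 (.cut .d (-262144) (.pos 20 .mm ⟨0, 0, 0, 0,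 0, 130609, 0, 0, 0, ⟨0, 0⟩, 0⟩ 0 0) (.pos 20 .mm ⟨0, 0, 0, 0, 0, 0, 0, 0, 0, ⟨0, 0⟩, 0⟩ 0 0)) (.cut .d (-262144) (.pos 21 .mm ⟨0, 0, 0, 0, 0, 133449, 0, 0, 0, ⟨0, 0⟩, 0⟩ 0 0) (.cut .v 16515072 (.cut .d (-131072) (.pos 22 .mm ⟨0, 0, 0, 0, 0, 0, 0, 0, 0, ⟨0, 0⟩, 0⟩ 0 0) (.pos 22 .mm ⟨0, 0, 0, 0, 0, 0, 0, 0, 0, ⟨0, 0⟩, 0⟩ 0 0)) (.pos 23 .mm ⟨0, 0, 0, 0, 0, 0, 0, 0, 0, ⟨0, 0⟩, 0⟩ 0 0))))))))))))) (.cut .v 25165824 (.cut .v 20971520 (.pos 27 .mp ⟨223880, 0, 0, 0, 0, 0, 0, 0, 0, ⟨0, 0⟩, 0⟩ 0 0) (.void 28 ⟨100000, 0, 0, 0, 0, 0, 0, 0, 0, ⟨0, 0⟩, 0⟩ 0 0)) (.void 26 ⟨0, 0, 0, 0, 0, 0, 100000, 0, 0, ⟨0, 0⟩, 0⟩ 0 0))) (.cut .v 16777216 (.cut .v 8388608 (.void 2 ⟨0, 0,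 0, 0, 100000, 0, 0, 0, 0, ⟨0, 0⟩, 0⟩ 0 0) (.cut .v 12582912 (.void 8 ⟨0, 0, 0, 0, 0, 0, 0, 0, 100000, ⟨0, 0⟩, 13128881⟩ 0 0) (.cut .d 2272960 (.cut .v 14680064 (.pos 12 .pm ⟨0, 0, 0, 0, 0, 0, 0, 0, 0, ⟨0, 0⟩, 0⟩ 0 0) (.cut .d 1136480 (.cut .v 15728640 (.pos 16 .pm ⟨0, 0, 0, 0, 0, 0, 0, 0, 0, ⟨0, 0⟩, 0⟩ 0 0) (.cut .d 568240 (.cut .v 16252928 (.pos 20 .pm ⟨0, 0, 0, 0, 0, 0, 0, 0, 0, ⟨0, 0⟩, 0⟩ 0 0) (.cut .d 284120 (.cut .v 16515072 (.cut .s 3407872 (.pos 22 .pm ⟨0, 0, 0, 0, 0, 0, 0, 0, 0, ⟨0, 0⟩, 0⟩ 0 0) (.pos 22 .pm ⟨0, 0, 0, 0, 0, 0, 0, 0, 0, ⟨0, 0⟩, 0⟩ 0 0)) (.cut .d 142060 (.cut .v 16646144 (.cut .s 3407872 (.pos 53 .pm ⟨0, 0, 0, 0, 0, 0, 0, 0, 0, ⟨0, 0⟩,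 0⟩ 0 0) (.pos 53 .pm ⟨0, 0, 0, 0, 0, 0, 0, 0, 0, ⟨0, 0⟩, 0⟩ 0 0)) (.pos 54 .pm ⟨0, 0, 0, 0, 0, 0, 0, 0, 0, ⟨0, 0⟩, 0⟩ 0 0)) (.cut .s 3407872 (.pos 23 .pm ⟨0, 0, 0, 0, 0, 0, 0, 0, 0, ⟨0, 0⟩, 0⟩ 0 0) (.pos 23 .pm ⟨0, 0, 0, 0, 0, 0, 0, 0, 0, ⟨0, 0⟩, 0⟩ 0 0)))) (.pos 21 .pm ⟨0, 0, 0, 0, 0, 0, 0, 0, 0, ⟨0, 0⟩, 0⟩ 0 0))) (.pos 17 .pm ⟨0, 0, 0, 0, 0, 0, 0, 113245, 0, ⟨698363, 11566984⟩, 0⟩ 47 62))) (.pos 13 .pm ⟨0, 0, 0, 0, 0, 0, 0, 166389, 0, ⟨799762, 11079378⟩, 0⟩ 49 66))) (.void 9 ⟨0, 0, 0, 0, 0, 0, 0, 0, 100000, ⟨0, 0⟩, 15612959⟩ 0 0)))) (.cut .v 25165824 (.cut .v 20971520 (.cut .d 2272960 (.cut .v 18874368 (.cut .d 1136480 (.cut .v 17825792 (.cut .d 568240 (.cut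 .v 17301504 (.cut .d 284120 (.cut .s 3407872 (.cut .d 142060 (.pos 33 .pp ⟨0, 0, 0, 0, 0, 0, 0, 0, 0, ⟨0, 0⟩, 0⟩ 0 0) (.cut .v 17039360 (.pos 35 .pp ⟨0, 0, 0, 0, 0, 0, 0, 0, 0, ⟨0, 0⟩, 0⟩ 0 0) (.pos 36 .pp ⟨0, 0, 0, 0, 0, 0, 0, 135227, 0, ⟨549897, 12365824⟩, 0⟩ 46 53))) (.pos 33 .pp ⟨0, 0, 0, 0, 0, 0, 0, 0, 0, ⟨0, 0⟩, 0⟩ 0 0)) (.cut .v 17039360 (.cut .s 3407872 (.pos 35 .pp ⟨0, 0, 0, 0, 0, 0, 0, 110089, 0, ⟨564019, 12287232⟩, 0⟩ 46 54) (.pos 35 .pp ⟨0, 0, 0, 0, 0, 0, 0, 117834, 0, ⟨761945, 11330912⟩, 0⟩ 52 60)) (.pos 36 .pp ⟨0, 0, 0, 0, 0, 0, 0, 54262, 0, ⟨650140, 11807945⟩, 0⟩ 46 60))) (.pos 34 .pp ⟨0, 0, 0, 0, 0, 0, 0, 126615, 0, ⟨650140, 11807945⟩, 0⟩ 46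 60)) (.cut .v 17301504 (.pos 33 .pp ⟨0, 0, 0, 0, 0, 0, 0, 78853, 0, ⟨698363, 11566984⟩, 0⟩ 47 62) (.cut .d 852360 (.pos 34 .pp ⟨0, 0, 0, 0, 0, 0, 0, 131579, 0, ⟨683421, 11648365⟩, 0⟩ 47 61) (.pos 34 .pp ⟨0, 0, 0, 0, 0, 0, 0, 122855, 0, ⟨717554, 11487744⟩, 0⟩ 48 62)))) (.pos 32 .pp ⟨219202, 0, 0, 0, 0, 0, 0, 0, 0, ⟨0, 0⟩, 0⟩ 0 0)) (.cut .d 1704720 (.cut .v 17825792 (.pos 31 .pp ⟨0, 0, 0, 0, 0, 0, 0, 153135, 0, ⟨768240, 11244066⟩, 0⟩ 49 64) (.cut .v 18350080 (.pos 43 .pp ⟨0, 0, 0, 0, 0, 0, 0, 156138, 0, ⟨768240, 11244066⟩, 0⟩ 49 64) (.pos 44 .pp ⟨0, 0, 0, 0, 0, 0, 0, 157639, 0, ⟨768240, 11244066⟩, 0⟩ 49 64))) (.pos 29 .pp ⟨0, 0, 0, 0, 0, 0, 0, 1051842, 0, ⟨820536,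 10998800⟩, 0⟩ 50 66))) (.cut .d 1136480 (.pos 30 .pp ⟨5464875, 0, 0, 0, 0, 0, 0, 0, 0, ⟨0, 0⟩, 0⟩ 0 0) (.cut .d 1704720 (.pos 30 .pp ⟨0, 0, 0, 0, 0, 0, 0, 2605690, 0, ⟨768240, 11244066⟩, 0⟩ 49 64) (.cut .s 3407872 (.pos 30 .pp ⟨0, 0, 0, 0, 0, 0, 0, 7859004, 0, ⟨724300, 11491532⟩, 0⟩ 50 60) (.pos 30 .pp ⟨0, 0, 0, 0, 0, 0, 0, 5963606, 0, ⟨968146, 10426254⟩, 0⟩ 57 66))))) (.void 27 ⟨0, 0, 0, 0, 0, 0, 0, 100000, 0, ⟨997220, 10172637⟩, 0⟩ 52 74)) (.void 28 ⟨0, 0, 0, 0, 0, 0, 100000, 0, 0, ⟨0, 0⟩, 0⟩ 0 0)) (.void 26 ⟨0, 0, 0, 0, 0, 0, 100000, 0, 0, ⟨0, 0⟩, 0⟩ 0 0)))),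
    by decide +kernel⟩

def covers3 : cell.Covers table row3.1 :=
  ⟨(.cut .d 0 (.cut .v 16777216 (.cut .v 8388608 (.void 2 ⟨0, 0, 0, 0, 50000, 50000, 0, 0, 0, ⟨0, 0⟩, 0⟩ 0 0) (.cut .v 12582912 (.pos 8 .mm ⟨0, 0, 0, 0, 0, 13416094, 0, 0, 0, ⟨0, 0⟩, 0⟩ 0 0) (.cut .d (-8388608) (.void 9 ⟨0, 0, 0, 0, 0, 100000, 0, 0, 0, ⟨0, 0⟩, 0⟩ 0 0) (.cut .v 14680064 (.pos 12 .mm ⟨0, 0, 0, 0, 0, 8072117, 0, 0, 0, ⟨0, 0⟩, 0⟩ 0 0) (.cut .d (-4194304) (.void 13 ⟨0, 0, 0, 0, 0, 100000, 0, 0, 0, ⟨0, 0⟩, 0⟩ 0 0) (.cut .d (-2097152) (.void 13 ⟨0, 0, 0, 0, 0, 100000, 0, 0, 0, ⟨0, 0⟩, 0⟩ 0 0) (.cut .d (-1048576) (.void 13 ⟨0, 0, 0, 0, 0, 100000, 0, 0, 0, ⟨0, 0⟩, 0⟩ 0 0) (.cut .v 15728640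 (.cut .d (-524288) (.pos 16 .mm ⟨0, 0, 0, 0, 0, 209771, 0, 0, 0, ⟨0, 0⟩, 0⟩ 0 0) (.pos 16 .mm ⟨0, 0, 0, 0, 0, 146480, 0, 0, 0, ⟨0, 0⟩, 0⟩ 0 0)) (.cut .d (-524288) (.pos 17 .mm ⟨0, 0, 0, 0, 0, 201502, 0, 0, 0, ⟨0, 0⟩, 0⟩ 0 0) (.cut .v 16252928 (.cut .d (-262144) (.pos 20 .mm ⟨0, 0, 0, 0, 0, 123023, 0, 0, 0, ⟨0, 0⟩, 0⟩ 0 0) (.pos 20 .mm ⟨0, 0, 0, 0, 0, 70555, 0, 0, 0, ⟨0, 0⟩, 0⟩ 0 0)) (.cut .d (-262144) (.pos 21 .mm ⟨0, 0, 0, 0, 0, 120824, 0, 0, 0, ⟨0, 0⟩, 0⟩ 0 0) (.cut .d (-131072) (.pos 21 .mm ⟨0, 0, 0, 0, 0, 65695, 0, 0, 0, ⟨0, 0⟩, 0⟩ 0 0) (.cut .v 16515072 (.cut .s 4161536 (.pos 22 .mm ⟨0, 0, 0, 0, 0, 0, 0, 0, 0, ⟨0, 0⟩, 0⟩ 0 0) (.pos 22 .mm ⟨0, 0, 0, 0,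 0, 0, 0, 0, 0, ⟨0, 0⟩, 0⟩ 0 0)) (.pos 23 .mm ⟨0, 0, 0, 0, 0, 0, 0, 0, 0, ⟨0, 0⟩, 0⟩ 0 0)))))))))))))) (.cut .v 25165824 (.cut .v 20971520 (.pos 27 .mp ⟨0, 0, 0, 0, 0, 0, 0, 0, 0, ⟨0, 0⟩, 0⟩ 0 0) (.void 28 ⟨100000, 0, 0, 0, 0, 0, 0, 0, 0, ⟨0, 0⟩, 0⟩ 0 0)) (.void 26 ⟨100000, 0, 0, 0, 0, 0, 0, 0, 0, ⟨0, 0⟩, 0⟩ 0 0))) (.cut .v 16777216 (.cut .v 8388608 (.void 2 ⟨0, 0, 0, 0, 100000, 0, 0, 0, 0, ⟨0, 0⟩, 0⟩ 0 0) (.cut .d 3066170 (.cut .v 12582912 (.pos 8 .pm ⟨0, 0, 0, 0, 0, 0, 0, 0, 129418, ⟨0, 0⟩, 13128881⟩ 0 0) (.cut .d 1533085 (.cut .v 14680064 (.pos 12 .pm ⟨0, 0, 0, 0, 0, 0, 0, 0, 0, ⟨0, 0⟩, 0⟩ 0 0) (.cut .d 766542 (.cut .v 15728640 (.pos 16 .pm ⟨0, 0, 0, 0, 0,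 0, 0, 0, 0, ⟨0, 0⟩, 0⟩ 0 0) (.cut .d 383271 (.cut .v 16252928 (.pos 20 .pm ⟨0, 0, 0, 0, 0, 0, 0, 0, 0, ⟨0, 0⟩, 0⟩ 0 0) (.cut .d 191635 (.cut .v 16515072 (.cut .s 4161536 (.cut .d 95817 (.pos 22 .pm ⟨0, 0, 0, 0, 0, 0, 0, 0, 0, ⟨0, 0⟩, 0⟩ 0 0) (.pos 22 .pm ⟨0, 0, 0, 0, 0, 0, 0, 0, 0, ⟨0, 0⟩, 0⟩ 0 0)) (.cut .d 95817 (.pos 22 .pm ⟨0, 0, 0, 0, 0, 0, 0, 0, 0, ⟨0, 0⟩, 0⟩ 0 0) (.pos 22 .pm ⟨0, 0, 0, 0, 0, 0, 0, 0, 0, ⟨0, 0⟩, 0⟩ 0 0))) (.cut .s 4161536 (.cut .d 95817 (.pos 23 .pm ⟨0, 0, 0, 0, 0, 0, 0, 0, 0, ⟨0, 0⟩, 0⟩ 0 0) (.cut .v 16646144 (.pos 53 .pm ⟨0, 0, 0, 0, 0, 0, 0, 0, 0, ⟨0, 0⟩, 0⟩ 0 0) (.pos 54 .pm ⟨0, 0, 0, 0, 0, 0, 0, 0, 0, ⟨0, 0⟩, 0⟩ 0 0))) (.cut .s 4341760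 (.cut .d 95817 (.pos 23 .pm ⟨0, 0, 0, 0, 0, 0, 0, 0, 0, ⟨0, 0⟩, 0⟩ 0 0) (.cut .v 16646144 (.pos 53 .pm ⟨0, 0, 0, 0, 0, 0, 0, 0, 0, ⟨0, 0⟩, 0⟩ 0 0) (.pos 54 .pm ⟨0, 0, 0, 0, 0, 0, 0, 0, 0, ⟨0, 0⟩, 0⟩ 0 0))) (.pos 23 .pm ⟨0, 0, 0, 0, 0, 0, 0, 0, 0, ⟨0, 0⟩, 0⟩ 0 0)))) (.cut .v 16515072 (.cut .s 4161536 (.pos 22 .pm ⟨0, 0, 0, 0, 0, 0, 0, 0, 0, ⟨0, 0⟩, 0⟩ 0 0) (.pos 22 .pm ⟨0, 0, 0, 0, 0, 0, 0, 0, 0, ⟨0, 0⟩, 0⟩ 0 0)) (.cut .s 4161536 (.cut .d 287453 (.cut .v 16646144 (.pos 53 .pm ⟨0, 0, 0, 0, 0, 0, 0, 0, 0, ⟨0, 0⟩, 0⟩ 0 0) (.pos 54 .pm ⟨0, 0, 0, 0, 0, 0, 0, 0, 0, ⟨0, 0⟩, 0⟩ 0 0)) (.pos 23 .pm ⟨0, 0, 0, 0, 0, 0, 0, 0, 0, ⟨0, 0⟩, 0⟩ 0 0)) (.cut .d 287453 (.pos 23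 .pm ⟨0, 0, 0, 0, 0, 0, 0, 0, 0, ⟨0, 0⟩, 0⟩ 0 0) (.pos 23 .pm ⟨0, 0, 0, 0, 0, 0, 0, 0, 0, ⟨0, 0⟩, 0⟩ 0 0)))))) (.pos 17 .pm ⟨0, 0, 0, 0, 0, 0, 0, 0, 0, ⟨0, 0⟩, 0⟩ 0 0))) (.pos 13 .pm ⟨0, 0, 0, 0, 0, 0, 0, 45725, 0, ⟨1227433, 9344832⟩, 0⟩ 60 76))) (.pos 9 .pm ⟨0, 0, 0, 0, 0, 0, 0, 45725, 0, ⟨1422816, 8602448⟩, 0⟩ 63 82))) (.void 3 ⟨0, 0, 0, 0, 0, 0, 0, 100000, 0, ⟨1826160, 7169137⟩, 0⟩ 68 95))) (.cut .v 25165824 (.cut .d 3066170 (.cut .v 20971520 (.cut .d 1533085 (.cut .v 18874368 (.cut .d 766542 (.cut .v 17825792 (.cut .v 17301504 (.cut .d 383271 (.cut .d 191635 (.pos 33 .pp ⟨0, 0, 0, 0, 0, 0, 0, 0, 0, ⟨0, 0⟩, 0⟩ 0 0) (.cut .s 4161536 (.pos 33 .pp ⟨0, 0, 0,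 0, 0, 0, 0, 0, 0, ⟨0, 0⟩, 0⟩ 0 0) (.pos 33 .pp ⟨0, 0, 0, 0, 0, 0, 0, 0, 0, ⟨0, 0⟩, 0⟩ 0 0))) (.cut .s 4161536 (.cut .s 3981312 (.pos 33 .pp ⟨0, 0, 0, 0, 0, 0, 0, 121091, 0, ⟨972460, 10427187⟩, 0⟩ 59 64) (.pos 33 .pp ⟨0, 0, 0, 0, 0, 0, 0, 104543, 0, ⟨1095406, 9927577⟩, 0⟩ 62 67)) (.pos 33 .pp ⟨0, 0, 0, 0, 0, 0, 0, 104050, 0, ⟨1264149, 9260430⟩, 0⟩ 64 73))) (.pos 34 .pp ⟨0, 0, 0, 0, 0, 0, 0, 70060, 0, ⟨1121626, 9760238⟩, 0⟩ 58 73)) (.pos 32 .pp ⟨0, 0, 0, 0, 0, 0, 0, 134963, 0, ⟨1121626, 9760238⟩, 0⟩ 58 73)) (.cut .v 17825792 (.cut .v 17301504 (.pos 33 .pp ⟨0, 0, 0, 0, 0, 0, 0, 46678, 0, ⟨1227433, 9344832⟩, 0⟩ 60 76) (.pos 34 .pp ⟨0, 0, 0, 0, 0, 0, 0, 67099, 0,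 ⟨1227433, 9344832⟩, 0⟩ 60 76)) (.pos 32 .pp ⟨0, 0, 0, 0, 0, 0, 0, 116249, 0, ⟨1227433, 9344832⟩, 0⟩ 60 76))) (.pos 30 .pp ⟨0, 0, 0, 0, 0, 0, 0, 187138, 0, ⟨1178068, 9511111⟩, 0⟩ 58 76)) (.cut .v 18874368 (.pos 29 .pp ⟨0, 0, 0, 0, 0, 0, 0, 476666, 0, ⟨1422816, 8602448⟩, 0⟩ 63 82) (.cut .d 2299627 (.pos 30 .pp ⟨0, 0, 0, 0, 0, 0, 0, 1272798, 0, ⟨1362462, 8847696⟩, 0⟩ 63 79) (.pos 30 .pp ⟨0, 0, 0, 0, 0, 0, 0, 68581341, 0, ⟨1475901, 8436720⟩, 0⟩ 65 82)))) (.pos 28 .pp ⟨3740081, 0, 0, 0, 0, 0, 0, 8673182, 0, ⟨1289981, 9017152⟩, 0⟩ 58 82)) (.void 25 ⟨0, 0, 0, 0, 0, 0, 0, 100000, 0, ⟨1826160, 7169137⟩, 0⟩ 68 95)) (.void 26 ⟨0, 0, 0, 0, 0, 0, 100000, 0, 0, ⟨0, 0⟩, 0⟩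 0 0)))),
    by decide +kernel⟩

def covers4 : cell.Covers table row4.1 :=
  ⟨(.cut .d 0 (.cut .v 16777216 (.cut .v 8388608 (.void 2 ⟨0, 0, 0, 0, 50000, 50000, 0, 0, 0, ⟨0, 0⟩, 0⟩ 0 0) (.cut .v 12582912 (.pos 8 .mm ⟨0, 0, 0, 0, 0, 10238271, 0, 0, 0, ⟨0, 0⟩, 0⟩ 0 0) (.cut .v 14680064 (.pos 12 .mm ⟨0, 0, 0, 0, 0, 7402298, 0, 0, 0, ⟨0, 0⟩, 0⟩ 0 0) (.cut .d (-8388608) (.void 13 ⟨0, 0, 0, 0, 0, 100000, 0, 0, 0, ⟨0, 0⟩, 0⟩ 0 0) (.cut .d (-4194304) (.void 13 ⟨0, 0, 0, 0, 0, 100000, 0, 0, 0, ⟨0, 0⟩, 0⟩ 0 0) (.cut .d (-2097152) (.void 13 ⟨0, 0, 0, 0, 0, 100000, 0, 0, 0, ⟨0, 0⟩, 0⟩ 0 0) (.cut .d (-1048576) (.void 13 ⟨0, 0, 0, 0, 0, 100000, 0, 0, 0, ⟨0, 0⟩, 0⟩ 0 0) (.cut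 .v 15728640 (.cut .d (-524288) (.pos 16 .mm ⟨0, 0, 0, 0, 0, 1162699, 0, 0, 0, ⟨0, 0⟩, 0⟩ 0 0) (.pos 16 .mm ⟨0, 0, 0, 0, 0, 772809, 0, 0, 0, ⟨0, 0⟩, 0⟩ 0 0)) (.cut .d (-524288) (.cut .v 16252928 (.pos 20 .mm ⟨0, 0, 0, 0, 0, 1251359, 0, 0, 0, ⟨0, 0⟩, 0⟩ 0 0) (.pos 21 .mm ⟨0, 0, 0, 0, 0, 1375833, 0, 0, 0, ⟨0, 0⟩, 0⟩ 0 0)) (.cut .v 16252928 (.cut .l 750040 (.cut .d (-262144) (.cut .s 4882432 (.pos 20 .mm ⟨0, 0, 0, 0, 0, 558552, 0, 0, 0, ⟨0, 0⟩, 0⟩ 0 0) (.pos 20 .mm ⟨0, 0, 0, 0, 0, 1263617, 0, 0, 0, ⟨0, 0⟩, 0⟩ 0 0)) (.cut .l 483578 (.cut .v 15990784 (.pos 49 .mm ⟨0, 0, 0, 0, 0, 997823, 0, 0, 0, ⟨0, 0⟩, 0⟩ 0 0) (.cut .v 16121856 (.pos 61 .mm ⟨0, 0, 0, 0, 0, 872001,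 0, 0, 0, ⟨0, 0⟩, 0⟩ 0 0) (.cut .d (-131072) (.cut .s 4882432 (.pos 62 .mm ⟨0, 0, 0, 0, 0, 496166, 0, 0, 0, ⟨0, 0⟩, 0⟩ 0 0) (.pos 62 .mm ⟨0, 0, 0, 0, 0, 1094112, 0, 0, 0, ⟨0, 0⟩, 0⟩ 0 0)) (.cut .s 4882432 (.pos 62 .mm ⟨0, 0, 0, 0, 0, 305063, 0, 0, 0, ⟨0, 0⟩, 0⟩ 0 0) (.pos 62 .mm ⟨0, 0, 0, 0, 0, 786539, 0, 0, 0, ⟨0, 0⟩, 0⟩ 0 0))))) (.pos 20 .mm ⟨0, 0, 0, 0, 0, 268968, 0, 0, 0, ⟨0, 0⟩, 0⟩ 0 0))) (.cut .d (-262144) (.pos 20 .mm ⟨0, 0, 0, 0, 0, 377710, 0, 0, 0, ⟨0, 0⟩, 0⟩ 0 0) (.pos 20 .mm ⟨0, 0, 0, 0, 0, 0, 0, 0, 0, ⟨0, 0⟩, 0⟩ 0 0))) (.cut .l 750040 (.cut .d (-262144) (.pos 21 .mm ⟨0, 0, 0, 0, 0, 1116271, 0, 0, 0, ⟨0, 0⟩, 0⟩ 0 0) (.cut .v 16515072 (.cut .l 483578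 (.cut .d (-131072) (.cut .s 4882432 (.pos 22 .mm ⟨0, 0, 0, 0, 0, 500741, 0, 0, 0, ⟨0, 0⟩, 0⟩ 0 0) (.cut .s 5062656 (.pos 22 .mm ⟨0, 0, 0, 0, 0, 894962, 0, 0, 0, ⟨0, 0⟩, 0⟩ 0 0) (.pos 22 .mm ⟨0, 0, 0, 0, 0, 1285203, 0, 0, 0, ⟨0, 0⟩, 0⟩ 0 0))) (.cut .s 4882432 (.pos 22 .mm ⟨0, 0, 0, 0, 0, 88777, 0, 0, 0, ⟨0, 0⟩, 0⟩ 0 0) (.cut .d (-65536) (.cut .v 16384000 (.cut .s 5062656 (.pos 51 .mm ⟨0, 0, 0, 0, 0, 590228, 0, 0, 0, ⟨0, 0⟩, 0⟩ 0 0) (.pos 51 .mm ⟨0, 0, 0, 0, 0, 984489, 0, 0, 0, ⟨0, 0⟩, 0⟩ 0 0)) (.pos 52 .mm ⟨0, 0, 0, 0, 0, 776535, 0, 0, 0, ⟨0, 0⟩, 0⟩ 0 0)) (.pos 22 .mm ⟨0, 0, 0, 0, 0, 0, 0, 0, 0, ⟨0, 0⟩, 0⟩ 0 0)))) (.pos 22 .mm ⟨0, 0, 0, 0, 0, 121184, 0, 0, 0,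 ⟨0, 0⟩, 0⟩ 0 0)) (.pos 23 .mm ⟨0, 0, 0, 0, 0, 327912, 0, 0, 0, ⟨0, 0⟩, 0⟩ 0 0))) (.pos 21 .mm ⟨0, 0, 0, 0, 0, 0, 0, 0, 0, ⟨0, 0⟩, 0⟩ 0 0)))))))))))) (.cut .v 25165824 (.cut .v 20971520 (.pos 27 .mp ⟨0, 0, 0, 0, 0, 510299, 0, 0, 0, ⟨0, 0⟩, 0⟩ 0 0) (.void 28 ⟨100000, 0, 0, 0, 0, 0, 0, 0, 0, ⟨0, 0⟩, 0⟩ 0 0)) (.void 26 ⟨100000, 0, 0, 0, 0, 0, 0, 0, 0, ⟨0, 0⟩, 0⟩ 0 0))) (.cut .v 16777216 (.cut .v 8388608 (.void 2 ⟨0, 0, 0, 0, 100000, 0, 0, 0, 0, ⟨0, 0⟩, 0⟩ 0 0) (.cut .d 4101393 (.cut .v 12582912 (.pos 8 .pm ⟨0, 0, 0, 0, 0, 0, 0, 0, 0, ⟨0, 0⟩, 0⟩ 0 0) (.cut .d 2050696 (.cut .v 14680064 (.pos 12 .pm ⟨0, 0, 0, 0, 0, 0, 0, 0, 0, ⟨0, 0⟩, 0⟩ 0 0) (.cut .d 1025348 (.cut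 .v 15728640 (.pos 16 .pm ⟨0, 0, 0, 0, 0, 0, 0, 0, 0, ⟨0, 0⟩, 0⟩ 0 0) (.cut .d 512674 (.cut .v 16252928 (.pos 20 .pm ⟨0, 0, 0, 0, 0, 0, 0, 0, 0, ⟨0, 0⟩, 0⟩ 0 0) (.cut .d 256337 (.cut .v 16515072 (.pos 22 .pm ⟨0, 0, 0, 0, 0, 0, 0, 0, 0, ⟨0, 0⟩, 0⟩ 0 0) (.pos 23 .pm ⟨0, 0, 0, 0, 0, 0, 0, 0, 0, ⟨0, 0⟩, 0⟩ 0 0)) (.pos 21 .pm ⟨0, 0, 0, 0, 0, 0, 0, 0, 0, ⟨0, 0⟩, 0⟩ 0 0))) (.pos 17 .pm ⟨0, 0, 0, 0, 0, 0, 0, 154620, 0, ⟨1700872, 7702180⟩, 0⟩ 71 85))) (.pos 13 .pm ⟨0, 0, 0, 0, 0, 0, 0, 154620, 0, ⟨1866251, 7148950⟩, 0⟩ 73 90))) (.pos 9 .pm ⟨0, 0, 0, 0, 0, 0, 0, 154620, 0, ⟨2199885, 6093478⟩, 0⟩ 77 100))) (.void 3 ⟨0, 0, 0, 0, 0, 0, 0, 100000, 0, ⟨2847905, 4247588⟩, 0⟩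 85 120))) (.cut .v 25165824 (.cut .d 4101393 (.cut .v 20971520 (.cut .d 2050696 (.cut .v 18874368 (.cut .d 1025348 (.cut .v 17825792 (.cut .d 512674 (.cut .d 256337 (.pos 31 .pp ⟨0, 0, 0, 0, 0, 0, 0, 0, 0, ⟨0, 0⟩, 0⟩ 0 0) (.pos 31 .pp ⟨0, 0, 0, 0, 0, 0, 0, 157841, 0, ⟨1630043, 7943719⟩, 0⟩ 70 83)) (.pos 31 .pp ⟨0, 0, 0, 0, 0, 0, 0, 157841, 0, ⟨1700872, 7702180⟩, 0⟩ 71 85)) (.pos 32 .pp ⟨178491, 0, 0, 0, 0, 0, 0, 76346, 0, ⟨1646596, 7865648⟩, 0⟩ 69 85)) (.cut .v 17825792 (.pos 31 .pp ⟨0, 0, 0, 0, 0, 0, 0, 161062, 0, ⟨1866251, 7148950⟩, 0⟩ 73 90) (.pos 32 .pp ⟨0, 0, 0, 0, 0, 0, 0, 167505, 0, ⟨1866251, 7148950⟩, 0⟩ 73 90))) (.pos 30 .pp ⟨355600, 0, 0, 0, 0, 0,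 0, 0, 0, ⟨0, 0⟩, 0⟩ 0 0)) (.cut .v 18874368 (.pos 29 .pp ⟨0, 0, 0, 0, 0, 0, 0, 167505, 0, ⟨2199885, 6093478⟩, 0⟩ 77 100) (.pos 30 .pp ⟨0, 0, 0, 0, 0, 0, 0, 5405108, 0, ⟨2199885, 6093478⟩, 0⟩ 77 100))) (.cut .d 2050696 (.pos 28 .pp ⟨0, 0, 0, 0, 0, 0, 0, 193275, 0, ⟨1752754, 7471786⟩, 0⟩ 69 90) (.pos 28 .pp ⟨0, 0, 0, 0, 0, 0, 0, 16475741, 0, ⟨2199885, 6093478⟩, 0⟩ 77 100))) (.void 25 ⟨0, 0, 0, 0, 0, 0, 0, 100000, 0, ⟨2847905, 4247588⟩, 0⟩ 85 120)) (.void 26 ⟨0, 0, 0, 0, 0, 0, 100000, 0, 0, ⟨0, 0⟩, 0⟩ 0 0)))),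
    by decide +kernel⟩

def covers5 : cell.Covers table row5.1 :=
  ⟨(.cut .d 0 (.cut .v 16777216 (.cut .d (-8388608) (.void 1 ⟨0, 0, 0, 0, 0, 100000, 0, 0, 0, ⟨0, 0⟩, 0⟩ 0 0) (.cut .d (-4194304) (.void 1 ⟨0, 0, 0, 0, 0, 100000, 0, 0, 0, ⟨0, 0⟩, 0⟩ 0 0) (.cut .d (-2097152) (.void 1 ⟨0, 0, 0, 0, 0, 100000, 0, 0, 0, ⟨0, 0⟩, 0⟩ 0 0) (.cut .d (-1048576) (.void 1 ⟨0, 0, 0, 0, 0, 100000, 0, 0, 0, ⟨0, 0⟩, 0⟩ 0 0) (.cut .d (-524288) (.void 1 ⟨0, 0, 0, 0, 0, 100000, 0, 0, 0, ⟨0, 0⟩, 0⟩ 0 0) (.cut .v 8388608 (.cut .v 4194304 (.void 4 ⟨0, 0, 50000, 0, 50000, 0, 0, 0, 0, ⟨0, 0⟩, 0⟩ 0 0) (.void 5 ⟨0, 0, 0, 0, 0, 0, 0, 0, 100000, ⟨0, 0⟩, 9975792⟩ 0 0)) (.cut .v 12582912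 (.pos 8 .mm ⟨0, 0, 0, 0, 0, 7123445, 0, 0, 0, ⟨0, 0⟩, 0⟩ 0 0) (.cut .v 14680064 (.pos 12 .mm ⟨0, 0, 0, 0, 0, 3860017, 0, 0, 0, ⟨0, 0⟩, 0⟩ 0 0) (.cut .v 15728640 (.cut .s 5636096 (.pos 16 .mm ⟨0, 0, 0, 0, 0, 2334827, 0, 0, 0, ⟨0, 0⟩, 0⟩ 0 0) (.pos 16 .mm ⟨0, 0, 0, 0, 0, 4434117, 0, 0, 0, ⟨0, 0⟩, 0⟩ 0 0)) (.cut .s 5636096 (.cut .v 16252928 (.cut .s 5439488 (.cut .d (-262144) (.pos 20 .mm ⟨0, 0, 0, 0, 0, 1903656, 0, 0, 0, ⟨0, 0⟩, 0⟩ 0 0) (.cut .s 5341184 (.pos 20 .mm ⟨0, 0, 0, 0, 0, 1663168, 0, 0, 0, ⟨0, 0⟩, 0⟩ 0 0) (.pos 20 .mm ⟨0, 0, 0, 0, 0, 1959634, 0, 0, 0, ⟨0, 0⟩, 0⟩ 0 0))) (.cut .v 15990784 (.pos 49 .mm ⟨0, 0, 0, 0, 0, 2544293, 0, 0, 0, ⟨0, 0⟩, 0⟩ 0 0)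 (.cut .d (-262144) (.cut .s 5537792 (.pos 50 .mm ⟨0, 0, 0, 0, 0, 2449689, 0, 0, 0, ⟨0, 0⟩, 0⟩ 0 0) (.pos 50 .mm ⟨0, 0, 0, 0, 0, 2868844, 0, 0, 0, ⟨0, 0⟩, 0⟩ 0 0)) (.cut .s 5537792 (.pos 50 .mm ⟨0, 0, 0, 0, 0, 2301301, 0, 0, 0, ⟨0, 0⟩, 0⟩ 0 0) (.pos 50 .mm ⟨0, 0, 0, 0, 0, 2690054, 0, 0, 0, ⟨0, 0⟩, 0⟩ 0 0))))) (.cut .d (-262144) (.cut .s 5439488 (.pos 21 .mm ⟨0, 0, 0, 0, 0, 1948757, 0, 0, 0, ⟨0, 0⟩, 0⟩ 0 0) (.cut .s 5537792 (.pos 21 .mm ⟨0, 0, 0, 0, 0, 2504516, 0, 0, 0, ⟨0, 0⟩, 0⟩ 0 0) (.pos 21 .mm ⟨0, 0, 0, 0, 0, 2928248, 0, 0, 0, ⟨0, 0⟩, 0⟩ 0 0))) (.cut .l 750040 (.cut .s 5439488 (.cut .v 16515072 (.cut .l 483578 (.cut .d (-131072) (.pos 22 .mm ⟨0, 0, 0, 0,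 0, 1980411, 0, 0, 0, ⟨0, 0⟩, 0⟩ 0 0) (.cut .d (-65536) (.cut .s 5341184 (.pos 22 .mm ⟨0, 0, 0, 0, 0, 1591369, 0, 0, 0, ⟨0, 0⟩, 0⟩ 0 0) (.cut .v 16384000 (.pos 51 .mm ⟨0, 0, 0, 0, 0, 1906033, 0, 0, 0, ⟨0, 0⟩, 0⟩ 0 0) (.pos 52 .mm ⟨0, 0, 0, 0, 0, 1870675, 0, 0, 0, ⟨0, 0⟩, 0⟩ 0 0))) (.pos 22 .mm ⟨0, 0, 0, 0, 0, 0, 0, 0, 0, ⟨0, 0⟩, 0⟩ 0 0))) (.pos 22 .mm ⟨0, 0, 0, 0, 0, 1275582, 0, 0, 0, ⟨0, 0⟩, 0⟩ 0 0)) (.pos 23 .mm ⟨0, 0, 0, 0, 0, 1628438, 0, 0, 0, ⟨0, 0⟩, 0⟩ 0 0)) (.cut .v 16515072 (.cut .s 5537792 (.cut .d (-131072) (.pos 22 .mm ⟨0, 0, 0, 0, 0, 2381750, 0, 0, 0, ⟨0, 0⟩, 0⟩ 0 0) (.cut .d (-65536) (.cut .v 16384000 (.pos 51 .mm ⟨0, 0, 0, 0, 0, 2286757, 0, 0,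 0, ⟨0, 0⟩, 0⟩ 0 0) (.pos 52 .mm ⟨0, 0, 0, 0, 0, 2286009, 0, 0, 0, ⟨0, 0⟩, 0⟩ 0 0)) (.pos 22 .mm ⟨0, 0, 0, 0, 0, 0, 0, 0, 0, ⟨0, 0⟩, 0⟩ 0 0))) (.cut .d (-131072) (.cut .s 5586944 (.pos 22 .mm ⟨0, 0, 0, 0, 0, 2721150, 0, 0, 0, ⟨0, 0⟩, 0⟩ 0 0) (.pos 22 .mm ⟨0, 0, 0, 0, 0, 2950448, 0, 0, 0, ⟨0, 0⟩, 0⟩ 0 0)) (.cut .d (-65536) (.cut .l 483578 (.cut .v 16384000 (.pos 51 .mm ⟨0, 0, 0, 0, 0, 2726376, 0, 0, 0, ⟨0, 0⟩, 0⟩ 0 0) (.cut .s 5586944 (.pos 52 .mm ⟨0, 0, 0, 0, 0, 2604157, 0, 0, 0, ⟨0, 0⟩, 0⟩ 0 0) (.pos 52 .mm ⟨0, 0, 0, 0, 0, 2868700, 0, 0, 0, ⟨0, 0⟩, 0⟩ 0 0))) (.pos 22 .mm ⟨0, 0, 0, 0, 0, 0, 0, 0, 0, ⟨0, 0⟩, 0⟩ 0 0)) (.pos 22 .mm ⟨0, 0, 0, 0, 0, 0, 0, 0, 0, ⟨0,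 0⟩, 0⟩ 0 0)))) (.cut .d (-131072) (.pos 23 .mm ⟨0, 0, 0, 0, 0, 2637972, 0, 0, 0, ⟨0, 0⟩, 0⟩ 0 0) (.cut .s 5537792 (.pos 23 .mm ⟨0, 0, 0, 0, 0, 2005738, 0, 0, 0, ⟨0, 0⟩, 0⟩ 0 0) (.pos 23 .mm ⟨0, 0, 0, 0, 0, 2517915, 0, 0, 0, ⟨0, 0⟩, 0⟩ 0 0))))) (.pos 21 .mm ⟨0, 0, 0, 0, 0, 0, 0, 0, 0, ⟨0, 0⟩, 0⟩ 0 0)))) (.cut .s 5832704 (.cut .v 16252928 (.cut .v 15990784 (.pos 49 .mm ⟨0, 0, 0, 0, 0, 3535212, 0, 0, 0, ⟨0, 0⟩, 0⟩ 0 0) (.cut .d (-262144) (.cut .s 5734400 (.pos 50 .mm ⟨0, 0, 0, 0, 0, 3333194, 0, 0, 0, ⟨0, 0⟩, 0⟩ 0 0) (.pos 50 .mm ⟨0, 0, 0, 0, 0, 3874615, 0, 0, 0, ⟨0, 0⟩, 0⟩ 0 0)) (.cut .l 750040 (.cut .s 5734400 (.pos 50 .mm ⟨0, 0, 0, 0, 0, 3223749, 0, 0, 0, ⟨0,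 0⟩, 0⟩ 0 0) (.pos 50 .mm ⟨0, 0, 0, 0, 0, 3787659, 0, 0, 0, ⟨0, 0⟩, 0⟩ 0 0)) (.pos 50 .mm ⟨0, 0, 0, 0, 0, 2901037, 0, 0, 0, ⟨0, 0⟩, 0⟩ 0 0)))) (.cut .d (-262144) (.cut .l 750040 (.pos 21 .mm ⟨0, 0, 0, 0, 0, 6165999, 0, 0, 0, ⟨0, 0⟩, 0⟩ 0 0) (.cut .s 5734400 (.pos 21 .mm ⟨0, 0, 0, 0, 0, 3218615, 0, 0, 0, ⟨0, 0⟩, 0⟩ 0 0) (.pos 21 .mm ⟨0, 0, 0, 0, 0, 3727579, 0, 0, 0, ⟨0, 0⟩, 0⟩ 0 0))) (.cut .l 750040 (.cut .s 5734400 (.cut .v 16515072 (.cut .d (-131072) (.cut .s 5685248 (.pos 22 .mm ⟨0, 0, 0, 0, 0, 3190855, 0, 0, 0, ⟨0, 0⟩, 0⟩ 0 0) (.cut .s 5709824 (.pos 22 .mm ⟨0, 0, 0, 0, 0, 3388242, 0, 0, 0, ⟨0, 0⟩, 0⟩ 0 0) (.pos 22 .mm ⟨0, 0, 0, 0, 0, 3513219, 0, 0, 0, ⟨0,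 0⟩, 0⟩ 0 0))) (.cut .d (-65536) (.cut .l 483578 (.cut .v 16384000 (.cut .s 5685248 (.pos 51 .mm ⟨0, 0, 0, 0, 0, 3121688, 0, 0, 0, ⟨0, 0⟩, 0⟩ 0 0) (.pos 51 .mm ⟨0, 0, 0, 0, 0, 3384125, 0, 0, 0, ⟨0, 0⟩, 0⟩ 0 0)) (.cut .s 5685248 (.pos 52 .mm ⟨0, 0, 0, 0, 0, 3117362, 0, 0, 0, ⟨0, 0⟩, 0⟩ 0 0) (.pos 52 .mm ⟨0, 0, 0, 0, 0, 3368925, 0, 0, 0, ⟨0, 0⟩, 0⟩ 0 0))) (.pos 22 .mm ⟨0, 0, 0, 0, 0, 0, 0, 0, 0, ⟨0, 0⟩, 0⟩ 0 0)) (.pos 22 .mm ⟨0, 0, 0, 0, 0, 0, 0, 0, 0, ⟨0, 0⟩, 0⟩ 0 0))) (.cut .d (-131072) (.pos 23 .mm ⟨0, 0, 0, 0, 0, 3329969, 0, 0, 0, ⟨0, 0⟩, 0⟩ 0 0) (.cut .s 5685248 (.pos 23 .mm ⟨0, 0, 0, 0, 0, 2883782, 0, 0, 0, ⟨0, 0⟩, 0⟩ 0 0) (.pos 23 .mm ⟨0, 0, 0, 0, 0, 3196696,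 0, 0, 0, ⟨0, 0⟩, 0⟩ 0 0)))) (.cut .v 16515072 (.cut .d (-131072) (.cut .l 483578 (.cut .v 16384000 (.pos 51 .mm ⟨0, 0, 0, 0, 0, 3993892, 0, 0, 0, ⟨0, 0⟩, 0⟩ 0 0) (.pos 52 .mm ⟨0, 0, 0, 0, 0, 3991173, 0, 0, 0, ⟨0, 0⟩, 0⟩ 0 0)) (.cut .s 5783552 (.pos 22 .mm ⟨0, 0, 0, 0, 0, 3577380, 0, 0, 0, ⟨0, 0⟩, 0⟩ 0 0) (.pos 22 .mm ⟨0, 0, 0, 0, 0, 3880594, 0, 0, 0, ⟨0, 0⟩, 0⟩ 0 0))) (.cut .d (-65536) (.cut .l 483578 (.cut .v 16384000 (.cut .s 5783552 (.pos 51 .mm ⟨0, 0, 0, 0, 0, 3660398, 0, 0, 0, ⟨0, 0⟩, 0⟩ 0 0) (.pos 51 .mm ⟨0, 0, 0, 0, 0, 3950519, 0, 0, 0, ⟨0, 0⟩, 0⟩ 0 0)) (.cut .l 350347 (.cut .d (-98304) (.pos 52 .mm ⟨0, 0, 0, 0, 0, 3973913, 0, 0, 0, ⟨0, 0⟩, 0⟩ 0 0) (.cut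 .s 5783552 (.pos 52 .mm ⟨0, 0, 0, 0, 0, 3634990, 0, 0, 0, ⟨0, 0⟩, 0⟩ 0 0) (.cut .s 5808128 (.pos 52 .mm ⟨0, 0, 0, 0, 0, 3872730, 0, 0, 0, ⟨0, 0⟩, 0⟩ 0 0) (.pos 52 .mm ⟨0, 0, 0, 0, 0, 4021006, 0, 0, 0, ⟨0, 0⟩, 0⟩ 0 0)))) (.pos 52 .mm ⟨0, 0, 0, 0, 0, 3599316, 0, 0, 0, ⟨0, 0⟩, 0⟩ 0 0))) (.pos 22 .mm ⟨0, 0, 0, 0, 0, 0, 0, 0, 0, ⟨0, 0⟩, 0⟩ 0 0)) (.pos 22 .mm ⟨0, 0, 0, 0, 0, 0, 0, 0, 0, ⟨0, 0⟩, 0⟩ 0 0))) (.cut .v 16646144 (.cut .l 483578 (.cut .d (-131072) (.pos 53 .mm ⟨0, 0, 0, 0, 0, 4065271, 0, 0, 0, ⟨0, 0⟩, 0⟩ 0 0) (.cut .s 5783552 (.pos 53 .mm ⟨0, 0, 0, 0, 0, 3522798, 0, 0, 0, ⟨0, 0⟩, 0⟩ 0 0) (.pos 53 .mm ⟨0, 0, 0, 0, 0, 3862243, 0, 0, 0, ⟨0, 0⟩, 0⟩ 0 0))) (.pos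 53 .mm ⟨0, 0, 0, 0, 0, 3472144, 0, 0, 0, ⟨0, 0⟩, 0⟩ 0 0)) (.pos 54 .mm ⟨0, 0, 0, 0, 0, 3686292, 0, 0, 0, ⟨0, 0⟩, 0⟩ 0 0)))) (.cut .v 16515072 (.pos 22 .mm ⟨0, 0, 0, 0, 0, 2844292, 0, 0, 0, ⟨0, 0⟩, 0⟩ 0 0) (.pos 23 .mm ⟨0, 0, 0, 0, 0, 2757123, 0, 0, 0, ⟨0, 0⟩, 0⟩ 0 0))))) (.cut .v 16252928 (.cut .v 15990784 (.pos 49 .mm ⟨0, 0, 0, 0, 0, 4808752, 0, 0, 0, ⟨0, 0⟩, 0⟩ 0 0) (.cut .s 5931008 (.cut .d (-262144) (.cut .s 5881856 (.pos 50 .mm ⟨0, 0, 0, 0, 0, 4264650, 0, 0, 0, ⟨0, 0⟩, 0⟩ 0 0) (.pos 50 .mm ⟨0, 0, 0, 0, 0, 4579883, 0, 0, 0, ⟨0, 0⟩, 0⟩ 0 0)) (.cut .s 5881856 (.pos 50 .mm ⟨0, 0, 0, 0, 0, 4171329, 0, 0, 0, ⟨0, 0⟩, 0⟩ 0 0) (.pos 50 .mm ⟨0, 0, 0, 0, 0, 4481908,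 0, 0, 0, ⟨0, 0⟩, 0⟩ 0 0))) (.cut .d (-262144) (.cut .s 5980160 (.pos 50 .mm ⟨0, 0, 0, 0, 0, 4909221, 0, 0, 0, ⟨0, 0⟩, 0⟩ 0 0) (.pos 50 .mm ⟨0, 0, 0, 0, 0, 5252762, 0, 0, 0, ⟨0, 0⟩, 0⟩ 0 0)) (.cut .s 5980160 (.pos 50 .mm ⟨0, 0, 0, 0, 0, 4806599, 0, 0, 0, ⟨0, 0⟩, 0⟩ 0 0) (.pos 50 .mm ⟨0, 0, 0, 0, 0, 5145498, 0, 0, 0, ⟨0, 0⟩, 0⟩ 0 0))))) (.cut .s 5931008 (.cut .d (-262144) (.cut .v 16515072 (.cut .s 5881856 (.pos 22 .mm ⟨0, 0, 0, 0, 0, 4290640, 0, 0, 0, ⟨0, 0⟩, 0⟩ 0 0) (.cut .s 5906432 (.pos 22 .mm ⟨0, 0, 0, 0, 0, 4506088, 0, 0, 0, ⟨0, 0⟩, 0⟩ 0 0) (.pos 22 .mm ⟨0, 0, 0, 0, 0, 4665190, 0, 0, 0, ⟨0, 0⟩, 0⟩ 0 0))) (.pos 23 .mm ⟨0, 0, 0, 0, 0, 4554305, 0, 0, 0, ⟨0,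 0⟩, 0⟩ 0 0)) (.cut .l 750040 (.cut .v 16515072 (.cut .d (-131072) (.cut .s 5881856 (.cut .d (-196608) (.pos 22 .mm ⟨0, 0, 0, 0, 0, 4368619, 0, 0, 0, ⟨0, 0⟩, 0⟩ 0 0) (.cut .v 16384000 (.pos 51 .mm ⟨0, 0, 0, 0, 0, 4255105, 0, 0, 0, ⟨0, 0⟩, 0⟩ 0 0) (.cut .s 5857280 (.pos 52 .mm ⟨0, 0, 0, 0, 0, 4198423, 0, 0, 0, ⟨0, 0⟩, 0⟩ 0 0) (.pos 52 .mm ⟨0, 0, 0, 0, 0, 4349057, 0, 0, 0, ⟨0, 0⟩, 0⟩ 0 0)))) (.cut .d (-196608) (.pos 22 .mm ⟨0, 0, 0, 0, 0, 4672293, 0, 0, 0, ⟨0, 0⟩, 0⟩ 0 0) (.cut .v 16384000 (.pos 51 .mm ⟨0, 0, 0, 0, 0, 4569342, 0, 0, 0, ⟨0, 0⟩, 0⟩ 0 0) (.cut .s 5906432 (.pos 52 .mm ⟨0, 0, 0, 0, 0, 4500370, 0, 0, 0, ⟨0, 0⟩, 0⟩ 0 0) (.pos 52 .mm ⟨0, 0, 0, 0, 0, 4655620,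 0, 0, 0, ⟨0, 0⟩, 0⟩ 0 0))))) (.cut .d (-65536) (.cut .l 483578 (.cut .s 5881856 (.cut .v 16384000 (.pos 51 .mm ⟨0, 0, 0, 0, 0, 4252669, 0, 0, 0, ⟨0, 0⟩, 0⟩ 0 0) (.cut .s 5857280 (.pos 52 .mm ⟨0, 0, 0, 0, 0, 4176821, 0, 0, 0, ⟨0, 0⟩, 0⟩ 0 0) (.pos 52 .mm ⟨0, 0, 0, 0, 0, 4329363, 0, 0, 0, ⟨0, 0⟩, 0⟩ 0 0))) (.cut .v 16384000 (.pos 51 .mm ⟨0, 0, 0, 0, 0, 4564207, 0, 0, 0, ⟨0, 0⟩, 0⟩ 0 0) (.cut .s 5906432 (.pos 52 .mm ⟨0, 0, 0, 0, 0, 4485433, 0, 0, 0, ⟨0, 0⟩, 0⟩ 0 0) (.pos 52 .mm ⟨0, 0, 0, 0, 0, 4649769, 0, 0, 0, ⟨0, 0⟩, 0⟩ 0 0)))) (.pos 22 .mm ⟨0, 0, 0, 0, 0, 0, 0, 0, 0, ⟨0, 0⟩, 0⟩ 0 0)) (.pos 22 .mm ⟨0, 0, 0, 0, 0, 0, 0, 0, 0, ⟨0, 0⟩, 0⟩ 0 0))) (.cut .d (-131072)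 (.cut .l 483578 (.pos 23 .mm ⟨0, 0, 0, 0, 0, 4654617, 0, 0, 0, ⟨0, 0⟩, 0⟩ 0 0) (.pos 23 .mm ⟨0, 0, 0, 0, 0, 4298797, 0, 0, 0, ⟨0, 0⟩, 0⟩ 0 0)) (.cut .d (-65536) (.cut .v 16646144 (.cut .l 483578 (.cut .l 350347 (.cut .s 5881856 (.pos 53 .mm ⟨0, 0, 0, 0, 0, 4248865, 0, 0, 0, ⟨0, 0⟩, 0⟩ 0 0) (.cut .s 5906432 (.pos 53 .mm ⟨0, 0, 0, 0, 0, 4500235, 0, 0, 0, ⟨0, 0⟩, 0⟩ 0 0) (.pos 53 .mm ⟨0, 0, 0, 0, 0, 4661691, 0, 0, 0, ⟨0, 0⟩, 0⟩ 0 0))) (.pos 53 .mm ⟨0, 0, 0, 0, 0, 4216786, 0, 0, 0, ⟨0, 0⟩, 0⟩ 0 0)) (.pos 53 .mm ⟨0, 0, 0, 0, 0, 0, 0, 0, 0, ⟨0, 0⟩, 0⟩ 0 0)) (.pos 54 .mm ⟨0, 0, 0, 0, 0, 4308650, 0, 0, 0, ⟨0, 0⟩, 0⟩ 0 0)) (.pos 23 .mm ⟨0, 0, 0, 0, 0, 0, 0, 0, 0, ⟨0,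 0⟩, 0⟩ 0 0)))) (.cut .v 16515072 (.pos 22 .mm ⟨0, 0, 0, 0, 0, 3902467, 0, 0, 0, ⟨0, 0⟩, 0⟩ 0 0) (.pos 23 .mm ⟨0, 0, 0, 0, 0, 3830114, 0, 0, 0, ⟨0, 0⟩, 0⟩ 0 0)))) (.cut .d (-262144) (.cut .d (-393216) (.pos 21 .mm ⟨0, 0, 0, 0, 0, 5393556, 0, 0, 0, ⟨0, 0⟩, 0⟩ 0 0) (.cut .l 750040 (.void 21 ⟨0, 0, 0, 0, 0, 100000, 0, 0, 0, ⟨0, 0⟩, 0⟩ 0 0) (.cut .v 16515072 (.cut .s 5980160 (.pos 22 .mm ⟨0, 0, 0, 0, 0, 4809974, 0, 0, 0, ⟨0, 0⟩, 0⟩ 0 0) (.pos 22 .mm ⟨0, 0, 0, 0, 0, 5158267, 0, 0, 0, ⟨0, 0⟩, 0⟩ 0 0)) (.pos 23 .mm ⟨0, 0, 0, 0, 0, 5008603, 0, 0, 0, ⟨0, 0⟩, 0⟩ 0 0)))) (.cut .l 750040 (.cut .v 16515072 (.cut .s 5980160 (.cut .d (-131072) (.cut .v 16384000 (.pos 51 .mm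 ⟨0, 0, 0, 0, 0, 4919072, 0, 0, 0, ⟨0, 0⟩, 0⟩ 0 0) (.cut .d (-196608) (.pos 52 .mm ⟨0, 0, 0, 0, 0, 5004251, 0, 0, 0, ⟨0, 0⟩, 0⟩ 0 0) (.cut .l 483578 (.pos 52 .mm ⟨0, 0, 0, 0, 0, 5007644, 0, 0, 0, ⟨0, 0⟩, 0⟩ 0 0) (.pos 52 .mm ⟨0, 0, 0, 0, 0, 4802794, 0, 0, 0, ⟨0, 0⟩, 0⟩ 0 0)))) (.cut .d (-65536) (.cut .v 16384000 (.pos 51 .mm ⟨0, 0, 0, 0, 0, 4820601, 0, 0, 0, ⟨0, 0⟩, 0⟩ 0 0) (.cut .l 483578 (.cut .s 5955584 (.pos 52 .mm ⟨0, 0, 0, 0, 0, 4814734, 0, 0, 0, ⟨0, 0⟩, 0⟩ 0 0) (.pos 52 .mm ⟨0, 0, 0, 0, 0, 4981061, 0, 0, 0, ⟨0, 0⟩, 0⟩ 0 0)) (.pos 52 .mm ⟨0, 0, 0, 0, 0, 0, 0, 0, 0, ⟨0, 0⟩, 0⟩ 0 0))) (.pos 22 .mm ⟨0, 0, 0, 0, 0, 0, 0, 0, 0, ⟨0, 0⟩, 0⟩ 0 0))) (.cut .d (-131072)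 (.cut .v 16384000 (.pos 51 .mm ⟨0, 0, 0, 0, 0, 5261051, 0, 0, 0, ⟨0, 0⟩, 0⟩ 0 0) (.cut .d (-196608) (.pos 52 .mm ⟨0, 0, 0, 0, 0, 5349156, 0, 0, 0, ⟨0, 0⟩, 0⟩ 0 0) (.cut .l 483578 (.pos 52 .mm ⟨0, 0, 0, 0, 0, 5355910, 0, 0, 0, ⟨0, 0⟩, 0⟩ 0 0) (.cut .s 6004736 (.pos 52 .mm ⟨0, 0, 0, 0, 0, 5090307, 0, 0, 0, ⟨0, 0⟩, 0⟩ 0 0) (.pos 52 .mm ⟨0, 0, 0, 0, 0, 5269746, 0, 0, 0, ⟨0, 0⟩, 0⟩ 0 0))))) (.cut .d (-65536) (.cut .v 16384000 (.pos 51 .mm ⟨0, 0, 0, 0, 0, 5149559, 0, 0, 0, ⟨0, 0⟩, 0⟩ 0 0) (.cut .l 483578 (.cut .s 6004736 (.pos 52 .mm ⟨0, 0, 0, 0, 0, 5153873, 0, 0, 0, ⟨0, 0⟩, 0⟩ 0 0) (.pos 52 .mm ⟨0, 0, 0, 0, 0, 5333804, 0, 0, 0, ⟨0, 0⟩, 0⟩ 0 0)) (.pos 52 .mm ⟨0,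 0, 0, 0, 0, 0, 0, 0, 0, ⟨0, 0⟩, 0⟩ 0 0))) (.pos 22 .mm ⟨0, 0, 0, 0, 0, 0, 0, 0, 0, ⟨0, 0⟩, 0⟩ 0 0)))) (.cut .s 5980160 (.cut .d (-131072) (.cut .s 5955584 (.pos 23 .mm ⟨0, 0, 0, 0, 0, 4828430, 0, 0, 0, ⟨0, 0⟩, 0⟩ 0 0) (.pos 23 .mm ⟨0, 0, 0, 0, 0, 4989338, 0, 0, 0, ⟨0, 0⟩, 0⟩ 0 0)) (.cut .d (-65536) (.cut .v 16646144 (.cut .s 5955584 (.pos 53 .mm ⟨0, 0, 0, 0, 0, 4791036, 0, 0, 0, ⟨0, 0⟩, 0⟩ 0 0) (.cut .s 5967872 (.pos 53 .mm ⟨0, 0, 0, 0, 0, 4942634, 0, 0, 0, ⟨0, 0⟩, 0⟩ 0 0) (.pos 53 .mm ⟨0, 0, 0, 0, 0, 5026312, 0, 0, 0, ⟨0, 0⟩, 0⟩ 0 0))) (.pos 54 .mm ⟨0, 0, 0, 0, 0, 4844846, 0, 0, 0, ⟨0, 0⟩, 0⟩ 0 0)) (.pos 23 .mm ⟨0, 0, 0, 0, 0, 0, 0, 0, 0, ⟨0, 0⟩, 0⟩ 0 0)))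 (.cut .d (-131072) (.cut .d (-196608) (.pos 23 .mm ⟨0, 0, 0, 0, 0, 5375528, 0, 0, 0, ⟨0, 0⟩, 0⟩ 0 0) (.cut .l 483578 (.pos 23 .mm ⟨0, 0, 0, 0, 0, 5401149, 0, 0, 0, ⟨0, 0⟩, 0⟩ 0 0) (.pos 23 .mm ⟨0, 0, 0, 0, 0, 5150028, 0, 0, 0, ⟨0, 0⟩, 0⟩ 0 0))) (.cut .v 16646144 (.cut .d (-65536) (.cut .l 483578 (.cut .s 6004736 (.cut .s 5992448 (.pos 53 .mm ⟨0, 0, 0, 0, 0, 5120206, 0, 0, 0, ⟨0, 0⟩, 0⟩ 0 0) (.pos 53 .mm ⟨0, 0, 0, 0, 0, 5207357, 0, 0, 0, ⟨0, 0⟩, 0⟩ 0 0)) (.cut .s 6017024 (.pos 53 .mm ⟨0, 0, 0, 0, 0, 5295416, 0, 0, 0, ⟨0, 0⟩, 0⟩ 0 0) (.cut .s 6023168 (.pos 53 .mm ⟨0, 0, 0, 0, 0, 5369612, 0, 0, 0, ⟨0, 0⟩, 0⟩ 0 0) (.pos 53 .mm ⟨0, 0, 0, 0, 0, 5412598, 0, 0, 0,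 ⟨0, 0⟩, 0⟩ 0 0)))) (.pos 53 .mm ⟨0, 0, 0, 0, 0, 0, 0, 0, 0, ⟨0, 0⟩, 0⟩ 0 0)) (.pos 53 .mm ⟨0, 0, 0, 0, 0, 0, 0, 0, 0, ⟨0, 0⟩, 0⟩ 0 0)) (.pos 54 .mm ⟨0, 0, 0, 0, 0, 5152953, 0, 0, 0, ⟨0, 0⟩, 0⟩ 0 0))))) (.cut .d (-131072) (.cut .d (-196608) (.cut .d (-229376) (.cut .v 16515072 (.cut .s 5980160 (.pos 22 .mm ⟨0, 0, 0, 0, 0, 4760971, 0, 0, 0, ⟨0, 0⟩, 0⟩ 0 0) (.pos 22 .mm ⟨0, 0, 0, 0, 0, 5095078, 0, 0, 0, ⟨0, 0⟩, 0⟩ 0 0)) (.pos 23 .mm ⟨0, 0, 0, 0, 0, 4880868, 0, 0, 0, ⟨0, 0⟩, 0⟩ 0 0)) (.pos 21 .mm ⟨0, 0, 0, 0, 0, 0, 0, 0, 0, ⟨0, 0⟩, 0⟩ 0 0)) (.pos 21 .mm ⟨0, 0, 0, 0, 0, 0, 0, 0, 0, ⟨0, 0⟩, 0⟩ 0 0)) (.pos 21 .mm ⟨0, 0, 0, 0, 0, 0, 0, 0, 0, ⟨0, 0⟩, 0⟩ 0 0)))))))))))))))))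 (.cut .v 25165824 (.cut .v 20971520 (.cut .d (-8388608) (.void 27 ⟨0, 0, 0, 0, 0, 100000, 0, 0, 0, ⟨0, 0⟩, 0⟩ 0 0) (.cut .d (-4194304) (.void 27 ⟨0, 0, 0, 0, 0, 100000, 0, 0, 0, ⟨0, 0⟩, 0⟩ 0 0) (.cut .d (-2097152) (.void 27 ⟨0, 0, 0, 0, 0, 100000, 0, 0, 0, ⟨0, 0⟩, 0⟩ 0 0) (.cut .d (-1048576) (.void 27 ⟨0, 0, 0, 0, 0, 100000, 0, 0, 0, ⟨0, 0⟩, 0⟩ 0 0) (.cut .d (-524288) (.void 27 ⟨0, 0, 0, 0, 0, 100000, 0, 0, 0, ⟨0, 0⟩, 0⟩ 0 0) (.cut .s 5636096 (.pos 27 .mp ⟨0, 0, 0, 0, 0, 1913005, 0, 0, 0, ⟨0, 0⟩, 0⟩ 0 0) (.cut .d (-262144) (.pos 27 .mp ⟨33950, 0, 0, 0, 0, 4869168, 0, 0, 0, ⟨0, 0⟩, 0⟩ 0 0) (.cut .s 5832704 (.pos 27 .mp ⟨504506, 0, 0, 0, 0, 2807777, 0, 0, 0,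 ⟨0, 0⟩, 0⟩ 0 0) (.cut .s 5931008 (.pos 27 .mp ⟨877846, 0, 0, 0, 0, 3480079, 0, 0, 0, ⟨0, 0⟩, 0⟩ 0 0) (.cut .s 5980160 (.pos 27 .mp ⟨1092663, 0, 0, 0, 0, 3859748, 0, 0, 0, ⟨0, 0⟩, 0⟩ 0 0) (.pos 27 .mp ⟨1236561, 0, 0, 0, 0, 4073178, 0, 0, 0, ⟨0, 0⟩, 0⟩ 0 0))))))))))) (.void 28 ⟨100000, 0, 0, 0, 0, 0, 0, 0, 0, ⟨0, 0⟩, 0⟩ 0 0)) (.void 26 ⟨100000, 0, 0, 0, 0, 0, 0, 0, 0, ⟨0, 0⟩, 0⟩ 0 0))) (.cut .v 16777216 (.cut .d 5768977 (.cut .v 8388608 (.cut .v 4194304 (.void 4 ⟨0, 0, 48714, 0, 51286, 0, 0, 0, 0, ⟨0, 0⟩, 0⟩ 0 0) (.void 5 ⟨0, 0, 0, 0, 0, 0, 0, 0, 100000, ⟨0, 0⟩, 9975792⟩ 0 0)) (.cut .v 12582912 (.pos 8 .pm ⟨0, 0, 0, 0, 0, 0, 0, 0, 0, ⟨0, 0⟩, 0⟩ 0 0) (.cut .v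 14680064 (.pos 12 .pm ⟨0, 0, 0, 0, 0, 0, 0, 0, 0, ⟨0, 0⟩, 0⟩ 0 0) (.cut .v 15728640 (.pos 16 .pm ⟨0, 0, 0, 0, 0, 0, 0, 0, 0, ⟨0, 0⟩, 0⟩ 0 0) (.cut .v 16252928 (.pos 20 .pm ⟨0, 0, 0, 0, 0, 0, 0, 0, 0, ⟨0, 0⟩, 0⟩ 0 0) (.pos 21 .pm ⟨0, 0, 0, 0, 0, 0, 0, 0, 0, ⟨0, 0⟩, 0⟩ 0 0)))))) (.void 1 ⟨0, 0, 0, 0, 0, 0, 0, 100000, 0, ⟨4006281, 1636493⟩, 0⟩ 107 156)) (.cut .d 5768977 (.cut .v 25165824 (.cut .v 20971520 (.cut .d 2884488 (.cut .v 18874368 (.cut .d 1442244 (.cut .d 721122 (.pos 29 .pp ⟨0, 0, 0, 0, 0, 0, 0, 0, 0, ⟨0, 0⟩, 0⟩ 0 0) (.pos 29 .pp ⟨0, 0, 0, 0, 0, 0, 0, 875773, 0, ⟨2376597, 5641095⟩, 0⟩ 83 100)) (.pos 29 .pp ⟨0, 0, 0, 0, 0, 0, 0, 875773, 0, ⟨2639953,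 4892951⟩, 0⟩ 86 108)) (.pos 30 .pp ⟨0, 0, 0, 0, 0, 0, 0, 945835, 0, ⟨2458365, 5323382⟩, 0⟩ 80 108)) (.pos 27 .pp ⟨0, 0, 0, 0, 0, 0, 0, 14505907, 0, ⟨3164660, 3525574⟩, 0⟩ 93 124)) (.cut .d 2884488 (.pos 28 .pp ⟨175207, 0, 0, 0, 0, 0, 351488, 0, 0, ⟨0, 0⟩, 0⟩ 0 0) (.pos 28 .pp ⟨0, 0, 0, 0, 0, 0, 0, 20014685, 0, ⟨3164660, 3525574⟩, 0⟩ 93 124))) (.pos 26 .pp ⟨0, 0, 0, 0, 0, 0, 24953464, 0, 0, ⟨0, 0⟩, 0⟩ 0 0)) (.void 24 ⟨0, 0, 0, 0, 0, 0, 0, 100000, 0, ⟨4006281, 1636493⟩, 0⟩ 107 156)))),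
    by decide +kernel⟩

def covers6 : cell.Covers table row6.1 :=
  ⟨(.cut .d 0 (.cut .v 16777216 (.cut .d (-8388608) (.void 1 ⟨0, 0, 0, 0, 0, 100000, 0, 0, 0, ⟨0, 0⟩, 0⟩ 0 0) (.cut .d (-4194304) (.void 1 ⟨0, 0, 0, 0, 0, 100000, 0, 0, 0, ⟨0, 0⟩, 0⟩ 0 0) (.cut .d (-2097152) (.void 1 ⟨0, 0, 0, 0, 0, 100000, 0, 0, 0, ⟨0, 0⟩, 0⟩ 0 0) (.cut .d (-1048576) (.void 1 ⟨0, 0, 0, 0, 0, 100000, 0, 0, 0, ⟨0, 0⟩, 0⟩ 0 0) (.cut .d (-524288) (.void 1 ⟨0, 0, 0, 0, 0, 100000, 0, 0, 0, ⟨0, 0⟩, 0⟩ 0 0) (.cut .v 8388608 (.cut .v 4194304 (.void 4 ⟨0, 0, 100000, 0, 0, 0, 0, 0, 0, ⟨0, 0⟩, 0⟩ 0 0) (.pos 5 .mm ⟨0, 0, 0, 0, 0, 12077202, 0, 0, 0, ⟨0, 0⟩, 0⟩ 0 0)) (.cut .v 12582912 (.pos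 8 .mm ⟨0, 0, 0, 0, 0, 9042993, 0, 0, 0, ⟨0, 0⟩, 0⟩ 0 0) (.cut .v 14680064 (.pos 12 .mm ⟨0, 0, 0, 0, 0, 9092286, 0, 0, 0, ⟨0, 0⟩, 0⟩ 0 0) (.cut .s 6422528 (.cut .v 15728640 (.pos 16 .mm ⟨0, 0, 0, 0, 0, 7278823, 0, 0, 0, ⟨0, 0⟩, 0⟩ 0 0) (.cut .s 6225920 (.cut .s 6127616 (.cut .v 16252928 (.cut .d (-262144) (.cut .s 6078464 (.pos 20 .mm ⟨0, 0, 0, 0, 0, 5580439, 0, 0, 0, ⟨0, 0⟩, 0⟩ 0 0) (.pos 20 .mm ⟨0, 0, 0, 0, 0, 6002903, 0, 0, 0, ⟨0, 0⟩, 0⟩ 0 0)) (.pos 20 .mm ⟨0, 0, 0, 0, 0, 5586564, 0, 0, 0, ⟨0, 0⟩, 0⟩ 0 0)) (.cut .d (-262144) (.cut .d (-393216) (.pos 21 .mm ⟨0, 0, 0, 0, 0, 6083453, 0, 0, 0, ⟨0, 0⟩, 0⟩ 0 0) (.cut .l 750040 (.void 21 ⟨0, 0, 0, 0, 0, 100000,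 0, 0, 0, ⟨0, 0⟩, 0⟩ 0 0) (.cut .v 16515072 (.cut .s 6078464 (.pos 22 .mm ⟨0, 0, 0, 0, 0, 5417695, 0, 0, 0, ⟨0, 0⟩, 0⟩ 0 0) (.pos 22 .mm ⟨0, 0, 0, 0, 0, 5846751, 0, 0, 0, ⟨0, 0⟩, 0⟩ 0 0)) (.pos 23 .mm ⟨0, 0, 0, 0, 0, 5582294, 0, 0, 0, ⟨0, 0⟩, 0⟩ 0 0)))) (.cut .l 750040 (.cut .s 6078464 (.cut .v 16515072 (.cut .d (-131072) (.cut .s 6053888 (.cut .s 6041600 (.cut .v 16384000 (.pos 51 .mm ⟨0, 0, 0, 0, 0, 5415953, 0, 0, 0, ⟨0, 0⟩, 0⟩ 0 0) (.cut .l 483578 (.pos 52 .mm ⟨0, 0, 0, 0, 0, 5477342, 0, 0, 0, ⟨0, 0⟩, 0⟩ 0 0) (.pos 52 .mm ⟨0, 0, 0, 0, 0, 5404082, 0, 0, 0, ⟨0, 0⟩, 0⟩ 0 0))) (.pos 22 .mm ⟨0, 0, 0, 0, 0, 5534200, 0, 0, 0, ⟨0, 0⟩, 0⟩ 0 0)) (.pos 22 .mm ⟨0, 0,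 0, 0, 0, 5685255, 0, 0, 0, ⟨0, 0⟩, 0⟩ 0 0)) (.cut .s 6053888 (.cut .s 6041600 (.pos 22 .mm ⟨0, 0, 0, 0, 0, 5419549, 0, 0, 0, ⟨0, 0⟩, 0⟩ 0 0) (.pos 22 .mm ⟨0, 0, 0, 0, 0, 5521413, 0, 0, 0, ⟨0, 0⟩, 0⟩ 0 0)) (.pos 22 .mm ⟨0, 0, 0, 0, 0, 5633421, 0, 0, 0, ⟨0, 0⟩, 0⟩ 0 0))) (.cut .d (-131072) (.cut .s 6053888 (.cut .l 483578 (.pos 23 .mm ⟨0, 0, 0, 0, 0, 5519482, 0, 0, 0, ⟨0, 0⟩, 0⟩ 0 0) (.pos 23 .mm ⟨0, 0, 0, 0, 0, 5389812, 0, 0, 0, ⟨0, 0⟩, 0⟩ 0 0)) (.pos 23 .mm ⟨0, 0, 0, 0, 0, 5691387, 0, 0, 0, ⟨0, 0⟩, 0⟩ 0 0)) (.cut .v 16646144 (.cut .s 6053888 (.cut .s 6041600 (.cut .d (-65536) (.cut .d (-98304) (.pos 53 .mm ⟨0, 0, 0, 0, 0, 5436089, 0, 0, 0, ⟨0, 0⟩, 0⟩ 0 0) (.pos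 53 .mm ⟨0, 0, 0, 0, 0, 5432751, 0, 0, 0, ⟨0, 0⟩, 0⟩ 0 0)) (.pos 53 .mm ⟨0, 0, 0, 0, 0, 0, 0, 0, 0, ⟨0, 0⟩, 0⟩ 0 0)) (.pos 53 .mm ⟨0, 0, 0, 0, 0, 5480779, 0, 0, 0, ⟨0, 0⟩, 0⟩ 0 0)) (.pos 53 .mm ⟨0, 0, 0, 0, 0, 5634235, 0, 0, 0, ⟨0, 0⟩, 0⟩ 0 0)) (.pos 54 .mm ⟨0, 0, 0, 0, 0, 5458076, 0, 0, 0, ⟨0, 0⟩, 0⟩ 0 0)))) (.cut .v 16515072 (.cut .d (-131072) (.pos 22 .mm ⟨0, 0, 0, 0, 0, 5991808, 0, 0, 0, ⟨0, 0⟩, 0⟩ 0 0) (.pos 22 .mm ⟨0, 0, 0, 0, 0, 5867673, 0, 0, 0, ⟨0, 0⟩, 0⟩ 0 0)) (.cut .d (-131072) (.pos 23 .mm ⟨0, 0, 0, 0, 0, 6002347, 0, 0, 0, ⟨0, 0⟩, 0⟩ 0 0) (.pos 23 .mm ⟨0, 0, 0, 0, 0, 5877730, 0, 0, 0, ⟨0, 0⟩, 0⟩ 0 0)))) (.cut .v 16515072 (.pos 22 .mm ⟨0, 0, 0, 0,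 0, 5215200, 0, 0, 0, ⟨0, 0⟩, 0⟩ 0 0) (.pos 23 .mm ⟨0, 0, 0, 0, 0, 5099017, 0, 0, 0, ⟨0, 0⟩, 0⟩ 0 0))))) (.cut .v 16252928 (.cut .s 6176768 (.pos 20 .mm ⟨0, 0, 0, 0, 0, 6328321, 0, 0, 0, ⟨0, 0⟩, 0⟩ 0 0) (.pos 20 .mm ⟨0, 0, 0, 0, 0, 6789453, 0, 0, 0, ⟨0, 0⟩, 0⟩ 0 0)) (.cut .d (-262144) (.cut .s 6176768 (.cut .s 6152192 (.pos 21 .mm ⟨0, 0, 0, 0, 0, 6324355, 0, 0, 0, ⟨0, 0⟩, 0⟩ 0 0) (.pos 21 .mm ⟨0, 0, 0, 0, 0, 6558924, 0, 0, 0, ⟨0, 0⟩, 0⟩ 0 0)) (.pos 21 .mm ⟨0, 0, 0, 0, 0, 6942617, 0, 0, 0, ⟨0, 0⟩, 0⟩ 0 0)) (.cut .l 750040 (.cut .s 6176768 (.cut .v 16515072 (.pos 22 .mm ⟨0, 0, 0, 0, 0, 6379668, 0, 0, 0, ⟨0, 0⟩, 0⟩ 0 0) (.pos 23 .mm ⟨0, 0, 0, 0, 0, 6390291, 0,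 0, 0, ⟨0, 0⟩, 0⟩ 0 0)) (.cut .v 16515072 (.pos 22 .mm ⟨0, 0, 0, 0, 0, 6860809, 0, 0, 0, ⟨0, 0⟩, 0⟩ 0 0) (.pos 23 .mm ⟨0, 0, 0, 0, 0, 6858193, 0, 0, 0, ⟨0, 0⟩, 0⟩ 0 0))) (.pos 21 .mm ⟨0, 0, 0, 0, 0, 6021928, 0, 0, 0, ⟨0, 0⟩, 0⟩ 0 0))))) (.cut .s 6324224 (.cut .v 16252928 (.pos 20 .mm ⟨0, 0, 0, 0, 0, 7637832, 0, 0, 0, ⟨0, 0⟩, 0⟩ 0 0) (.cut .s 6275072 (.cut .d (-262144) (.pos 21 .mm ⟨0, 0, 0, 0, 0, 7468925, 0, 0, 0, ⟨0, 0⟩, 0⟩ 0 0) (.cut .s 6250496 (.pos 21 .mm ⟨0, 0, 0, 0, 0, 7247152, 0, 0, 0, ⟨0, 0⟩, 0⟩ 0 0) (.pos 21 .mm ⟨0, 0, 0, 0, 0, 7495157, 0, 0, 0, ⟨0, 0⟩, 0⟩ 0 0))) (.cut .d (-262144) (.pos 21 .mm ⟨0, 0, 0, 0, 0, 8019877, 0, 0, 0, ⟨0, 0⟩, 0⟩ 0 0) (.cut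 .s 6299648 (.pos 21 .mm ⟨0, 0, 0, 0, 0, 7748926, 0, 0, 0, ⟨0, 0⟩, 0⟩ 0 0) (.pos 21 .mm ⟨0, 0, 0, 0, 0, 8008516, 0, 0, 0, ⟨0, 0⟩, 0⟩ 0 0))))) (.cut .v 16252928 (.pos 20 .mm ⟨0, 0, 0, 0, 0, 8736159, 0, 0, 0, ⟨0, 0⟩, 0⟩ 0 0) (.cut .d (-262144) (.pos 21 .mm ⟨0, 0, 0, 0, 0, 8980788, 0, 0, 0, ⟨0, 0⟩, 0⟩ 0 0) (.cut .s 6373376 (.pos 21 .mm ⟨0, 0, 0, 0, 0, 8380819, 0, 0, 0, ⟨0, 0⟩, 0⟩ 0 0) (.pos 21 .mm ⟨0, 0, 0, 0, 0, 8947203, 0, 0, 0, ⟨0, 0⟩, 0⟩ 0 0))))))) (.cut .v 15728640 (.pos 16 .mm ⟨0, 0, 0, 0, 0, 11763252, 0, 0, 0, ⟨0, 0⟩, 0⟩ 0 0) (.cut .s 6619136 (.cut .s 6520832 (.cut .v 16252928 (.pos 20 .mm ⟨0, 0, 0, 0, 0, 9911789, 0, 0, 0, ⟨0, 0⟩, 0⟩ 0 0) (.cut .s 6471680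 (.cut .s 6447104 (.pos 21 .mm ⟨0, 0, 0, 0, 0, 9519940, 0, 0, 0, ⟨0, 0⟩, 0⟩ 0 0) (.pos 21 .mm ⟨0, 0, 0, 0, 0, 9818127, 0, 0, 0, ⟨0, 0⟩, 0⟩ 0 0)) (.pos 21 .mm ⟨0, 0, 0, 0, 0, 10224869, 0, 0, 0, ⟨0, 0⟩, 0⟩ 0 0))) (.cut .s 6569984 (.pos 17 .mm ⟨0, 0, 0, 0, 0, 10862061, 0, 0, 0, ⟨0, 0⟩, 0⟩ 0 0) (.pos 17 .mm ⟨0, 0, 0, 0, 0, 11560077, 0, 0, 0, ⟨0, 0⟩, 0⟩ 0 0))) (.cut .s 6717440 (.cut .s 6668288 (.pos 17 .mm ⟨0, 0, 0, 0, 0, 12260821, 0, 0, 0, ⟨0, 0⟩, 0⟩ 0 0) (.pos 17 .mm ⟨0, 0, 0, 0, 0, 13001034, 0, 0, 0, ⟨0, 0⟩, 0⟩ 0 0)) (.cut .s 6766592 (.pos 17 .mm ⟨0, 0, 0, 0, 0, 13764633, 0, 0, 0, ⟨0, 0⟩, 0⟩ 0 0) (.pos 17 .mm ⟨0, 0, 0, 0, 0, 14551422, 0, 0, 0, ⟨0, 0⟩, 0⟩ 0 0))))))))))))))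 (.cut .v 33554432 (.cut .v 25165824 (.cut .v 20971520 (.cut .d (-8388608) (.void 27 ⟨0, 0, 0, 0, 0, 100000, 0, 0, 0, ⟨0, 0⟩, 0⟩ 0 0) (.cut .d (-4194304) (.void 27 ⟨0, 0, 0, 0, 0, 100000, 0, 0, 0, ⟨0, 0⟩, 0⟩ 0 0) (.cut .v 18874368 (.cut .d (-2097152) (.void 29 ⟨0, 0, 0, 0, 0, 100000, 0, 0, 0, ⟨0, 0⟩, 0⟩ 0 0) (.cut .d (-1048576) (.void 29 ⟨0, 0, 0, 0, 0, 100000, 0, 0, 0, ⟨0, 0⟩, 0⟩ 0 0) (.cut .d (-524288) (.void 29 ⟨0, 0, 0, 0, 0, 100000, 0, 0, 0, ⟨0, 0⟩, 0⟩ 0 0) (.cut .v 17825792 (.cut .s 6422528 (.cut .v 17301504 (.cut .s 6225920 (.cut .d (-262144) (.pos 33 .mp ⟨0, 0, 0, 0, 0, 6588518, 0, 0, 0, ⟨0, 0⟩, 0⟩ 0 0) (.cut .s 6127616 (.pos 33 .mp ⟨0, 0, 0, 0, 0, 5580371,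 0, 0, 0, ⟨0, 0⟩, 0⟩ 0 0) (.cut .s 6176768 (.pos 33 .mp ⟨0, 0, 0, 0, 0, 6368700, 0, 0, 0, ⟨0, 0⟩, 0⟩ 0 0) (.pos 33 .mp ⟨0, 0, 0, 0, 0, 6834960, 0, 0, 0, ⟨0, 0⟩, 0⟩ 0 0)))) (.cut .v 17039360 (.cut .s 6324224 (.cut .s 6275072 (.pos 35 .mp ⟨0, 0, 0, 0, 0, 7406717, 0, 0, 0, ⟨0, 0⟩, 0⟩ 0 0) (.pos 35 .mp ⟨0, 0, 0, 0, 0, 7928110, 0, 0, 0, ⟨0, 0⟩, 0⟩ 0 0)) (.cut .s 6373376 (.pos 35 .mp ⟨0, 0, 0, 0, 0, 8473642, 0, 0, 0, ⟨0, 0⟩, 0⟩ 0 0) (.pos 35 .mp ⟨0, 0, 0, 0, 0, 9043308, 0, 0, 0, ⟨0, 0⟩, 0⟩ 0 0))) (.pos 36 .mp ⟨8337473, 0, 0, 0, 0, 1220871, 0, 0, 0, ⟨0, 0⟩, 0⟩ 0 0))) (.pos 34 .mp ⟨9034507, 0, 0, 0, 0, 0, 0, 0, 0, ⟨0, 0⟩, 0⟩ 0 0)) (.cut .v 17301504 (.cut .s 6619136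 (.cut .s 6520832 (.cut .s 6471680 (.pos 33 .mp ⟨0, 0, 0, 0, 0, 9637103, 0, 0, 0, ⟨0, 0⟩, 0⟩ 0 0) (.pos 33 .mp ⟨0, 0, 0, 0, 0, 10257378, 0, 0, 0, ⟨0, 0⟩, 0⟩ 0 0)) (.cut .s 6569984 (.pos 33 .mp ⟨0, 0, 0, 0, 0, 10925720, 0, 0, 0, ⟨0, 0⟩, 0⟩ 0 0) (.cut .s 6594560 (.pos 33 .mp ⟨41439, 0, 0, 0, 0, 11438109, 0, 0, 0, ⟨0, 0⟩, 0⟩ 0 0) (.pos 33 .mp ⟨137044, 0, 0, 0, 0, 11695989, 0, 0, 0, ⟨0, 0⟩, 0⟩ 0 0)))) (.cut .d (-262144) (.cut .s 6717440 (.pos 33 .mp ⟨0, 0, 0, 0, 0, 13270980, 0, 0, 0, ⟨0, 0⟩, 0⟩ 0 0) (.pos 33 .mp ⟨0, 0, 0, 0, 0, 14875973, 0, 0, 0, ⟨0, 0⟩, 0⟩ 0 0)) (.cut .v 17039360 (.cut .s 6717440 (.cut .s 6668288 (.pos 35 .mp ⟨0, 0, 0, 0, 0, 12236269, 0, 0, 0,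 ⟨0, 0⟩, 0⟩ 0 0) (.pos 35 .mp ⟨0, 0, 0, 0, 0, 12979556, 0, 0, 0, ⟨0, 0⟩, 0⟩ 0 0)) (.cut .s 6766592 (.pos 35 .mp ⟨0, 0, 0, 0, 0, 13747686, 0, 0, 0, ⟨0, 0⟩, 0⟩ 0 0) (.cut .s 6791168 (.pos 35 .mp ⟨78777, 0, 0, 0, 0, 14297726, 0, 0, 0, ⟨0, 0⟩, 0⟩ 0 0) (.pos 35 .mp ⟨274024, 0, 0, 0, 0, 14511578, 0, 0, 0, ⟨0, 0⟩, 0⟩ 0 0)))) (.pos 36 .mp ⟨14219763, 0, 0, 0, 0, 0, 0, 0, 0, ⟨0, 0⟩, 0⟩ 0 0)))) (.pos 34 .mp ⟨15160675, 0, 0, 0, 0, 0, 0, 0, 0, ⟨0, 0⟩, 0⟩ 0 0))) (.pos 32 .mp ⟨14496024, 0, 0, 0, 0, 0, 0, 0, 0, ⟨0, 0⟩, 0⟩ 0 0))))) (.void 30 ⟨100000, 0, 0, 0, 0, 0, 0, 0, 0, ⟨0, 0⟩, 0⟩ 0 0)))) (.void 28 ⟨100000, 0, 0, 0, 0, 0, 0, 0, 0, ⟨0, 0⟩, 0⟩ 0 0)) (.void 26 ⟨100000, 0, 0,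 0, 0, 0, 0, 0, 0, ⟨0, 0⟩, 0⟩ 0 0)) (.void 73 ⟨100000, 0, 0, 0, 0, 0, 0, 0, 0, ⟨0, 0⟩, 0⟩ 0 0))) (.cut .v 16777216 (.cut .v 8388608 (.cut .v 4194304 (.void 4 ⟨0, 0, 50000, 0, 50000, 0, 0, 0, 0, ⟨0, 0⟩, 0⟩ 0 0) (.pos 5 .pm ⟨0, 0, 0, 0, 0, 0, 0, 0, 0, ⟨0, 0⟩, 0⟩ 0 0)) (.cut .v 12582912 (.pos 8 .pm ⟨0, 0, 0, 0, 0, 0, 0, 0, 0, ⟨0, 0⟩, 0⟩ 0 0) (.cut .v 14680064 (.pos 12 .pm ⟨0, 0, 0, 0, 0, 0, 0, 0, 0, ⟨0, 0⟩, 0⟩ 0 0) (.pos 13 .pm ⟨0, 0, 0, 0, 0, 0, 0, 0, 0, ⟨0, 0⟩, 0⟩ 0 0)))) (.cut .v 33554432 (.cut .d 11368608 (.cut .d 5684304 (.cut .v 25165824 (.cut .v 20971520 (.pos 27 .pp ⟨3499496, 0, 0, 0, 0, 0, 0, 0, 0, ⟨0, 0⟩, 0⟩ 0 0) (.pos 28 .pp ⟨959545, 0, 0, 0, 0, 0, 715078,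 0, 0, ⟨0, 0⟩, 0⟩ 0 0)) (.pos 26 .pp ⟨0, 0, 0, 0, 0, 0, 987368, 0, 0, ⟨0, 0⟩, 0⟩ 0 0)) (.pos 24 .pp ⟨0, 0, 0, 0, 0, 0, 0, 83116799, 0, ⟨4494628, 769792⟩, 0⟩ 123 175)) (.pos 24 .pp ⟨0, 0, 0, 0, 0, 0, 0, 1026488985, 1619107, ⟨4957536, 70791⟩, 19951585⟩ 154 308)) (.pos 73 .pp ⟨0, 2887964, 0, 0, 0, 0, 316543163, 0, 0, ⟨0, 0⟩, 0⟩ 0 0)))),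
    by decide +kernel⟩

def covers7 : cell.Covers table row7.1 :=
  ⟨(.cut .d 0 (.cut .v 16777216 (.cut .d (-8388608) (.void 1 ⟨0, 0, 0, 0, 0, 100000, 0, 0, 0, ⟨0, 0⟩, 0⟩ 0 0) (.cut .d (-4194304) (.void 1 ⟨0, 0, 0, 0, 0, 100000, 0, 0, 0, ⟨0, 0⟩, 0⟩ 0 0) (.cut .d (-2097152) (.void 1 ⟨0, 0, 0, 0, 0, 100000, 0, 0, 0, ⟨0, 0⟩, 0⟩ 0 0) (.cut .d (-1048576) (.void 1 ⟨0, 0, 0, 0, 0, 100000, 0, 0, 0, ⟨0, 0⟩, 0⟩ 0 0) (.cut .d (-524288) (.void 1 ⟨0, 0, 0, 0, 0, 100000, 0, 0, 0, ⟨0, 0⟩, 0⟩ 0 0) (.cut .v 8388608 (.cut .v 4194304 (.void 4 ⟨0, 0, 100000, 0, 0, 0, 0, 0, 0, ⟨0, 0⟩, 0⟩ 0 0) (.pos 5 .mm ⟨0, 0, 0, 0, 0, 17126209, 0, 0, 0, ⟨0, 0⟩, 0⟩ 0 0)) (.cut .v 12582912 (.pos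 8 .mm ⟨0, 0, 0, 0, 0, 17131180, 0, 0, 0, ⟨0, 0⟩, 0⟩ 0 0) (.cut .v 14680064 (.pos 12 .mm ⟨0, 0, 0, 0, 0, 19841870, 0, 0, 0, ⟨0, 0⟩, 0⟩ 0 0) (.cut .d (-262144) (.cut .s 7176192 (.cut .s 6995968 (.pos 13 .mm ⟨0, 0, 0, 0, 0, 17780917, 0, 0, 0, ⟨0, 0⟩, 0⟩ 0 0) (.pos 13 .mm ⟨0, 0, 0, 0, 0, 21739790, 0, 0, 0, ⟨0, 0⟩, 0⟩ 0 0)) (.pos 13 .mm ⟨0, 0, 0, 0, 0, 30642287, 0, 0, 0, ⟨0, 0⟩, 0⟩ 0 0)) (.cut .v 15728640 (.pos 16 .mm ⟨0, 0, 0, 0, 0, 18383975, 0, 0, 0, ⟨0, 0⟩, 0⟩ 0 0) (.cut .s 7176192 (.cut .s 6995968 (.cut .v 16252928 (.pos 20 .mm ⟨0, 0, 0, 0, 0, 15627554, 0, 0, 0, ⟨0, 0⟩, 0⟩ 0 0) (.cut .s 6905856 (.cut .s 6860800 (.pos 21 .mm ⟨0, 0, 0, 0, 0, 15223778, 0, 0, 0,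 ⟨0, 0⟩, 0⟩ 0 0) (.pos 21 .mm ⟨0, 0, 0, 0, 0, 16023058, 0, 0, 0, ⟨0, 0⟩, 0⟩ 0 0)) (.cut .s 6950912 (.pos 21 .mm ⟨0, 0, 0, 0, 0, 16854384, 0, 0, 0, ⟨0, 0⟩, 0⟩ 0 0) (.pos 21 .mm ⟨0, 0, 0, 0, 0, 17717732, 0, 0, 0, ⟨0, 0⟩, 0⟩ 0 0)))) (.cut .v 16252928 (.pos 20 .mm ⟨0, 0, 0, 0, 0, 19028843, 0, 0, 0, ⟨0, 0⟩, 0⟩ 0 0) (.cut .v 16515072 (.pos 22 .mm ⟨0, 0, 0, 0, 0, 19402215, 0, 0, 0, ⟨0, 0⟩, 0⟩ 0 0) (.cut .s 7086080 (.cut .s 7041024 (.pos 23 .mm ⟨0, 0, 0, 0, 0, 18613070, 0, 0, 0, ⟨0, 0⟩, 0⟩ 0 0) (.pos 23 .mm ⟨0, 0, 0, 0, 0, 19540364, 0, 0, 0, ⟨0, 0⟩, 0⟩ 0 0)) (.cut .s 7131136 (.pos 23 .mm ⟨0, 0, 0, 0, 0, 20499578, 0, 0, 0, ⟨0, 0⟩, 0⟩ 0 0) (.pos 23 .mm ⟨0, 0, 0, 0, 0,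 21490670, 0, 0, 0, ⟨0, 0⟩, 0⟩ 0 0)))))) (.cut .v 16252928 (.pos 20 .mm ⟨0, 0, 0, 0, 0, 24537218, 0, 0, 0, ⟨0, 0⟩, 0⟩ 0 0) (.cut .s 7356416 (.cut .s 7266304 (.cut .s 7221248 (.pos 21 .mm ⟨0, 0, 0, 0, 0, 22487799, 0, 0, 0, ⟨0, 0⟩, 0⟩ 0 0) (.pos 21 .mm ⟨0, 0, 0, 0, 0, 23501087, 0, 0, 0, ⟨0, 0⟩, 0⟩ 0 0)) (.pos 21 .mm ⟨0, 0, 0, 0, 0, 25124064, 0, 0, 0, ⟨0, 0⟩, 0⟩ 0 0)) (.cut .s 7446528 (.pos 21 .mm ⟨0, 0, 0, 0, 0, 27422265, 0, 0, 0, ⟨0, 0⟩, 0⟩ 0 0) (.pos 21 .mm ⟨0, 0, 0, 0, 0, 29846160, 0, 0, 0, ⟨0, 0⟩, 0⟩ 0 0))))))))))))))) (.cut .v 33554432 (.cut .v 25165824 (.cut .d (-8388608) (.void 25 ⟨0, 0, 0, 0, 0, 100000, 0, 0, 0, ⟨0, 0⟩, 0⟩ 0 0) (.cut .d (-4194304) (.void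 25 ⟨0, 0, 0, 0, 0, 100000, 0, 0, 0, ⟨0, 0⟩, 0⟩ 0 0) (.cut .d (-2097152) (.void 25 ⟨0, 0, 0, 0, 0, 100000, 0, 0, 0, ⟨0, 0⟩, 0⟩ 0 0) (.cut .d (-1048576) (.void 25 ⟨0, 0, 0, 0, 0, 100000, 0, 0, 0, ⟨0, 0⟩, 0⟩ 0 0) (.cut .d (-524288) (.void 25 ⟨0, 0, 0, 0, 0, 100000, 0, 0, 0, ⟨0, 0⟩, 0⟩ 0 0) (.cut .v 20971520 (.cut .v 18874368 (.cut .v 17825792 (.cut .d (-262144) (.cut .v 17301504 (.cut .l 750040 (.void 33 ⟨0, 0, 0, 0, 0, 100000, 0, 0, 0, ⟨0, 0⟩, 0⟩ 0 0) (.cut .d (-393216) (.void 33 ⟨0, 0, 0, 0, 0, 100000, 0, 0, 0, ⟨0, 0⟩, 0⟩ 0 0) (.cut .d (-327680) (.void 33 ⟨0, 0, 0, 0, 0, 100000, 0, 0, 0, ⟨0, 0⟩, 0⟩ 0 0) (.cut .l 1016502 (.void 33 ⟨0, 0, 0, 0, 0, 100000, 0, 0,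 0, ⟨0, 0⟩, 0⟩ 0 0) (.cut .s 7176192 (.cut .s 6995968 (.cut .s 6905856 (.pos 33 .mp ⟨0, 0, 0, 0, 0, 15954356, 0, 0, 0, ⟨0, 0⟩, 0⟩ 0 0) (.pos 33 .mp ⟨0, 0, 0, 0, 0, 18030147, 0, 0, 0, ⟨0, 0⟩, 0⟩ 0 0)) (.cut .s 7086080 (.pos 33 .mp ⟨617028, 0, 0, 0, 0, 19466095, 0, 0, 0, ⟨0, 0⟩, 0⟩ 0 0) (.pos 33 .mp ⟨1352145, 0, 0, 0, 0, 20881494, 0, 0, 0, ⟨0, 0⟩, 0⟩ 0 0))) (.cut .s 7356416 (.pos 33 .mp ⟨2129870, 0, 0, 0, 0, 24659390, 0, 0, 0, ⟨0, 0⟩, 0⟩ 0 0) (.pos 33 .mp ⟨3816717, 0, 0, 0, 0, 28288942, 0, 0, 0, ⟨0, 0⟩, 0⟩ 0 0))))))) (.void 34 ⟨100000, 0, 0, 0, 0, 0, 0, 0, 0, ⟨0, 0⟩, 0⟩ 0 0)) (.cut .v 17301504 (.cut .s 7176192 (.cut .s 6995968 (.cut .v 17039360 (.cut .s 6905856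 (.cut .s 6860800 (.cut .s 6838272 (.pos 35 .mp ⟨455492, 0, 0, 0, 0, 14736282, 0, 0, 0, ⟨0, 0⟩, 0⟩ 0 0) (.pos 35 .mp ⟨640873, 0, 0, 0, 0, 14957218, 0, 0, 0, ⟨0, 0⟩, 0⟩ 0 0)) (.cut .s 6883328 (.pos 35 .mp ⟨829174, 0, 0, 0, 0, 15182728, 0, 0, 0, ⟨0, 0⟩, 0⟩ 0 0) (.pos 35 .mp ⟨1020408, 0, 0, 0, 0, 15412778, 0, 0, 0, ⟨0, 0⟩, 0⟩ 0 0))) (.cut .s 6950912 (.cut .s 6928384 (.pos 35 .mp ⟨1214591, 0, 0, 0, 0, 15647329, 0, 0, 0, ⟨0, 0⟩, 0⟩ 0 0) (.pos 35 .mp ⟨1411735, 0, 0, 0, 0, 15886347, 0, 0, 0, ⟨0, 0⟩, 0⟩ 0 0)) (.cut .s 6973440 (.pos 35 .mp ⟨1611857, 0, 0, 0, 0, 16129792, 0, 0, 0, ⟨0, 0⟩, 0⟩ 0 0) (.pos 35 .mp ⟨1755231, 0, 0, 0, 0, 16438935, 0, 0, 0, ⟨0, 0⟩, 0⟩ 0 0))))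 (.pos 36 .mp ⟨17146547, 0, 0, 0, 0, 0, 0, 0, 0, ⟨0, 0⟩, 0⟩ 0 0)) (.cut .v 17039360 (.cut .s 7086080 (.cut .s 7041024 (.cut .s 7018496 (.pos 35 .mp ⟨1865784, 0, 0, 0, 0, 16789514, 0, 0, 0, ⟨0, 0⟩, 0⟩ 0 0) (.pos 35 .mp ⟨1977779, 0, 0, 0, 0, 17146417, 0, 0, 0, ⟨0, 0⟩, 0⟩ 0 0)) (.cut .s 7063552 (.pos 35 .mp ⟨2091225, 0, 0, 0, 0, 17509624, 0, 0, 0, ⟨0, 0⟩, 0⟩ 0 0) (.pos 35 .mp ⟨2206128, 0, 0, 0, 0, 17879113, 0, 0, 0, ⟨0, 0⟩, 0⟩ 0 0))) (.cut .s 7131136 (.cut .s 7108608 (.pos 35 .mp ⟨2322497, 0, 0, 0, 0, 18254860, 0, 0, 0, ⟨0, 0⟩, 0⟩ 0 0) (.pos 35 .mp ⟨2440338, 0, 0, 0, 0, 18636844, 0, 0, 0, ⟨0, 0⟩, 0⟩ 0 0)) (.cut .s 7153664 (.pos 35 .mp ⟨2559661, 0, 0, 0, 0, 19025042,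 0, 0, 0, ⟨0, 0⟩, 0⟩ 0 0) (.pos 35 .mp ⟨2680471, 0, 0, 0, 0, 19419429, 0, 0, 0, ⟨0, 0⟩, 0⟩ 0 0)))) (.pos 36 .mp ⟨20732713, 0, 0, 0, 0, 0, 0, 0, 0, ⟨0, 0⟩, 0⟩ 0 0))) (.cut .s 7356416 (.cut .v 17039360 (.cut .s 7266304 (.cut .s 7221248 (.cut .s 7198720 (.pos 35 .mp ⟨2802778, 0, 0, 0, 0, 19819982, 0, 0, 0, ⟨0, 0⟩, 0⟩ 0 0) (.pos 35 .mp ⟨2926589, 0, 0, 0, 0, 20226676, 0, 0, 0, ⟨0, 0⟩, 0⟩ 0 0)) (.cut .s 7243776 (.pos 35 .mp ⟨3051912, 0, 0, 0, 0, 20639488, 0, 0, 0, ⟨0, 0⟩, 0⟩ 0 0) (.pos 35 .mp ⟨3178755, 0, 0, 0, 0, 21058391, 0, 0, 0, ⟨0, 0⟩, 0⟩ 0 0))) (.cut .s 7311360 (.cut .s 7288832 (.pos 35 .mp ⟨3307127, 0, 0, 0, 0, 21483361, 0, 0, 0, ⟨0, 0⟩, 0⟩ 0 0) (.pos 35 .mp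 ⟨3437035, 0, 0, 0, 0, 21914371, 0, 0, 0, ⟨0, 0⟩, 0⟩ 0 0)) (.cut .s 7333888 (.pos 35 .mp ⟨3568489, 0, 0, 0, 0, 22351395, 0, 0, 0, ⟨0, 0⟩, 0⟩ 0 0) (.pos 35 .mp ⟨3701496, 0, 0, 0, 0, 22794406, 0, 0, 0, ⟨0, 0⟩, 0⟩ 0 0)))) (.pos 36 .mp ⟨20889370, 0, 0, 0, 0, 4177322, 0, 0, 0, ⟨0, 0⟩, 0⟩ 0 0)) (.cut .v 17039360 (.cut .s 7446528 (.cut .s 7401472 (.cut .s 7378944 (.pos 35 .mp ⟨3836065, 0, 0, 0, 0, 23243378, 0, 0, 0, ⟨0, 0⟩, 0⟩ 0 0) (.pos 35 .mp ⟨3972204, 0, 0, 0, 0, 23698282, 0, 0, 0, ⟨0, 0⟩, 0⟩ 0 0)) (.cut .s 7424000 (.pos 35 .mp ⟨4109924, 0, 0, 0, 0, 24159092, 0, 0, 0, ⟨0, 0⟩, 0⟩ 0 0) (.pos 35 .mp ⟨4249231, 0, 0, 0, 0, 24625778, 0, 0, 0, ⟨0, 0⟩, 0⟩ 0 0))) (.cut .s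 7491584 (.cut .s 7469056 (.pos 35 .mp ⟨4453632, 0, 0, 0, 0, 25027824, 0, 0, 0, ⟨0, 0⟩, 0⟩ 0 0) (.pos 35 .mp ⟨4692607, 0, 0, 0, 0, 25398774, 0, 0, 0, ⟨0, 0⟩, 0⟩ 0 0)) (.cut .s 7514112 (.pos 35 .mp ⟨4940304, 0, 0, 0, 0, 25767213, 0, 0, 0, ⟨0, 0⟩, 0⟩ 0 0) (.pos 35 .mp ⟨5197018, 0, 0, 0, 0, 26132750, 0, 0, 0, ⟨0, 0⟩, 0⟩ 0 0)))) (.pos 36 .mp ⟨25628147, 0, 0, 0, 0, 3849687, 0, 0, 0, ⟨0, 0⟩, 0⟩ 0 0)))) (.pos 34 .mp ⟨24776683, 0, 0, 0, 0, 0, 0, 0, 0, ⟨0, 0⟩, 0⟩ 0 0))) (.pos 32 .mp ⟨30668761, 0, 0, 0, 0, 0, 0, 0, 0, ⟨0, 0⟩, 0⟩ 0 0)) (.void 30 ⟨100000, 0, 0, 0, 0, 0, 0, 0, 0, ⟨0, 0⟩, 0⟩ 0 0)) (.void 28 ⟨100000, 0, 0, 0, 0, 0, 0, 0, 0, ⟨0, 0⟩, 0⟩ 0 0))))))) (.void 26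 ⟨100000, 0, 0, 0, 0, 0, 0, 0, 0, ⟨0, 0⟩, 0⟩ 0 0)) (.void 73 ⟨100000, 0, 0, 0, 0, 0, 0, 0, 0, ⟨0, 0⟩, 0⟩ 0 0))) (.cut .v 16777216 (.cut .v 8388608 (.cut .v 4194304 (.void 4 ⟨0, 0, 50000, 0, 50000, 0, 0, 0, 0, ⟨0, 0⟩, 0⟩ 0 0) (.pos 5 .pm ⟨0, 0, 0, 0, 0, 0, 0, 0, 0, ⟨0, 0⟩, 0⟩ 0 0)) (.pos 3 .pm ⟨0, 0, 0, 0, 0, 0, 0, 0, 0, ⟨0, 0⟩, 0⟩ 0 0)) (.cut .v 33554432 (.cut .d 12260274 (.cut .v 25165824 (.cut .v 20971520 (.pos 27 .pp ⟨8585296, 0, 0, 0, 0, 0, 0, 0, 0, ⟨0, 0⟩, 0⟩ 0 0) (.pos 28 .pp ⟨13803875, 0, 0, 0, 0, 0, 0, 0, 0, ⟨0, 0⟩, 0⟩ 0 0)) (.pos 26 .pp ⟨11376476, 0, 0, 0, 0, 0, 1712426, 0, 0, ⟨0, 0⟩, 0⟩ 0 0)) (.pos 24 .pp ⟨0, 20328831, 0, 0, 0, 0, 0, 0, 3930039, ⟨0,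 0⟩, 19951585⟩ 0 0)) (.cut .v 50331648 (.cut .d 12260274 (.pos 74 .pp ⟨0, 0, 0, 0, 0, 0, 14173886, 0, 0, ⟨0, 0⟩, 0⟩ 0 0) (.cut .d 18390411 (.pos 74 .pp ⟨0, 14264201, 0, 0, 0, 0, 86548362, 0, 0, ⟨0, 0⟩, 0⟩ 0 0) (.void 74 ⟨0, 100000, 0, 0, 0, 0, 0, 0, 0, ⟨0, 0⟩, 0⟩ 0 0))) (.void 75 ⟨0, 0, 0, 0, 0, 0, 100000, 0, 0, ⟨0, 0⟩, 0⟩ 0 0))))),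
    by decide +kernel⟩

def covers8 : cell.Covers table row8.1 :=
  ⟨(.cut .d 0 (.cut .v 16777216 (.cut .d (-8388608) (.void 1 ⟨0, 0, 0, 0, 0, 100000, 0, 0, 0, ⟨0, 0⟩, 0⟩ 0 0) (.cut .d (-4194304) (.void 1 ⟨0, 0, 0, 0, 0, 100000, 0, 0, 0, ⟨0, 0⟩, 0⟩ 0 0) (.cut .d (-2097152) (.void 1 ⟨0, 0, 0, 0, 0, 100000, 0, 0, 0, ⟨0, 0⟩, 0⟩ 0 0) (.cut .d (-1048576) (.void 1 ⟨0, 0, 0, 0, 0, 100000, 0, 0, 0, ⟨0, 0⟩, 0⟩ 0 0) (.cut .d (-524288) (.void 1 ⟨0, 0, 0, 0, 0, 100000, 0, 0, 0, ⟨0, 0⟩, 0⟩ 0 0) (.cut .d (-262144) (.void 1 ⟨0, 0, 0, 0, 0, 100000, 0, 0, 0, ⟨0, 0⟩, 0⟩ 0 0) (.cut .v 8388608 (.cut .v 4194304 (.void 4 ⟨0, 0, 100000, 0, 0, 0, 0, 0, 0, ⟨0, 0⟩, 0⟩ 0 0) (.pos 5 .mm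 ⟨0, 0, 0, 0, 0, 22984342, 0, 0, 0, ⟨0, 0⟩, 0⟩ 0 0)) (.cut .v 12582912 (.pos 8 .mm ⟨0, 0, 0, 0, 0, 25800715, 0, 0, 0, ⟨0, 0⟩, 0⟩ 0 0) (.cut .v 14680064 (.pos 12 .mm ⟨0, 0, 0, 0, 0, 31150781, 0, 0, 0, ⟨0, 0⟩, 0⟩ 0 0) (.cut .v 15728640 (.pos 16 .mm ⟨0, 0, 0, 0, 0, 34960468, 0, 0, 0, ⟨0, 0⟩, 0⟩ 0 0) (.cut .s 7798784 (.cut .v 16252928 (.pos 20 .mm ⟨0, 0, 0, 0, 0, 33374234, 0, 0, 0, ⟨0, 0⟩, 0⟩ 0 0) (.cut .s 7667712 (.cut .s 7602176 (.pos 21 .mm ⟨0, 0, 0, 0, 0, 31896717, 0, 0, 0, ⟨0, 0⟩, 0⟩ 0 0) (.pos 21 .mm ⟨0, 0, 0, 0, 0, 33764567, 0, 0, 0, ⟨0, 0⟩, 0⟩ 0 0)) (.cut .s 7733248 (.pos 21 .mm ⟨0, 0, 0, 0, 0, 35719305, 0, 0, 0, ⟨0, 0⟩, 0⟩ 0 0) (.pos 21 .mm ⟨0, 0, 0, 0,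 0, 37758747, 0, 0, 0, ⟨0, 0⟩, 0⟩ 0 0)))) (.cut .v 16252928 (.pos 20 .mm ⟨0, 0, 0, 0, 0, 41515409, 0, 0, 0, ⟨0, 0⟩, 0⟩ 0 0) (.cut .s 7929856 (.cut .s 7864320 (.pos 21 .mm ⟨0, 0, 0, 0, 0, 39880783, 0, 0, 0, ⟨0, 0⟩, 0⟩ 0 0) (.pos 21 .mm ⟨0, 0, 0, 0, 0, 42083371, 0, 0, 0, ⟨0, 0⟩, 0⟩ 0 0)) (.cut .s 7995392 (.pos 21 .mm ⟨0, 0, 0, 0, 0, 44364536, 0, 0, 0, ⟨0, 0⟩, 0⟩ 0 0) (.pos 21 .mm ⟨0, 0, 0, 0, 0, 46722366, 0, 0, 0, ⟨0, 0⟩, 0⟩ 0 0))))))))))))))) (.cut .v 33554432 (.cut .v 25165824 (.cut .d (-8388608) (.void 25 ⟨0, 0, 0, 0, 0, 100000, 0, 0, 0, ⟨0, 0⟩, 0⟩ 0 0) (.cut .v 20971520 (.cut .d (-4194304) (.void 27 ⟨0, 0, 0, 0, 0, 100000, 0, 0, 0, ⟨0, 0⟩, 0⟩ 0 0) (.cut .d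 (-2097152) (.void 27 ⟨0, 0, 0, 0, 0, 100000, 0, 0, 0, ⟨0, 0⟩, 0⟩ 0 0) (.cut .d (-1048576) (.void 27 ⟨0, 0, 0, 0, 0, 100000, 0, 0, 0, ⟨0, 0⟩, 0⟩ 0 0) (.cut .d (-524288) (.void 27 ⟨0, 0, 0, 0, 0, 100000, 0, 0, 0, ⟨0, 0⟩, 0⟩ 0 0) (.cut .d (-262144) (.void 27 ⟨0, 0, 0, 0, 0, 100000, 0, 0, 0, ⟨0, 0⟩, 0⟩ 0 0) (.cut .v 18874368 (.cut .v 17825792 (.cut .v 17301504 (.cut .s 7798784 (.cut .s 7667712 (.cut .v 17039360 (.cut .s 7602176 (.cut .d (-131072) (.pos 35 .mp ⟨5297298, 0, 0, 0, 0, 27974579, 0, 0, 0, ⟨0, 0⟩, 0⟩ 0 0) (.cut .s 7569408 (.pos 35 .mp ⟨7542134, 0, 0, 0, 0, 24048700, 0, 0, 0, ⟨0, 0⟩, 0⟩ 0 0) (.pos 35 .mp ⟨7893154, 0, 0, 0, 0, 24553741, 0, 0, 0, ⟨0, 0⟩,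 0⟩ 0 0))) (.cut .d (-131072) (.cut .s 7634944 (.pos 35 .mp ⟨6239289, 0, 0, 0, 0, 28159454, 0, 0, 0, ⟨0, 0⟩, 0⟩ 0 0) (.pos 35 .mp ⟨6379812, 0, 0, 0, 0, 28993750, 0, 0, 0, ⟨0, 0⟩, 0⟩ 0 0)) (.cut .s 7634944 (.pos 35 .mp ⟨8250243, 0, 0, 0, 0, 25074148, 0, 0, 0, ⟨0, 0⟩, 0⟩ 0 0) (.pos 35 .mp ⟨8613452, 0, 0, 0, 0, 25609886, 0, 0, 0, ⟨0, 0⟩, 0⟩ 0 0)))) (.pos 36 .mp ⟨22531809, 0, 0, 0, 0, 11187841, 0, 0, 0, ⟨0, 0⟩, 0⟩ 0 0)) (.cut .v 17039360 (.cut .d (-131072) (.cut .l 750040 (.pos 35 .mp ⟨7924793, 0, 0, 0, 0, 31915701, 0, 0, 0, ⟨0, 0⟩, 0⟩ 0 0) (.cut .v 16908288 (.pos 37 .mp ⟨0, 0, 0, 0, 0, 37666035, 0, 0, 0, ⟨0, 0⟩, 0⟩ 0 0) (.cut .s 7733248 (.pos 38 .mp ⟨6567058, 0,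 0, 0, 0, 30196359, 0, 0, 0, ⟨0, 0⟩, 0⟩ 0 0) (.cut .s 7766016 (.pos 38 .mp ⟨7207816, 0, 0, 0, 0, 30978399, 0, 0, 0, ⟨0, 0⟩, 0⟩ 0 0) (.pos 38 .mp ⟨7535774, 0, 0, 0, 0, 31696568, 0, 0, 0, ⟨0, 0⟩, 0⟩ 0 0))))) (.cut .l 750040 (.cut .v 16908288 (.cut .s 7733248 (.cut .s 7700480 (.pos 37 .mp ⟨6900107, 0, 0, 0, 0, 28575860, 0, 0, 0, ⟨0, 0⟩, 0⟩ 0 0) (.pos 37 .mp ⟨7164771, 0, 0, 0, 0, 29282948, 0, 0, 0, ⟨0, 0⟩, 0⟩ 0 0)) (.cut .s 7766016 (.pos 37 .mp ⟨7433186, 0, 0, 0, 0, 30008003, 0, 0, 0, ⟨0, 0⟩, 0⟩ 0 0) (.cut .s 7782400 (.pos 37 .mp ⟨8330391, 0, 0, 0, 0, 29807030, 0, 0, 0, ⟨0, 0⟩, 0⟩ 0 0) (.pos 37 .mp ⟨8443938, 0, 0, 0, 0, 30209036, 0, 0, 0, ⟨0, 0⟩, 0⟩ 0 0)))) (.pos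 38 .mp ⟨27467291, 0, 0, 0, 0, 9100030, 0, 0, 0, ⟨0, 0⟩, 0⟩ 0 0)) (.pos 35 .mp ⟨8418139, 0, 0, 0, 0, 0, 0, 0, 0, ⟨0, 0⟩, 0⟩ 0 0))) (.pos 36 .mp ⟨38649274, 0, 0, 0, 0, 0, 0, 0, 0, ⟨0, 0⟩, 0⟩ 0 0))) (.cut .s 7929856 (.cut .v 17039360 (.cut .d (-131072) (.cut .l 750040 (.pos 35 .mp ⟨9526836, 0, 0, 0, 0, 34639558, 0, 0, 0, ⟨0, 0⟩, 0⟩ 0 0) (.cut .s 7864320 (.cut .s 7831552 (.pos 35 .mp ⟨7810073, 0, 0, 0, 0, 32482310, 0, 0, 0, ⟨0, 0⟩, 0⟩ 0 0) (.pos 35 .mp ⟨8146814, 0, 0, 0, 0, 33235476, 0, 0, 0, ⟨0, 0⟩, 0⟩ 0 0)) (.cut .d (-196608) (.pos 35 .mp ⟨8835524, 0, 0, 0, 0, 35015930, 0, 0, 0, ⟨0, 0⟩, 0⟩ 0 0) (.cut .s 7897088 (.pos 35 .mp ⟨8488736, 0, 0, 0, 0, 33800410, 0,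 0, 0, ⟨0, 0⟩, 0⟩ 0 0) (.pos 35 .mp ⟨8835884, 0, 0, 0, 0, 34576840, 0, 0, 0, ⟨0, 0⟩, 0⟩ 0 0))))) (.cut .l 750040 (.cut .s 7864320 (.cut .v 16908288 (.cut .d (-65536) (.cut .s 7831552 (.pos 37 .mp ⟨8167328, 0, 0, 0, 0, 31721647, 0, 0, 0, ⟨0, 0⟩, 0⟩ 0 0) (.pos 37 .mp ⟨8494552, 0, 0, 0, 0, 32456998, 0, 0, 0, ⟨0, 0⟩, 0⟩ 0 0)) (.cut .s 7831552 (.pos 37 .mp ⟨9958943, 0, 0, 0, 0, 28937210, 0, 0, 0, ⟨0, 0⟩, 0⟩ 0 0) (.pos 37 .mp ⟨10314880, 0, 0, 0, 0, 29608715, 0, 0, 0, ⟨0, 0⟩, 0⟩ 0 0))) (.pos 38 .mp ⟨20877545, 0, 0, 0, 0, 18811743, 0, 0, 0, ⟨0, 0⟩, 0⟩ 0 0)) (.cut .v 16908288 (.cut .d (-65536) (.cut .s 7897088 (.pos 37 .mp ⟨8826676, 0, 0, 0, 0, 33209828, 0, 0, 0, ⟨0,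 0⟩, 0⟩ 0 0) (.pos 37 .mp ⟨9163745, 0, 0, 0, 0, 33980110, 0, 0, 0, ⟨0, 0⟩, 0⟩ 0 0)) (.cut .s 7897088 (.pos 37 .mp ⟨10676325, 0, 0, 0, 0, 30296497, 0, 0, 0, ⟨0, 0⟩, 0⟩ 0 0) (.pos 37 .mp ⟨11043329, 0, 0, 0, 0, 31000518, 0, 0, 0, ⟨0, 0⟩, 0⟩ 0 0))) (.pos 38 .mp ⟨22010757, 0, 0, 0, 0, 19734053, 0, 0, 0, ⟨0, 0⟩, 0⟩ 0 0))) (.pos 35 .mp ⟨10462016, 0, 0, 0, 0, 0, 0, 0, 0, ⟨0, 0⟩, 0⟩ 0 0))) (.cut .s 7864320 (.pos 36 .mp ⟨42215239, 0, 0, 0, 0, 0, 0, 0, 0, ⟨0, 0⟩, 0⟩ 0 0) (.pos 36 .mp ⟨44228038, 0, 0, 0, 0, 0, 0, 0, 0, ⟨0, 0⟩, 0⟩ 0 0))) (.cut .v 17039360 (.cut .d (-131072) (.cut .l 750040 (.pos 35 .mp ⟨10462016, 0, 0, 0, 0, 43526296, 0, 0, 0, ⟨0, 0⟩, 0⟩ 0 0) (.cut .s 7995392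 (.cut .d (-196608) (.pos 35 .mp ⟨9637774, 0, 0, 0, 0, 36547881, 0, 0, 0, ⟨0, 0⟩, 0⟩ 0 0) (.cut .s 7962624 (.pos 35 .mp ⟨9188307, 0, 0, 0, 0, 35370625, 0, 0, 0, ⟨0, 0⟩, 0⟩ 0 0) (.pos 35 .mp ⟨9546053, 0, 0, 0, 0, 36181729, 0, 0, 0, ⟨0, 0⟩, 0⟩ 0 0))) (.cut .d (-196608) (.pos 35 .mp ⟨10465582, 0, 0, 0, 0, 38142738, 0, 0, 0, ⟨0, 0⟩, 0⟩ 0 0) (.cut .s 8028160 (.cut .s 8011776 (.pos 35 .mp ⟨9909170, 0, 0, 0, 0, 36728086, 0, 0, 0, ⟨0, 0⟩, 0⟩ 0 0) (.pos 35 .mp ⟨10092758, 0, 0, 0, 0, 37145830, 0, 0, 0, ⟨0, 0⟩, 0⟩ 0 0)) (.pos 35 .mp ⟨10277707, 0, 0, 0, 0, 37855742, 0, 0, 0, ⟨0, 0⟩, 0⟩ 0 0))))) (.cut .l 750040 (.cut .s 7995392 (.cut .v 16908288 (.cut .d (-65536) (.cut .s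 7962624 (.pos 37 .mp ⟨9505802, 0, 0, 0, 0, 34767818, 0, 0, 0, ⟨0, 0⟩, 0⟩ 0 0) (.cut .s 7979008 (.pos 37 .mp ⟨10585010, 0, 0, 0, 0, 34338277, 0, 0, 0, ⟨0, 0⟩, 0⟩ 0 0) (.pos 37 .mp ⟨10781436, 0, 0, 0, 0, 34715857, 0, 0, 0, ⟨0, 0⟩, 0⟩ 0 0))) (.cut .d (-32768) (.cut .s 7962624 (.pos 37 .mp ⟨11159183, 0, 0, 0, 0, 32194586, 0, 0, 0, ⟨0, 0⟩, 0⟩ 0 0) (.cut .s 7979008 (.pos 37 .mp ⟨11350540, 0, 0, 0, 0, 33015971, 0, 0, 0, ⟨0, 0⟩, 0⟩ 0 0) (.pos 37 .mp ⟨11543337, 0, 0, 0, 0, 33391667, 0, 0, 0, ⟨0, 0⟩, 0⟩ 0 0))) (.pos 37 .mp ⟨11287548, 0, 0, 0, 0, 0, 0, 0, 0, ⟨0, 0⟩, 0⟩ 0 0))) (.pos 38 .mp ⟨23323100, 0, 0, 0, 0, 20548466, 0, 0, 0, ⟨0, 0⟩, 0⟩ 0 0)) (.cut .v 16908288 (.cut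 .d (-65536) (.cut .l 483578 (.pos 37 .mp ⟨11123408, 0, 0, 0, 0, 36678673, 0, 0, 0, ⟨0, 0⟩, 0⟩ 0 0) (.cut .s 8028160 (.pos 37 .mp ⟨10205069, 0, 0, 0, 0, 36072854, 0, 0, 0, ⟨0, 0⟩, 0⟩ 0 0) (.pos 37 .mp ⟨10562371, 0, 0, 0, 0, 36901158, 0, 0, 0, ⟨0, 0⟩, 0⟩ 0 0))) (.cut .d (-32768) (.cut .l 483578 (.cut .l 350347 (.cut .s 8028160 (.pos 37 .mp ⟨11933275, 0, 0, 0, 0, 33901131, 0, 0, 0, ⟨0, 0⟩, 0⟩ 0 0) (.cut .s 8044544 (.pos 37 .mp ⟨12130429, 0, 0, 0, 0, 34567454, 0, 0, 0, ⟨0, 0⟩, 0⟩ 0 0) (.pos 37 .mp ⟨12329051, 0, 0, 0, 0, 34952079, 0, 0, 0, ⟨0, 0⟩, 0⟩ 0 0))) (.pos 37 .mp ⟨11976952, 0, 0, 0, 0, 33426344, 0, 0, 0, ⟨0, 0⟩, 0⟩ 0 0)) (.pos 37 .mp ⟨0, 0, 0, 0, 0, 0, 0,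 0, 0, ⟨0, 0⟩, 0⟩ 0 0)) (.pos 37 .mp ⟨12018656, 0, 0, 0, 0, 0, 0, 0, 0, ⟨0, 0⟩, 0⟩ 0 0))) (.pos 38 .mp ⟨24839122, 0, 0, 0, 0, 21225501, 0, 0, 0, ⟨0, 0⟩, 0⟩ 0 0))) (.pos 35 .mp ⟨11732850, 0, 0, 0, 0, 31058170, 0, 0, 0, ⟨0, 0⟩, 0⟩ 0 0))) (.cut .s 7995392 (.pos 36 .mp ⟨46292899, 0, 0, 0, 0, 0, 0, 0, 0, ⟨0, 0⟩, 0⟩ 0 0) (.pos 36 .mp ⟨48406502, 0, 0, 0, 0, 0, 0, 0, 0, ⟨0, 0⟩, 0⟩ 0 0))))) (.pos 34 .mp ⟨41576885, 0, 0, 0, 0, 0, 0, 0, 0, ⟨0, 0⟩, 0⟩ 0 0)) (.pos 32 .mp ⟨44754511, 0, 0, 0, 0, 0, 0, 0, 0, ⟨0, 0⟩, 0⟩ 0 0)) (.void 30 ⟨100000, 0, 0, 0, 0, 0, 0, 0, 0, ⟨0, 0⟩, 0⟩ 0 0))))))) (.void 28 ⟨100000, 0, 0, 0, 0, 0, 0, 0, 0, ⟨0, 0⟩, 0⟩ 0 0))) (.void 26 ⟨100000, 0, 0,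 0, 0, 0, 0, 0, 0, ⟨0, 0⟩, 0⟩ 0 0)) (.void 73 ⟨100000, 0, 0, 0, 0, 0, 0, 0, 0, ⟨0, 0⟩, 0⟩ 0 0))) (.cut .v 16777216 (.cut .v 8388608 (.cut .v 4194304 (.void 4 ⟨0, 0, 50000, 0, 50000, 0, 0, 0, 0, ⟨0, 0⟩, 0⟩ 0 0) (.pos 5 .pm ⟨0, 0, 0, 0, 0, 0, 0, 0, 0, ⟨0, 0⟩, 0⟩ 0 0)) (.cut .d 10285164 (.pos 3 .pm ⟨0, 0, 0, 0, 0, 0, 0, 0, 0, ⟨0, 0⟩, 0⟩ 0 0) (.pos 3 .pm ⟨0, 0, 0, 0, 0, 0, 0, 0, 16714817, ⟨0, 0⟩, 14107901⟩ 0 0))) (.cut .d 10285164 (.cut .v 33554432 (.cut .v 25165824 (.cut .v 20971520 (.pos 27 .pp ⟨14782948, 0, 0, 0, 0, 0, 0, 0, 0, ⟨0, 0⟩, 0⟩ 0 0) (.pos 28 .pp ⟨18700944, 0, 0, 0, 0, 0, 0, 0, 0, ⟨0, 0⟩, 0⟩ 0 0)) (.pos 26 .pp ⟨22578514, 0, 0, 0, 0, 0, 1152000, 0, 0,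 ⟨0, 0⟩, 0⟩ 0 0)) (.cut .d 5142582 (.cut .d 2571291 (.pos 73 .pp ⟨183657979, 0, 0, 0, 0, 0, 0, 0, 0, ⟨0, 0⟩, 0⟩ 0 0) (.pos 73 .pp ⟨0, 0, 0, 0, 0, 0, 3045219, 0, 0, ⟨0, 0⟩, 0⟩ 0 0)) (.pos 73 .pp ⟨0, 0, 0, 0, 0, 0, 3045219, 0, 0, ⟨0, 0⟩, 0⟩ 0 0))) (.cut .v 33554432 (.cut .d 15427746 (.pos 24 .pp ⟨0, 8140752, 0, 0, 0, 0, 0, 18052394, 0, ⟨5018094, 7784⟩, 0⟩ 185 281) (.pos 24 .pp ⟨0, 45684479, 0, 0, 0, 0, 0, 0, 7227742, ⟨0, 0⟩, 19951585⟩ 0 0)) (.pos 73 .pp ⟨0, 34446352, 0, 0, 0, 0, 3045219, 0, 0, ⟨0, 0⟩, 0⟩ 0 0))))),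
    by decide +kernel⟩

def covers9 : cell.Covers table row9.1 :=
  ⟨(.cut .d 0 (.cut .v 16777216 (.cut .d (-8388608) (.void 1 ⟨0, 0, 0, 0, 0, 100000, 0, 0, 0, ⟨0, 0⟩, 0⟩ 0 0) (.cut .d (-4194304) (.void 1 ⟨0, 0, 0, 0, 0, 100000, 0, 0, 0, ⟨0, 0⟩, 0⟩ 0 0) (.cut .d (-2097152) (.void 1 ⟨0, 0, 0, 0, 0, 100000, 0, 0, 0, ⟨0, 0⟩, 0⟩ 0 0) (.cut .d (-1048576) (.void 1 ⟨0, 0, 0, 0, 0, 100000, 0, 0, 0, ⟨0, 0⟩, 0⟩ 0 0) (.cut .d (-524288) (.void 1 ⟨0, 0, 0, 0, 0, 100000, 0, 0, 0, ⟨0, 0⟩, 0⟩ 0 0) (.cut .d (-262144) (.void 1 ⟨0, 0, 0, 0, 0, 100000, 0, 0, 0, ⟨0, 0⟩, 0⟩ 0 0) (.cut .v 8388608 (.cut .v 4194304 (.void 4 ⟨0, 0, 100000, 0, 0, 0, 0, 0, 0, ⟨0, 0⟩, 0⟩ 0 0) (.pos 5 .mm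 ⟨0, 0, 0, 0, 0, 31606938, 0, 0, 0, ⟨0, 0⟩, 0⟩ 0 0)) (.cut .v 12582912 (.pos 8 .mm ⟨0, 0, 0, 0, 0, 39225206, 0, 0, 0, ⟨0, 0⟩, 0⟩ 0 0) (.cut .v 14680064 (.pos 12 .mm ⟨0, 0, 0, 0, 0, 47908377, 0, 0, 0, ⟨0, 0⟩, 0⟩ 0 0) (.cut .v 15728640 (.pos 16 .mm ⟨0, 0, 0, 0, 0, 53587993, 0, 0, 0, ⟨0, 0⟩, 0⟩ 0 0) (.cut .s 8323072 (.cut .v 16252928 (.pos 20 .mm ⟨0, 0, 0, 0, 0, 51199229, 0, 0, 0, ⟨0, 0⟩, 0⟩ 0 0) (.cut .s 8192000 (.cut .s 8126464 (.pos 21 .mm ⟨0, 0, 0, 0, 0, 49163160, 0, 0, 0, ⟨0, 0⟩, 0⟩ 0 0) (.pos 21 .mm ⟨0, 0, 0, 0, 0, 51719844, 0, 0, 0, ⟨0, 0⟩, 0⟩ 0 0)) (.cut .s 8257536 (.pos 21 .mm ⟨0, 0, 0, 0, 0, 54385469, 0, 0, 0, ⟨0, 0⟩, 0⟩ 0 0) (.pos 21 .mm ⟨0, 0, 0, 0,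 0, 57157469, 0, 0, 0, ⟨0, 0⟩, 0⟩ 0 0)))) (.cut .v 16252928 (.pos 20 .mm ⟨0, 0, 0, 0, 0, 62401397, 0, 0, 0, ⟨0, 0⟩, 0⟩ 0 0) (.cut .v 16515072 (.pos 22 .mm ⟨0, 0, 0, 0, 0, 63900882, 0, 0, 0, ⟨0, 0⟩, 0⟩ 0 0) (.cut .s 8454144 (.cut .s 8388608 (.pos 23 .mm ⟨0, 0, 0, 0, 0, 60033357, 0, 0, 0, ⟨0, 0⟩, 0⟩ 0 0) (.pos 23 .mm ⟨0, 0, 0, 0, 0, 63010724, 0, 0, 0, ⟨0, 0⟩, 0⟩ 0 0)) (.cut .s 8519680 (.pos 23 .mm ⟨0, 0, 0, 0, 0, 66087234, 0, 0, 0, ⟨0, 0⟩, 0⟩ 0 0) (.pos 23 .mm ⟨0, 0, 0, 0, 0, 69260623, 0, 0, 0, ⟨0, 0⟩, 0⟩ 0 0)))))))))))))))) (.cut .v 67108864 (.cut .v 33554432 (.cut .v 25165824 (.cut .d (-8388608) (.void 25 ⟨0, 0, 0, 0, 0, 100000, 0, 0, 0, ⟨0, 0⟩, 0⟩ 0 0) (.cut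 .v 20971520 (.cut .d (-4194304) (.void 27 ⟨0, 0, 0, 0, 0, 100000, 0, 0, 0, ⟨0, 0⟩, 0⟩ 0 0) (.cut .d (-2097152) (.void 27 ⟨0, 0, 0, 0, 0, 100000, 0, 0, 0, ⟨0, 0⟩, 0⟩ 0 0) (.cut .d (-1048576) (.void 27 ⟨0, 0, 0, 0, 0, 100000, 0, 0, 0, ⟨0, 0⟩, 0⟩ 0 0) (.cut .d (-524288) (.void 27 ⟨0, 0, 0, 0, 0, 100000, 0, 0, 0, ⟨0, 0⟩, 0⟩ 0 0) (.cut .d (-262144) (.void 27 ⟨0, 0, 0, 0, 0, 100000, 0, 0, 0, ⟨0, 0⟩, 0⟩ 0 0) (.cut .v 18874368 (.cut .v 17825792 (.cut .v 17301504 (.cut .s 8323072 (.cut .s 8192000 (.cut .v 17039360 (.cut .d (-131072) (.cut .l 750040 (.void 35 ⟨0, 0, 0, 0, 0, 100000, 0, 0, 0, ⟨0, 0⟩, 0⟩ 0 0) (.cut .d (-196608) (.cut .s 8126464 (.pos 35 .mp ⟨11320914,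 0, 0, 0, 0, 39907410, 0, 0, 0, ⟨0, 0⟩, 0⟩ 0 0) (.pos 35 .mp ⟨12210771, 0, 0, 0, 0, 41568952, 0, 0, 0, ⟨0, 0⟩, 0⟩ 0 0)) (.cut .v 16908288 (.pos 37 .mp ⟨0, 0, 0, 0, 0, 51721984, 0, 0, 0, ⟨0, 0⟩, 0⟩ 0 0) (.cut .s 8126464 (.cut .s 8093696 (.pos 38 .mp ⟨13255249, 0, 0, 0, 0, 35535111, 0, 0, 0, ⟨0, 0⟩, 0⟩ 0 0) (.cut .s 8110080 (.pos 38 .mp ⟨13495693, 0, 0, 0, 0, 36209015, 0, 0, 0, ⟨0, 0⟩, 0⟩ 0 0) (.pos 38 .mp ⟨13737996, 0, 0, 0, 0, 36564051, 0, 0, 0, ⟨0, 0⟩, 0⟩ 0 0))) (.cut .s 8159232 (.cut .s 8142848 (.pos 38 .mp ⟨13982167, 0, 0, 0, 0, 36924329, 0, 0, 0, ⟨0, 0⟩, 0⟩ 0 0) (.pos 38 .mp ⟨14228214, 0, 0, 0, 0, 37289842, 0, 0, 0, ⟨0, 0⟩, 0⟩ 0 0)) (.cut .s 8175616 (.pos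 38 .mp ⟨14476146, 0, 0, 0, 0, 37660582, 0, 0, 0, ⟨0, 0⟩, 0⟩ 0 0) (.pos 38 .mp ⟨14725973, 0, 0, 0, 0, 38036542, 0, 0, 0, ⟨0, 0⟩, 0⟩ 0 0))))))) (.cut .l 750040 (.cut .s 8126464 (.cut .v 16908288 (.cut .d (-65536) (.cut .l 483578 (.pos 37 .mp ⟨11865236, 0, 0, 0, 0, 38368138, 0, 0, 0, ⟨0, 0⟩, 0⟩ 0 0) (.cut .s 8093696 (.pos 37 .mp ⟨10925984, 0, 0, 0, 0, 37772575, 0, 0, 0, ⟨0, 0⟩, 0⟩ 0 0) (.pos 37 .mp ⟨11295852, 0, 0, 0, 0, 38600745, 0, 0, 0, ⟨0, 0⟩, 0⟩ 0 0))) (.cut .d (-32768) (.cut .l 483578 (.cut .l 350347 (.cut .d (-49152) (.pos 37 .mp ⟨12200640, 0, 0, 0, 0, 37915125, 0, 0, 0, ⟨0, 0⟩, 0⟩ 0 0) (.cut .v 16842752 (.cut .s 8093696 (.pos 80 .mp ⟨11772231, 0, 0, 0,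 0, 36520947, 0, 0, 0, ⟨0, 0⟩, 0⟩ 0 0) (.pos 80 .mp ⟨12133821, 0, 0, 0, 0, 37335491, 0, 0, 0, ⟨0, 0⟩, 0⟩ 0 0)) (.pos 81 .mp ⟨44056522, 0, 0, 0, 0, 0, 0, 0, 0, ⟨0, 0⟩, 0⟩ 0 0))) (.pos 37 .mp ⟨12770302, 0, 0, 0, 0, 34962658, 0, 0, 0, ⟨0, 0⟩, 0⟩ 0 0)) (.pos 37 .mp ⟨0, 0, 0, 0, 0, 0, 0, 0, 0, ⟨0, 0⟩, 0⟩ 0 0)) (.pos 37 .mp ⟨12770929, 0, 0, 0, 0, 0, 0, 0, 0, ⟨0, 0⟩, 0⟩ 0 0))) (.cut .s 8093696 (.pos 38 .mp ⟨20166833, 0, 0, 0, 0, 27927673, 0, 0, 0, ⟨0, 0⟩, 0⟩ 0 0) (.pos 38 .mp ⟨20555362, 0, 0, 0, 0, 28698061, 0, 0, 0, ⟨0, 0⟩, 0⟩ 0 0))) (.cut .v 16908288 (.cut .d (-65536) (.cut .v 16842752 (.pos 80 .mp ⟨0, 0, 0, 0, 0, 53787658, 0, 0, 0, ⟨0, 0⟩, 0⟩ 0 0) (.cut .s 8159232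 (.cut .s 8142848 (.pos 81 .mp ⟨12583813, 0, 0, 0, 0, 38289787, 0, 0, 0, ⟨0, 0⟩, 0⟩ 0 0) (.pos 81 .mp ⟨12732794, 0, 0, 0, 0, 38764494, 0, 0, 0, ⟨0, 0⟩, 0⟩ 0 0)) (.cut .s 8175616 (.pos 81 .mp ⟨12888135, 0, 0, 0, 0, 39239363, 0, 0, 0, ⟨0, 0⟩, 0⟩ 0 0) (.pos 81 .mp ⟨13050125, 0, 0, 0, 0, 39714036, 0, 0, 0, ⟨0, 0⟩, 0⟩ 0 0)))) (.cut .d (-32768) (.cut .l 483578 (.cut .s 8159232 (.cut .l 350347 (.cut .s 8142848 (.pos 37 .mp ⟨12650616, 0, 0, 0, 0, 37915722, 0, 0, 0, ⟨0, 0⟩, 0⟩ 0 0) (.cut .s 8151040 (.pos 37 .mp ⟨13206251, 0, 0, 0, 0, 37543452, 0, 0, 0, ⟨0, 0⟩, 0⟩ 0 0) (.pos 37 .mp ⟨13300651, 0, 0, 0, 0, 37760615, 0, 0, 0, ⟨0, 0⟩, 0⟩ 0 0))) (.pos 37 .mp ⟨13174579, 0,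 0, 0, 0, 36718795, 0, 0, 0, ⟨0, 0⟩, 0⟩ 0 0)) (.cut .l 350347 (.cut .d (-49152) (.pos 37 .mp ⟨13326570, 0, 0, 0, 0, 39426071, 0, 0, 0, ⟨0, 0⟩, 0⟩ 0 0) (.cut .s 8175616 (.pos 37 .mp ⟨13443623, 0, 0, 0, 0, 38011842, 0, 0, 0, ⟨0, 0⟩, 0⟩ 0 0) (.pos 37 .mp ⟨13647449, 0, 0, 0, 0, 38423343, 0, 0, 0, ⟨0, 0⟩, 0⟩ 0 0))) (.pos 37 .mp ⟨13584356, 0, 0, 0, 0, 37529559, 0, 0, 0, ⟨0, 0⟩, 0⟩ 0 0))) (.pos 37 .mp ⟨0, 0, 0, 0, 0, 0, 0, 0, 0, ⟨0, 0⟩, 0⟩ 0 0)) (.pos 37 .mp ⟨13542123, 0, 0, 0, 0, 0, 0, 0, 0, ⟨0, 0⟩, 0⟩ 0 0))) (.cut .s 8159232 (.pos 38 .mp ⟨20980237, 0, 0, 0, 0, 29458145, 0, 0, 0, ⟨0, 0⟩, 0⟩ 0 0) (.pos 38 .mp ⟨21445406, 0, 0, 0, 0, 30203335, 0, 0, 0, ⟨0, 0⟩, 0⟩ 0 0))))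 (.cut .s 8126464 (.pos 35 .mp ⟨12893686, 0, 0, 0, 0, 34463756, 0, 0, 0, ⟨0, 0⟩, 0⟩ 0 0) (.pos 35 .mp ⟨13755562, 0, 0, 0, 0, 35978898, 0, 0, 0, ⟨0, 0⟩, 0⟩ 0 0)))) (.cut .s 8126464 (.pos 36 .mp ⟨50705112, 0, 0, 0, 0, 0, 0, 0, 0, ⟨0, 0⟩, 0⟩ 0 0) (.pos 36 .mp ⟨52945225, 0, 0, 0, 0, 0, 0, 0, 0, ⟨0, 0⟩, 0⟩ 0 0))) (.cut .d (-131072) (.cut .v 17039360 (.cut .l 750040 (.void 35 ⟨0, 0, 0, 0, 0, 100000, 0, 0, 0, ⟨0, 0⟩, 0⟩ 0 0) (.cut .d (-196608) (.cut .s 8257536 (.pos 35 .mp ⟨13127209, 0, 0, 0, 0, 43319395, 0, 0, 0, ⟨0, 0⟩, 0⟩ 0 0) (.pos 35 .mp ⟨14070738, 0, 0, 0, 0, 45158362, 0, 0, 0, ⟨0, 0⟩, 0⟩ 0 0)) (.cut .v 16908288 (.pos 37 .mp ⟨0, 0, 0, 0, 0, 57218421, 0, 0, 0,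 ⟨0, 0⟩, 0⟩ 0 0) (.cut .s 8257536 (.cut .s 8224768 (.cut .s 8208384 (.pos 38 .mp ⟨14977703, 0, 0, 0, 0, 38417715, 0, 0, 0, ⟨0, 0⟩, 0⟩ 0 0) (.pos 38 .mp ⟨15231345, 0, 0, 0, 0, 38804092, 0, 0, 0, ⟨0, 0⟩, 0⟩ 0 0)) (.cut .s 8241152 (.pos 38 .mp ⟨15486909, 0, 0, 0, 0, 39195665, 0, 0, 0, ⟨0, 0⟩, 0⟩ 0 0) (.pos 38 .mp ⟨12912936, 0, 0, 0, 0, 43177947, 0, 0, 0, ⟨0, 0⟩, 0⟩ 0 0))) (.cut .s 8290304 (.cut .s 8273920 (.pos 38 .mp ⟨13120005, 0, 0, 0, 0, 43650503, 0, 0, 0, ⟨0, 0⟩, 0⟩ 0 0) (.pos 38 .mp ⟨13328453, 0, 0, 0, 0, 44129107, 0, 0, 0, ⟨0, 0⟩, 0⟩ 0 0)) (.cut .s 8306688 (.pos 38 .mp ⟨13538288, 0, 0, 0, 0, 44613755, 0, 0, 0, ⟨0, 0⟩, 0⟩ 0 0) (.pos 38 .mp ⟨13749516, 0, 0,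 0, 0, 45104443, 0, 0, 0, ⟨0, 0⟩, 0⟩ 0 0))))))) (.pos 36 .mp ⟨57324027, 0, 0, 0, 0, 0, 0, 0, 0, ⟨0, 0⟩, 0⟩ 0 0)) (.cut .v 17039360 (.cut .l 750040 (.cut .s 8257536 (.cut .d (-65536) (.cut .v 16908288 (.cut .v 16842752 (.pos 80 .mp ⟨0, 0, 0, 0, 0, 56549048, 0, 0, 0, ⟨0, 0⟩, 0⟩ 0 0) (.cut .s 8224768 (.cut .s 8208384 (.pos 81 .mp ⟨13219053, 0, 0, 0, 0, 40188152, 0, 0, 0, ⟨0, 0⟩, 0⟩ 0 0) (.pos 81 .mp ⟨13395208, 0, 0, 0, 0, 40661348, 0, 0, 0, ⟨0, 0⟩, 0⟩ 0 0)) (.cut .s 8241152 (.pos 81 .mp ⟨13578880, 0, 0, 0, 0, 41133258, 0, 0, 0, ⟨0, 0⟩, 0⟩ 0 0) (.pos 81 .mp ⟨13770358, 0, 0, 0, 0, 41603515, 0, 0, 0, ⟨0, 0⟩, 0⟩ 0 0)))) (.cut .s 8224768 (.pos 38 .mp ⟨20560102, 0, 0,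 0, 0, 32597973, 0, 0, 0, ⟨0, 0⟩, 0⟩ 0 0) (.pos 38 .mp ⟨21060069, 0, 0, 0, 0, 33373518, 0, 0, 0, ⟨0, 0⟩, 0⟩ 0 0))) (.cut .d (-32768) (.cut .v 16908288 (.cut .l 483578 (.cut .s 8224768 (.cut .l 350347 (.cut .d (-49152) (.pos 37 .mp ⟨13711928, 0, 0, 0, 0, 40333112, 0, 0, 0, ⟨0, 0⟩, 0⟩ 0 0) (.cut .s 8208384 (.pos 37 .mp ⟨13852638, 0, 0, 0, 0, 38840600, 0, 0, 0, ⟨0, 0⟩, 0⟩ 0 0) (.pos 37 .mp ⟨14059196, 0, 0, 0, 0, 39263611, 0, 0, 0, ⟨0, 0⟩, 0⟩ 0 0))) (.pos 37 .mp ⟨13999687, 0, 0, 0, 0, 38358308, 0, 0, 0, ⟨0, 0⟩, 0⟩ 0 0)) (.cut .l 350347 (.cut .d (-49152) (.pos 37 .mp ⟨14102390, 0, 0, 0, 0, 41267914, 0, 0, 0, ⟨0, 0⟩, 0⟩ 0 0) (.cut .s 8241152 (.pos 37 .mp ⟨14267131,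 0, 0, 0, 0, 39692372, 0, 0, 0, ⟨0, 0⟩, 0⟩ 0 0) (.pos 37 .mp ⟨14476448, 0, 0, 0, 0, 40126880, 0, 0, 0, ⟨0, 0⟩, 0⟩ 0 0))) (.pos 37 .mp ⟨14420626, 0, 0, 0, 0, 39204612, 0, 0, 0, ⟨0, 0⟩, 0⟩ 0 0))) (.pos 37 .mp ⟨0, 0, 0, 0, 0, 0, 0, 0, 0, ⟨0, 0⟩, 0⟩ 0 0)) (.pos 38 .mp ⟨47650657, 0, 0, 0, 0, 0, 0, 0, 0, ⟨0, 0⟩, 0⟩ 0 0)) (.pos 35 .mp ⟨14628761, 0, 0, 0, 0, 0, 0, 0, 0, ⟨0, 0⟩, 0⟩ 0 0))) (.cut .d (-65536) (.cut .v 16908288 (.cut .v 16842752 (.pos 80 .mp ⟨0, 0, 0, 0, 0, 59456777, 0, 0, 0, ⟨0, 0⟩, 0⟩ 0 0) (.cut .l 483578 (.pos 81 .mp ⟨14256549, 0, 0, 0, 0, 43797461, 0, 0, 0, ⟨0, 0⟩, 0⟩ 0 0) (.cut .s 8290304 (.pos 81 .mp ⟨13347363, 0, 0, 0, 0, 42944001, 0, 0, 0, ⟨0, 0⟩,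 0⟩ 0 0) (.pos 81 .mp ⟨13744382, 0, 0, 0, 0, 43911078, 0, 0, 0, ⟨0, 0⟩, 0⟩ 0 0)))) (.cut .s 8290304 (.pos 38 .mp ⟨21612350, 0, 0, 0, 0, 34120313, 0, 0, 0, ⟨0, 0⟩, 0⟩ 0 0) (.pos 38 .mp ⟨22221006, 0, 0, 0, 0, 34833435, 0, 0, 0, ⟨0, 0⟩, 0⟩ 0 0))) (.cut .d (-32768) (.cut .v 16908288 (.cut .l 483578 (.cut .s 8290304 (.cut .l 350347 (.cut .d (-49152) (.pos 37 .mp ⟨14498009, 0, 0, 0, 0, 42230873, 0, 0, 0, ⟨0, 0⟩, 0⟩ 0 0) (.cut .s 8273920 (.pos 37 .mp ⟨14687156, 0, 0, 0, 0, 40567131, 0, 0, 0, ⟨0, 0⟩, 0⟩ 0 0) (.pos 37 .mp ⟨14899260, 0, 0, 0, 0, 41013121, 0, 0, 0, ⟨0, 0⟩, 0⟩ 0 0))) (.pos 37 .mp ⟨14847229, 0, 0, 0, 0, 40068045, 0, 0, 0, ⟨0, 0⟩, 0⟩ 0 0)) (.cut .l 350347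 (.cut .d (-49152) (.pos 37 .mp ⟨14898835, 0, 0, 0, 0, 43222389, 0, 0, 0, ⟨0, 0⟩, 0⟩ 0 0) (.cut .s 8306688 (.pos 37 .mp ⟨15112768, 0, 0, 0, 0, 41464846, 0, 0, 0, ⟨0, 0⟩, 0⟩ 0 0) (.pos 37 .mp ⟨15322072, 0, 0, 0, 0, 41932249, 0, 0, 0, ⟨0, 0⟩, 0⟩ 0 0))) (.pos 37 .mp ⟨15279551, 0, 0, 0, 0, 40948183, 0, 0, 0, ⟨0, 0⟩, 0⟩ 0 0))) (.pos 37 .mp ⟨0, 0, 0, 0, 0, 0, 0, 0, 0, ⟨0, 0⟩, 0⟩ 0 0)) (.pos 38 .mp ⟨49800949, 0, 0, 0, 0, 0, 0, 0, 0, ⟨0, 0⟩, 0⟩ 0 0)) (.pos 35 .mp ⟨15431516, 0, 0, 0, 0, 0, 0, 0, 0, ⟨0, 0⟩, 0⟩ 0 0)))) (.cut .s 8257536 (.pos 35 .mp ⟨14642208, 0, 0, 0, 0, 37564456, 0, 0, 0, ⟨0, 0⟩, 0⟩ 0 0) (.pos 35 .mp ⟨15554108, 0, 0, 0, 0, 39216863, 0, 0, 0, ⟨0, 0⟩, 0⟩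 0 0))) (.pos 36 .mp ⟨49874018, 0, 0, 0, 0, 0, 0, 0, 0, ⟨0, 0⟩, 0⟩ 0 0)))) (.cut .d (-131072) (.cut .l 750040 (.void 33 ⟨0, 0, 0, 0, 0, 100000, 0, 0, 0, ⟨0, 0⟩, 0⟩ 0 0) (.cut .d (-196608) (.cut .s 8454144 (.cut .s 8388608 (.pos 33 .mp ⟨15070767, 0, 0, 0, 0, 48677857, 0, 0, 0, ⟨0, 0⟩, 0⟩ 0 0) (.pos 33 .mp ⟨16103252, 0, 0, 0, 0, 50731890, 0, 0, 0, ⟨0, 0⟩, 0⟩ 0 0)) (.void 33 ⟨0, 0, 0, 0, 0, 100000, 0, 0, 0, ⟨0, 0⟩, 0⟩ 0 0)) (.cut .v 17039360 (.cut .s 8454144 (.cut .v 16908288 (.pos 37 .mp ⟨0, 0, 0, 0, 0, 63222690, 0, 0, 0, ⟨0, 0⟩, 0⟩ 0 0) (.cut .s 8388608 (.cut .s 8355840 (.cut .s 8339456 (.pos 38 .mp ⟨13962145, 0, 0, 0, 0, 45601168, 0, 0, 0, ⟨0, 0⟩, 0⟩ 0 0) (.pos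 38 .mp ⟨14176182, 0, 0, 0, 0, 46103926, 0, 0, 0, ⟨0, 0⟩, 0⟩ 0 0)) (.cut .s 8372224 (.pos 38 .mp ⟨14391634, 0, 0, 0, 0, 46612711, 0, 0, 0, ⟨0, 0⟩, 0⟩ 0 0) (.pos 38 .mp ⟨14608507, 0, 0, 0, 0, 47127520, 0, 0, 0, ⟨0, 0⟩, 0⟩ 0 0))) (.cut .s 8421376 (.cut .s 8404992 (.pos 38 .mp ⟨14826809, 0, 0, 0, 0, 47648348, 0, 0, 0, ⟨0, 0⟩, 0⟩ 0 0) (.pos 38 .mp ⟨15046548, 0, 0, 0, 0, 48175190, 0, 0, 0, ⟨0, 0⟩, 0⟩ 0 0)) (.pos 38 .mp ⟨15267730, 0, 0, 0, 0, 49130404, 0, 0, 0, ⟨0, 0⟩, 0⟩ 0 0)))) (.cut .v 16908288 (.pos 37 .mp ⟨0, 0, 0, 0, 0, 69740163, 0, 0, 0, ⟨0, 0⟩, 0⟩ 0 0) (.cut .s 8519680 (.cut .s 8486912 (.pos 38 .mp ⟨15714454, 0, 0, 0, 0, 50222825, 0, 0, 0, ⟨0, 0⟩, 0⟩ 0 0)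 (.pos 38 .mp ⟨16167042, 0, 0, 0, 0, 51339078, 0, 0, 0, ⟨0, 0⟩, 0⟩ 0 0)) (.cut .s 8552448 (.pos 38 .mp ⟨16625554, 0, 0, 0, 0, 52479113, 0, 0, 0, ⟨0, 0⟩, 0⟩ 0 0) (.pos 38 .mp ⟨17090052, 0, 0, 0, 0, 53642875, 0, 0, 0, ⟨0, 0⟩, 0⟩ 0 0))))) (.pos 36 .mp ⟨60378218, 0, 0, 0, 0, 0, 0, 0, 0, ⟨0, 0⟩, 0⟩ 0 0)))) (.cut .v 17039360 (.cut .l 750040 (.cut .s 8454144 (.cut .d (-65536) (.cut .s 8388608 (.cut .v 16908288 (.cut .l 483578 (.pos 37 .mp ⟨15047496, 0, 0, 0, 0, 45834037, 0, 0, 0, ⟨0, 0⟩, 0⟩ 0 0) (.cut .s 8355840 (.pos 37 .mp ⟨14022293, 0, 0, 0, 0, 45037498, 0, 0, 0, ⟨0, 0⟩, 0⟩ 0 0) (.pos 37 .mp ⟨14431999, 0, 0, 0, 0, 46046526, 0, 0, 0, ⟨0, 0⟩, 0⟩ 0 0))) (.pos 38 .mp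 ⟨28699788, 0, 0, 0, 0, 29974663, 0, 0, 0, ⟨0, 0⟩, 0⟩ 0 0)) (.cut .d (-98304) (.pos 35 .mp ⟨15686334, 0, 0, 0, 0, 48905170, 0, 0, 0, ⟨0, 0⟩, 0⟩ 0 0) (.cut .l 483578 (.pos 35 .mp ⟨16170217, 0, 0, 0, 0, 48296990, 0, 0, 0, ⟨0, 0⟩, 0⟩ 0 0) (.cut .s 8421376 (.pos 35 .mp ⟨17037128, 0, 0, 0, 0, 43783628, 0, 0, 0, ⟨0, 0⟩, 0⟩ 0 0) (.pos 35 .mp ⟨17513604, 0, 0, 0, 0, 44749282, 0, 0, 0, ⟨0, 0⟩, 0⟩ 0 0))))) (.cut .v 16908288 (.cut .l 483578 (.cut .d (-32768) (.cut .s 8388608 (.cut .s 8355840 (.cut .l 350347 (.cut .s 8339456 (.cut .s 8331264 (.pos 37 .mp ⟨15200335, 0, 0, 0, 0, 42824679, 0, 0, 0, ⟨0, 0⟩, 0⟩ 0 0) (.pos 37 .mp ⟨15303610, 0, 0, 0, 0, 43064353, 0, 0, 0, ⟨0, 0⟩,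 0⟩ 0 0)) (.pos 37 .mp ⟨15185768, 0, 0, 0, 0, 43903876, 0, 0, 0, ⟨0, 0⟩, 0⟩ 0 0)) (.pos 37 .mp ⟨15717651, 0, 0, 0, 0, 41844607, 0, 0, 0, ⟨0, 0⟩, 0⟩ 0 0)) (.cut .s 8372224 (.cut .s 8364032 (.pos 37 .mp ⟨15614908, 0, 0, 0, 0, 43837338, 0, 0, 0, ⟨0, 0⟩, 0⟩ 0 0) (.pos 37 .mp ⟨15719378, 0, 0, 0, 0, 44090341, 0, 0, 0, ⟨0, 0⟩, 0⟩ 0 0)) (.pos 37 .mp ⟨16560593, 0, 0, 0, 0, 43422850, 0, 0, 0, ⟨0, 0⟩, 0⟩ 0 0))) (.cut .l 350347 (.cut .d (-49152) (.pos 37 .mp ⟨15937625, 0, 0, 0, 0, 48123492, 0, 0, 0, ⟨0, 0⟩, 0⟩ 0 0) (.cut .s 8421376 (.cut .s 8404992 (.pos 37 .mp ⟨16308772, 0, 0, 0, 0, 44499642, 0, 0, 0, ⟨0, 0⟩, 0⟩ 0 0) (.pos 37 .mp ⟨16501878, 0, 0, 0, 0, 45045637, 0, 0,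 0, ⟨0, 0⟩, 0⟩ 0 0)) (.pos 37 .mp ⟨17098689, 0, 0, 0, 0, 45277824, 0, 0, 0, ⟨0, 0⟩, 0⟩ 0 0))) (.pos 37 .mp ⟨17067202, 0, 0, 0, 0, 43518280, 0, 0, 0, ⟨0, 0⟩, 0⟩ 0 0))) (.cut .s 8388608 (.pos 37 .mp ⟨15802445, 0, 0, 0, 0, 34592310, 0, 0, 0, ⟨0, 0⟩, 0⟩ 0 0) (.pos 37 .mp ⟨16486710, 0, 0, 0, 0, 43143920, 0, 0, 0, ⟨0, 0⟩, 0⟩ 0 0))) (.pos 37 .mp ⟨16608081, 0, 0, 0, 0, 0, 0, 0, 0, ⟨0, 0⟩, 0⟩ 0 0)) (.pos 38 .mp ⟨53065992, 0, 0, 0, 0, 0, 0, 0, 0, ⟨0, 0⟩, 0⟩ 0 0))) (.cut .d (-65536) (.cut .l 483578 (.pos 35 .mp ⟨17032121, 0, 0, 0, 0, 53856373, 0, 0, 0, ⟨0, 0⟩, 0⟩ 0 0) (.cut .d (-98304) (.cut .s 8519680 (.pos 35 .mp ⟨16592667, 0, 0, 0, 0, 50731990, 0, 0, 0, ⟨0, 0⟩, 0⟩ 0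 0) (.pos 35 .mp ⟨17523182, 0, 0, 0, 0, 53012618, 0, 0, 0, ⟨0, 0⟩, 0⟩ 0 0)) (.cut .s 8519680 (.pos 35 .mp ⟨18486059, 0, 0, 0, 0, 45517847, 0, 0, 0, ⟨0, 0⟩, 0⟩ 0 0) (.pos 35 .mp ⟨19247544, 0, 0, 0, 0, 47925249, 0, 0, 0, ⟨0, 0⟩, 0⟩ 0 0)))) (.cut .d (-32768) (.cut .l 483578 (.cut .v 16908288 (.cut .s 8519680 (.cut .l 350347 (.cut .s 8486912 (.pos 37 .mp ⟨16557955, 0, 0, 0, 0, 48145314, 0, 0, 0, ⟨0, 0⟩, 0⟩ 0 0) (.pos 37 .mp ⟨16976487, 0, 0, 0, 0, 49247948, 0, 0, 0, ⟨0, 0⟩, 0⟩ 0 0)) (.pos 37 .mp ⟨17996883, 0, 0, 0, 0, 45416510, 0, 0, 0, ⟨0, 0⟩, 0⟩ 0 0)) (.cut .s 8552448 (.pos 37 .mp ⟨18962661, 0, 0, 0, 0, 47905000, 0, 0, 0, ⟨0, 0⟩, 0⟩ 0 0) (.pos 37 .mp ⟨19453904,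 0, 0, 0, 0, 48971385, 0, 0, 0, ⟨0, 0⟩, 0⟩ 0 0))) (.pos 38 .mp ⟨63116711, 0, 0, 0, 0, 0, 0, 0, 0, ⟨0, 0⟩, 0⟩ 0 0)) (.pos 35 .mp ⟨18500654, 0, 0, 0, 0, 0, 0, 0, 0, ⟨0, 0⟩, 0⟩ 0 0)) (.pos 35 .mp ⟨18215576, 0, 0, 0, 0, 44207325, 0, 0, 0, ⟨0, 0⟩, 0⟩ 0 0)))) (.cut .d (-65536) (.cut .d (-98304) (.cut .d (-114688) (.cut .l 1016502 (.cut .s 8454144 (.cut .s 8388608 (.pos 35 .mp ⟨16172548, 0, 0, 0, 0, 42054384, 0, 0, 0, ⟨0, 0⟩, 0⟩ 0 0) (.pos 35 .mp ⟨17164855, 0, 0, 0, 0, 43862893, 0, 0, 0, ⟨0, 0⟩, 0⟩ 0 0)) (.pos 35 .mp ⟨19232464, 0, 0, 0, 0, 44831892, 0, 0, 0, ⟨0, 0⟩, 0⟩ 0 0)) (.pos 35 .mp ⟨0, 0, 0, 0, 0, 0, 0, 0, 0, ⟨0, 0⟩, 0⟩ 0 0)) (.pos 35 .mp ⟨16803853, 0, 0, 0,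 0, 40802321, 0, 0, 0, ⟨0, 0⟩, 0⟩ 0 0)) (.pos 35 .mp ⟨18240964, 0, 0, 0, 0, 0, 0, 0, 0, ⟨0, 0⟩, 0⟩ 0 0)) (.pos 35 .mp ⟨0, 0, 0, 0, 0, 0, 0, 0, 0, ⟨0, 0⟩, 0⟩ 0 0))) (.pos 36 .mp ⟨57632413, 0, 0, 0, 0, 0, 0, 0, 0, ⟨0, 0⟩, 0⟩ 0 0)))) (.pos 34 .mp ⟨59833809, 0, 0, 0, 0, 0, 0, 0, 0, ⟨0, 0⟩, 0⟩ 0 0)) (.pos 32 .mp ⟨64082417, 0, 0, 0, 0, 0, 0, 0, 0, ⟨0, 0⟩, 0⟩ 0 0)) (.void 30 ⟨100000, 0, 0, 0, 0, 0, 0, 0, 0, ⟨0, 0⟩, 0⟩ 0 0))))))) (.void 28 ⟨100000, 0, 0, 0, 0, 0, 0, 0, 0, ⟨0, 0⟩, 0⟩ 0 0))) (.void 26 ⟨100000, 0, 0, 0, 0, 0, 0, 0, 0, ⟨0, 0⟩, 0⟩ 0 0)) (.void 73 ⟨100000, 0, 0, 0, 0, 0, 0, 0, 0, ⟨0, 0⟩, 0⟩ 0 0)) (.void 84 ⟨100000, 0, 0, 0, 0, 0, 0, 0, 0, ⟨0, 0⟩, 0⟩ 0 0)))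 (.cut .v 16777216 (.cut .v 8388608 (.cut .v 4194304 (.void 4 ⟨0, 0, 32105, 0, 0, 0, 0, 0, 67895, ⟨0, 0⟩, 3966728⟩ 0 0) (.pos 5 .pm ⟨0, 0, 0, 0, 0, 0, 0, 0, 0, ⟨0, 0⟩, 0⟩ 0 0)) (.cut .d 9070610 (.pos 3 .pm ⟨0, 0, 0, 0, 0, 0, 0, 0, 0, ⟨0, 0⟩, 0⟩ 0 0) (.cut .d 13605915 (.pos 3 .pm ⟨0, 0, 0, 0, 0, 0, 0, 2007417, 5212008, ⟨5020496, 5162⟩, 14107901⟩ 189 283) (.pos 3 .pm ⟨0, 51692229, 0, 0, 0, 0, 0, 0, 9233865, ⟨0, 0⟩, 14107901⟩ 0 0)))) (.cut .v 67108864 (.cut .d 9070610 (.cut .d 4535305 (.cut .v 33554432 (.cut .v 25165824 (.pos 25 .pp ⟨32460407, 0, 0, 0, 0, 0, 0, 0, 0, ⟨0, 0⟩, 0⟩ 0 0) (.pos 26 .pp ⟨60269306, 0, 0, 0, 0, 0, 242038, 0, 0, ⟨0, 0⟩, 0⟩ 0 0)) (.cut .d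 2267652 (.pos 73 .pp ⟨309893981, 0, 0, 0, 0, 0, 0, 0, 0, ⟨0, 0⟩, 0⟩ 0 0) (.pos 73 .pp ⟨47794589, 0, 0, 0, 0, 0, 1552423, 0, 0, ⟨0, 0⟩, 0⟩ 0 0))) (.pos 72 .pp ⟨0, 0, 0, 0, 0, 0, 3207691, 0, 0, ⟨0, 0⟩, 0⟩ 0 0)) (.cut .d 13605915 (.pos 72 .pp ⟨0, 24236209, 0, 0, 0, 0, 0, 27077203, 0, ⟨5020496, 5162⟩, 0⟩ 189 283) (.pos 72 .pp ⟨0, 88440049, 0, 0, 0, 0, 0, 0, 0, ⟨0, 0⟩, 0⟩ 0 0))) (.cut .v 134217728 (.cut .d 9070610 (.cut .d 4535305 (.cut .d 2267652 (.void 89 ⟨100000, 0, 0, 0, 0, 0, 0, 0, 0, ⟨0, 0⟩, 0⟩ 0 0) (.cut .d 3401478 (.pos 89 .pp ⟨1531777061, 0, 0, 0, 0, 0, 0, 0, 0, ⟨0, 0⟩, 0⟩ 0 0) (.pos 89 .pp ⟨341617535, 0, 0, 0, 0, 0, 212760462, 0, 0, ⟨0, 0⟩, 0⟩ 0 0))) (.pos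 89 .pp ⟨0, 0, 0, 0, 0, 0, 179131639, 0, 0, ⟨0, 0⟩, 0⟩ 0 0)) (.void 89 ⟨0, 100000, 0, 0, 0, 0, 0, 0, 0, ⟨0, 0⟩, 0⟩ 0 0)) (.void 90 ⟨0, 0, 0, 0, 0, 0, 100000, 0, 0, ⟨0, 0⟩, 0⟩ 0 0))))),
    by decide +kernel⟩

def covers10 : cell.Covers table row10.1 :=
  ⟨(.cut .d 0 (.cut .v 16777216 (.cut .d (-8388608) (.void 1 ⟨0, 0, 0, 0, 0, 100000, 0, 0, 0, ⟨0, 0⟩, 0⟩ 0 0) (.cut .d (-4194304) (.void 1 ⟨0, 0, 0, 0, 0, 100000, 0, 0, 0, ⟨0, 0⟩, 0⟩ 0 0) (.cut .d (-2097152) (.void 1 ⟨0, 0, 0, 0, 0, 100000, 0, 0, 0, ⟨0, 0⟩, 0⟩ 0 0) (.cut .d (-1048576) (.void 1 ⟨0, 0, 0, 0, 0, 100000, 0, 0, 0, ⟨0, 0⟩, 0⟩ 0 0) (.cut .d (-524288) (.void 1 ⟨0, 0, 0, 0, 0, 100000, 0, 0, 0, ⟨0, 0⟩,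 0⟩ 0 0) (.cut .d (-262144) (.void 1 ⟨0, 0, 0, 0, 0, 100000, 0, 0, 0, ⟨0, 0⟩, 0⟩ 0 0) (.cut .v 8388608 (.cut .v 4194304 (.void 4 ⟨0, 0, 100000, 0, 0, 0, 0, 0, 0, ⟨0, 0⟩, 0⟩ 0 0) (.pos 5 .mm ⟨0, 0, 0, 0, 0, 41896786, 0, 0, 0, ⟨0, 0⟩, 0⟩ 0 0)) (.cut .v 12582912 (.pos 8 .mm ⟨0, 0, 0, 0, 0, 57413920, 0, 0, 0, ⟨0, 0⟩, 0⟩ 0 0) (.cut .v 14680064 (.pos 12 .mm ⟨0, 0, 0, 0, 0, 69971236, 0, 0, 0, ⟨0, 0⟩, 0⟩ 0 0) (.cut .v 15728640 (.pos 16 .mm ⟨0, 0, 0, 0, 0, 77628321, 0, 0, 0, ⟨0, 0⟩, 0⟩ 0 0) (.cut .v 16252928 (.pos 20 .mm ⟨0, 0, 0, 0, 0, 81806032, 0, 0, 0, ⟨0, 0⟩, 0⟩ 0 0) (.cut .s 8814592 (.cut .d (-131072) (.pos 21 .mm ⟨0, 0, 0, 0, 0, 82483430, 0, 0, 0, ⟨0, 0⟩, 0⟩ 0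 0) (.cut .s 8699904 (.pos 21 .mm ⟨0, 0, 0, 0, 0, 73641295, 0, 0, 0, ⟨0, 0⟩, 0⟩ 0 0) (.pos 21 .mm ⟨0, 0, 0, 0, 0, 79754859, 0, 0, 0, ⟨0, 0⟩, 0⟩ 0 0))) (.cut .d (-131072) (.pos 21 .mm ⟨0, 0, 0, 0, 0, 96225426, 0, 0, 0, ⟨0, 0⟩, 0⟩ 0 0) (.cut .s 8929280 (.pos 21 .mm ⟨0, 0, 0, 0, 0, 86254110, 0, 0, 0, ⟨0, 0⟩, 0⟩ 0 0) (.pos 21 .mm ⟨0, 0, 0, 0, 0, 93124496, 0, 0, 0, ⟨0, 0⟩, 0⟩ 0 0))))))))))))))) (.cut .v 67108864 (.cut .v 33554432 (.cut .v 25165824 (.cut .d (-8388608) (.void 25 ⟨0, 0, 0, 0, 0, 100000, 0, 0, 0, ⟨0, 0⟩, 0⟩ 0 0) (.cut .v 20971520 (.cut .d (-4194304) (.void 27 ⟨0, 0, 0, 0, 0, 100000, 0, 0, 0, ⟨0, 0⟩, 0⟩ 0 0) (.cut .d (-2097152) (.void 27 ⟨0, 0, 0, 0,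 0, 100000, 0, 0, 0, ⟨0, 0⟩, 0⟩ 0 0) (.cut .d (-1048576) (.void 27 ⟨0, 0, 0, 0, 0, 100000, 0, 0, 0, ⟨0, 0⟩, 0⟩ 0 0) (.cut .d (-524288) (.void 27 ⟨0, 0, 0, 0, 0, 100000, 0, 0, 0, ⟨0, 0⟩, 0⟩ 0 0) (.cut .d (-262144) (.void 27 ⟨0, 0, 0, 0, 0, 100000, 0, 0, 0, ⟨0, 0⟩, 0⟩ 0 0) (.cut .v 18874368 (.cut .v 17825792 (.cut .v 17301504 (.cut .d (-131072) (.cut .d (-196608) (.void 33 ⟨0, 0, 0, 0, 0, 100000, 0, 0, 0, ⟨0, 0⟩, 0⟩ 0 0) (.cut .l 750040 (.void 33 ⟨0, 0, 0, 0, 0, 100000, 0, 0, 0, ⟨0, 0⟩, 0⟩ 0 0) (.cut .v 17039360 (.cut .s 8814592 (.cut .s 8699904 (.cut .s 8642560 (.pos 35 .mp ⟨17459025, 0, 0, 0, 0, 56067459, 0, 0, 0, ⟨0, 0⟩, 0⟩ 0 0) (.cut .s 8671232 (.pos 35 .mp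 ⟨18325710, 0, 0, 0, 0, 56874230, 0, 0, 0, ⟨0, 0⟩, 0⟩ 0 0) (.pos 35 .mp ⟨18765506, 0, 0, 0, 0, 57831135, 0, 0, 0, ⟨0, 0⟩, 0⟩ 0 0))) (.cut .v 16908288 (.pos 37 .mp ⟨0, 0, 0, 0, 0, 83604602, 0, 0, 0, ⟨0, 0⟩, 0⟩ 0 0) (.cut .l 1016502 (.pos 38 .mp ⟨20390825, 0, 0, 0, 0, 62443757, 0, 0, 0, ⟨0, 0⟩, 0⟩ 0 0) (.cut .d (-163840) (.cut .s 8757248 (.pos 38 .mp ⟨20315017, 0, 0, 0, 0, 59337448, 0, 0, 0, ⟨0, 0⟩, 0⟩ 0 0) (.pos 38 .mp ⟨21297251, 0, 0, 0, 0, 61352263, 0, 0, 0, ⟨0, 0⟩, 0⟩ 0 0)) (.cut .s 8757248 (.pos 38 .mp ⟨22330895, 0, 0, 0, 0, 54524177, 0, 0, 0, ⟨0, 0⟩, 0⟩ 0 0) (.cut .s 8785920 (.pos 38 .mp ⟨22855680, 0, 0, 0, 0, 56335765, 0, 0, 0, ⟨0, 0⟩, 0⟩ 0 0) (.pos 38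 .mp ⟨23386234, 0, 0, 0, 0, 57263920, 0, 0, 0, ⟨0, 0⟩, 0⟩ 0 0))))))) (.cut .s 8929280 (.cut .l 1016502 (.pos 35 .mp ⟨22172112, 0, 0, 0, 0, 67042813, 0, 0, 0, ⟨0, 0⟩, 0⟩ 0 0) (.cut .v 16908288 (.pos 37 .mp ⟨0, 0, 0, 0, 0, 88527024, 0, 0, 0, ⟨0, 0⟩, 0⟩ 0 0) (.cut .d (-163840) (.cut .s 8871936 (.pos 38 .mp ⟨22300446, 0, 0, 0, 0, 63480972, 0, 0, 0, ⟨0, 0⟩, 0⟩ 0 0) (.pos 38 .mp ⟨23325012, 0, 0, 0, 0, 65666381, 0, 0, 0, ⟨0, 0⟩, 0⟩ 0 0)) (.cut .s 8871936 (.cut .s 8843264 (.pos 38 .mp ⟨23922611, 0, 0, 0, 0, 58213875, 0, 0, 0, ⟨0, 0⟩, 0⟩ 0 0) (.pos 38 .mp ⟨24464868, 0, 0, 0, 0, 59185576, 0, 0, 0, ⟨0, 0⟩, 0⟩ 0 0)) (.cut .s 8900608 (.pos 38 .mp ⟨25013063, 0, 0, 0, 0, 60178968,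 0, 0, 0, ⟨0, 0⟩, 0⟩ 0 0) (.pos 38 .mp ⟨25567255, 0, 0, 0, 0, 61193992, 0, 0, 0, ⟨0, 0⟩, 0⟩ 0 0)))))) (.cut .d (-163840) (.pos 35 .mp ⟨24237316, 0, 0, 0, 0, 71349455, 0, 0, 0, ⟨0, 0⟩, 0⟩ 0 0) (.cut .l 1016502 (.pos 35 .mp ⟨24146484, 0, 0, 0, 0, 71515652, 0, 0, 0, ⟨0, 0⟩, 0⟩ 0 0) (.cut .v 16908288 (.pos 37 .mp ⟨0, 0, 0, 0, 0, 94843595, 0, 0, 0, ⟨0, 0⟩, 0⟩ 0 0) (.cut .s 8986624 (.cut .s 8957952 (.pos 38 .mp ⟨26127502, 0, 0, 0, 0, 62230586, 0, 0, 0, ⟨0, 0⟩, 0⟩ 0 0) (.pos 38 .mp ⟨26693865, 0, 0, 0, 0, 63288686, 0, 0, 0, ⟨0, 0⟩, 0⟩ 0 0)) (.cut .s 9015296 (.pos 38 .mp ⟨27266404, 0, 0, 0, 0, 64368224, 0, 0, 0, ⟨0, 0⟩, 0⟩ 0 0) (.pos 38 .mp ⟨24527083, 0, 0, 0, 0, 70421135,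 0, 0, 0, ⟨0, 0⟩, 0⟩ 0 0)))))))) (.cut .s 8814592 (.pos 36 .mp ⟨74583407, 0, 0, 0, 0, 0, 0, 0, 0, ⟨0, 0⟩, 0⟩ 0 0) (.pos 36 .mp ⟨84637480, 0, 0, 0, 0, 0, 0, 0, 0, ⟨0, 0⟩, 0⟩ 0 0))))) (.cut .s 8814592 (.cut .v 17039360 (.cut .s 8699904 (.cut .s 8642560 (.cut .l 750040 (.cut .v 16908288 (.cut .d (-65536) (.pos 37 .mp ⟨17719108, 0, 0, 0, 0, 54854560, 0, 0, 0, ⟨0, 0⟩, 0⟩ 0 0) (.cut .d (-32768) (.cut .s 8613888 (.pos 37 .mp ⟨19787296, 0, 0, 0, 0, 50295904, 0, 0, 0, ⟨0, 0⟩, 0⟩ 0 0) (.pos 37 .mp ⟨20333881, 0, 0, 0, 0, 50962978, 0, 0, 0, ⟨0, 0⟩, 0⟩ 0 0)) (.pos 37 .mp ⟨19420643, 0, 0, 0, 0, 49143246, 0, 0, 0, ⟨0, 0⟩, 0⟩ 0 0))) (.pos 38 .mp ⟨34362892, 0, 0, 0, 0, 35449081,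 0, 0, 0, ⟨0, 0⟩, 0⟩ 0 0)) (.pos 35 .mp ⟨20396713, 0, 0, 0, 0, 48901785, 0, 0, 0, ⟨0, 0⟩, 0⟩ 0 0)) (.cut .l 750040 (.cut .v 16908288 (.cut .d (-65536) (.cut .s 8671232 (.pos 37 .mp ⟨18522331, 0, 0, 0, 0, 55851275, 0, 0, 0, ⟨0, 0⟩, 0⟩ 0 0) (.pos 37 .mp ⟨18922327, 0, 0, 0, 0, 56778048, 0, 0, 0, ⟨0, 0⟩, 0⟩ 0 0)) (.cut .d (-32768) (.cut .s 8671232 (.pos 37 .mp ⟨20780776, 0, 0, 0, 0, 51799017, 0, 0, 0, ⟨0, 0⟩, 0⟩ 0 0) (.cut .s 8685568 (.pos 37 .mp ⟨20192358, 0, 0, 0, 0, 53829963, 0, 0, 0, ⟨0, 0⟩, 0⟩ 0 0) (.pos 37 .mp ⟨20515848, 0, 0, 0, 0, 54134355, 0, 0, 0, ⟨0, 0⟩, 0⟩ 0 0))) (.pos 37 .mp ⟨20246469, 0, 0, 0, 0, 50990029, 0, 0, 0, ⟨0, 0⟩, 0⟩ 0 0))) (.pos 38 .mp ⟨34712119,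 0, 0, 0, 0, 37761143, 0, 0, 0, ⟨0, 0⟩, 0⟩ 0 0)) (.cut .s 8671232 (.pos 35 .mp ⟨20870581, 0, 0, 0, 0, 50858273, 0, 0, 0, ⟨0, 0⟩, 0⟩ 0 0) (.pos 35 .mp ⟨21349592, 0, 0, 0, 0, 51760767, 0, 0, 0, ⟨0, 0⟩, 0⟩ 0 0)))) (.cut .s 8757248 (.cut .l 750040 (.cut .d (-65536) (.cut .v 16908288 (.cut .s 8728576 (.pos 37 .mp ⟨19326038, 0, 0, 0, 0, 57734277, 0, 0, 0, ⟨0, 0⟩, 0⟩ 0 0) (.pos 37 .mp ⟨19733502, 0, 0, 0, 0, 58720353, 0, 0, 0, ⟨0, 0⟩, 0⟩ 0 0)) (.pos 38 .mp ⟨30432793, 0, 0, 0, 0, 46022291, 0, 0, 0, ⟨0, 0⟩, 0⟩ 0 0)) (.cut .v 16908288 (.cut .l 483578 (.cut .d (-32768) (.cut .s 8728576 (.cut .s 8714240 (.pos 37 .mp ⟨20271851, 0, 0, 0, 0, 55297155, 0, 0, 0, ⟨0, 0⟩, 0⟩ 0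 0) (.pos 37 .mp ⟨20420288, 0, 0, 0, 0, 55875384, 0, 0, 0, ⟨0, 0⟩, 0⟩ 0 0)) (.cut .s 8742912 (.pos 37 .mp ⟨20573287, 0, 0, 0, 0, 56454583, 0, 0, 0, ⟨0, 0⟩, 0⟩ 0 0) (.pos 37 .mp ⟨20730953, 0, 0, 0, 0, 57034588, 0, 0, 0, ⟨0, 0⟩, 0⟩ 0 0))) (.cut .s 8728576 (.pos 37 .mp ⟨20665300, 0, 0, 0, 0, 53204866, 0, 0, 0, ⟨0, 0⟩, 0⟩ 0 0) (.pos 37 .mp ⟨21088129, 0, 0, 0, 0, 54195233, 0, 0, 0, ⟨0, 0⟩, 0⟩ 0 0))) (.pos 37 .mp ⟨21041475, 0, 0, 0, 0, 0, 0, 0, 0, ⟨0, 0⟩, 0⟩ 0 0)) (.pos 38 .mp ⟨66238716, 0, 0, 0, 0, 0, 0, 0, 0, ⟨0, 0⟩, 0⟩ 0 0))) (.cut .s 8728576 (.pos 35 .mp ⟨21833793, 0, 0, 0, 0, 52679665, 0, 0, 0, ⟨0, 0⟩, 0⟩ 0 0) (.pos 35 .mp ⟨22323236, 0, 0, 0, 0, 53614617, 0,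 0, 0, ⟨0, 0⟩, 0⟩ 0 0))) (.cut .l 750040 (.cut .d (-65536) (.cut .d (-98304) (.pos 35 .mp ⟨21462429, 0, 0, 0, 0, 61105769, 0, 0, 0, ⟨0, 0⟩, 0⟩ 0 0) (.cut .v 16908288 (.cut .s 8785920 (.pos 37 .mp ⟨20030981, 0, 0, 0, 0, 59902633, 0, 0, 0, ⟨0, 0⟩, 0⟩ 0 0) (.pos 37 .mp ⟨20452735, 0, 0, 0, 0, 60940254, 0, 0, 0, ⟨0, 0⟩, 0⟩ 0 0)) (.pos 38 .mp ⟨69381690, 0, 0, 0, 0, 0, 0, 0, 0, ⟨0, 0⟩, 0⟩ 0 0))) (.cut .v 16908288 (.cut .l 483578 (.cut .d (-32768) (.cut .s 8785920 (.cut .s 8771584 (.pos 37 .mp ⟨20893392, 0, 0, 0, 0, 57615236, 0, 0, 0, ⟨0, 0⟩, 0⟩ 0 0) (.pos 37 .mp ⟨21060711, 0, 0, 0, 0, 58196361, 0, 0, 0, ⟨0, 0⟩, 0⟩ 0 0)) (.cut .d (-49152) (.pos 37 .mp ⟨21090899, 0,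 0, 0, 0, 60263792, 0, 0, 0, ⟨0, 0⟩, 0⟩ 0 0) (.cut .s 8800256 (.pos 37 .mp ⟨22009014, 0, 0, 0, 0, 57493124, 0, 0, 0, ⟨0, 0⟩, 0⟩ 0 0) (.pos 37 .mp ⟨22252435, 0, 0, 0, 0, 57966286, 0, 0, 0, ⟨0, 0⟩, 0⟩ 0 0)))) (.cut .d (-16384) (.cut .d (-24576) (.cut .s 8785920 (.pos 37 .mp ⟨21514994, 0, 0, 0, 0, 55806259, 0, 0, 0, ⟨0, 0⟩, 0⟩ 0 0) (.cut .s 8800256 (.pos 37 .mp ⟨21729953, 0, 0, 0, 0, 56796190, 0, 0, 0, ⟨0, 0⟩, 0⟩ 0 0) (.pos 37 .mp ⟨21945937, 0, 0, 0, 0, 57315557, 0, 0, 0, ⟨0, 0⟩, 0⟩ 0 0))) (.pos 37 .mp ⟨21642002, 0, 0, 0, 0, 0, 0, 0, 0, ⟨0, 0⟩, 0⟩ 0 0)) (.pos 37 .mp ⟨20528228, 0, 0, 0, 0, 0, 0, 0, 0, ⟨0, 0⟩, 0⟩ 0 0))) (.pos 37 .mp ⟨21939952, 0, 0, 0, 0, 51304694,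 0, 0, 0, ⟨0, 0⟩, 0⟩ 0 0)) (.pos 38 .mp ⟨68442897, 0, 0, 0, 0, 0, 0, 0, 0, ⟨0, 0⟩, 0⟩ 0 0))) (.cut .d (-65536) (.cut .s 8785920 (.pos 35 .mp ⟨22681184, 0, 0, 0, 0, 55248211, 0, 0, 0, ⟨0, 0⟩, 0⟩ 0 0) (.cut .s 8800256 (.pos 35 .mp ⟨22937605, 0, 0, 0, 0, 56328165, 0, 0, 0, ⟨0, 0⟩, 0⟩ 0 0) (.pos 35 .mp ⟨23195402, 0, 0, 0, 0, 56796219, 0, 0, 0, ⟨0, 0⟩, 0⟩ 0 0))) (.pos 35 .mp ⟨0, 0, 0, 0, 0, 0, 0, 0, 0, ⟨0, 0⟩, 0⟩ 0 0))))) (.pos 36 .mp ⟨68125435, 0, 0, 0, 0, 0, 0, 0, 0, ⟨0, 0⟩, 0⟩ 0 0)) (.cut .v 17039360 (.cut .s 8929280 (.cut .s 8871936 (.cut .l 750040 (.cut .d (-65536) (.cut .d (-98304) (.pos 35 .mp ⟨22374020, 0, 0, 0, 0, 63263073, 0, 0, 0, ⟨0, 0⟩, 0⟩ 0 0) (.cut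 .v 16908288 (.cut .s 8843264 (.pos 37 .mp ⟨20878418, 0, 0, 0, 0, 62008786, 0, 0, 0, ⟨0, 0⟩, 0⟩ 0 0) (.pos 37 .mp ⟨21308070, 0, 0, 0, 0, 63108642, 0, 0, 0, ⟨0, 0⟩, 0⟩ 0 0)) (.pos 38 .mp ⟨71738484, 0, 0, 0, 0, 0, 0, 0, 0, ⟨0, 0⟩, 0⟩ 0 0))) (.cut .v 16908288 (.cut .l 483578 (.cut .d (-32768) (.cut .s 8843264 (.cut .d (-49152) (.pos 37 .mp ⟨21512479, 0, 0, 0, 0, 61340787, 0, 0, 0, ⟨0, 0⟩, 0⟩ 0 0) (.cut .s 8828928 (.pos 37 .mp ⟨22494126, 0, 0, 0, 0, 58450454, 0, 0, 0, ⟨0, 0⟩, 0⟩ 0 0) (.pos 37 .mp ⟨22733985, 0, 0, 0, 0, 58945825, 0, 0, 0, ⟨0, 0⟩, 0⟩ 0 0))) (.cut .d (-49152) (.pos 37 .mp ⟨21938038, 0, 0, 0, 0, 62449065, 0, 0, 0, ⟨0, 0⟩, 0⟩ 0 0) (.cut .s 8857600 (.pos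 37 .mp ⟨22971911, 0, 0, 0, 0, 59452601, 0, 0, 0, ⟨0, 0⟩, 0⟩ 0 0) (.pos 37 .mp ⟨23207798, 0, 0, 0, 0, 59970985, 0, 0, 0, ⟨0, 0⟩, 0⟩ 0 0)))) (.cut .d (-16384) (.cut .d (-24576) (.cut .v 16842752 (.cut .v 16809984 (.pos 85 .mp ⟨0, 0, 0, 0, 0, 82784053, 0, 0, 0, ⟨0, 0⟩, 0⟩ 0 0) (.cut .d (-28672) (.cut .s 8843264 (.pos 86 .mp ⟨22385119, 0, 0, 0, 0, 58747086, 0, 0, 0, ⟨0, 0⟩, 0⟩ 0 0) (.pos 86 .mp ⟨22822197, 0, 0, 0, 0, 59805782, 0, 0, 0, ⟨0, 0⟩, 0⟩ 0 0)) (.pos 86 .mp ⟨22662074, 0, 0, 0, 0, 57444681, 0, 0, 0, ⟨0, 0⟩, 0⟩ 0 0))) (.pos 81 .mp ⟨69515752, 0, 0, 0, 0, 0, 0, 0, 0, ⟨0, 0⟩, 0⟩ 0 0)) (.pos 37 .mp ⟨22499500, 0, 0, 0, 0, 0, 0, 0, 0, ⟨0, 0⟩, 0⟩ 0 0)) (.pos 37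 .mp ⟨21287415, 0, 0, 0, 0, 0, 0, 0, 0, ⟨0, 0⟩, 0⟩ 0 0))) (.pos 37 .mp ⟨22647751, 0, 0, 0, 0, 57028143, 0, 0, 0, ⟨0, 0⟩, 0⟩ 0 0)) (.pos 38 .mp ⟨70745318, 0, 0, 0, 0, 0, 0, 0, 0, ⟨0, 0⟩, 0⟩ 0 0))) (.cut .d (-65536) (.cut .v 16908288 (.pos 37 .mp ⟨0, 0, 0, 0, 0, 83952296, 0, 0, 0, ⟨0, 0⟩, 0⟩ 0 0) (.cut .s 8843264 (.pos 38 .mp ⟨23952112, 0, 0, 0, 0, 57633584, 0, 0, 0, ⟨0, 0⟩, 0⟩ 0 0) (.pos 38 .mp ⟨24465256, 0, 0, 0, 0, 58630376, 0, 0, 0, ⟨0, 0⟩, 0⟩ 0 0))) (.pos 35 .mp ⟨0, 0, 0, 0, 0, 0, 0, 0, 0, ⟨0, 0⟩, 0⟩ 0 0))) (.cut .l 750040 (.cut .d (-65536) (.cut .d (-98304) (.pos 35 .mp ⟨23299067, 0, 0, 0, 0, 65553243, 0, 0, 0, ⟨0, 0⟩, 0⟩ 0 0) (.cut .v 16908288 (.cut .s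 8900608 (.pos 37 .mp ⟨21741730, 0, 0, 0, 0, 64240237, 0, 0, 0, ⟨0, 0⟩, 0⟩ 0 0) (.pos 37 .mp ⟨22179440, 0, 0, 0, 0, 65403991, 0, 0, 0, ⟨0, 0⟩, 0⟩ 0 0)) (.pos 38 .mp ⟨74196952, 0, 0, 0, 0, 0, 0, 0, 0, ⟨0, 0⟩, 0⟩ 0 0))) (.cut .v 16908288 (.cut .l 483578 (.cut .d (-32768) (.cut .s 8900608 (.cut .d (-49152) (.pos 37 .mp ⟨22367617, 0, 0, 0, 0, 63589040, 0, 0, 0, ⟨0, 0⟩, 0⟩ 0 0) (.cut .s 8886272 (.pos 37 .mp ⟨23441543, 0, 0, 0, 0, 60501183, 0, 0, 0, ⟨0, 0⟩, 0⟩ 0 0) (.pos 37 .mp ⟨23673038, 0, 0, 0, 0, 61043405, 0, 0, 0, ⟨0, 0⟩, 0⟩ 0 0))) (.cut .d (-49152) (.pos 37 .mp ⟨22801255, 0, 0, 0, 0, 64761131, 0, 0, 0, ⟨0, 0⟩, 0⟩ 0 0) (.cut .s 8914944 (.pos 37 .mp ⟨23902175,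 0, 0, 0, 0, 61597862, 0, 0, 0, ⟨0, 0⟩, 0⟩ 0 0) (.pos 37 .mp ⟨24128845, 0, 0, 0, 0, 62164770, 0, 0, 0, ⟨0, 0⟩, 0⟩ 0 0)))) (.cut .d (-16384) (.cut .d (-24576) (.cut .v 16842752 (.cut .v 16809984 (.pos 85 .mp ⟨0, 0, 0, 0, 0, 86034757, 0, 0, 0, ⟨0, 0⟩, 0⟩ 0 0) (.cut .d (-28672) (.cut .s 8900608 (.pos 86 .mp ⟨23263457, 0, 0, 0, 0, 60894006, 0, 0, 0, ⟨0, 0⟩, 0⟩ 0 0) (.pos 86 .mp ⟨23708940, 0, 0, 0, 0, 62012063, 0, 0, 0, ⟨0, 0⟩, 0⟩ 0 0)) (.pos 86 .mp ⟨23540100, 0, 0, 0, 0, 59517610, 0, 0, 0, ⟨0, 0⟩, 0⟩ 0 0))) (.pos 81 .mp ⟨71866458, 0, 0, 0, 0, 0, 0, 0, 0, ⟨0, 0⟩, 0⟩ 0 0)) (.pos 37 .mp ⟨23373129, 0, 0, 0, 0, 0, 0, 0, 0, ⟨0, 0⟩, 0⟩ 0 0)) (.pos 37 .mp ⟨22108527, 0,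 0, 0, 0, 0, 0, 0, 0, ⟨0, 0⟩, 0⟩ 0 0))) (.pos 37 .mp ⟨23533635, 0, 0, 0, 0, 59167431, 0, 0, 0, ⟨0, 0⟩, 0⟩ 0 0)) (.pos 38 .mp ⟨73147631, 0, 0, 0, 0, 0, 0, 0, 0, ⟨0, 0⟩, 0⟩ 0 0))) (.cut .d (-65536) (.cut .v 16908288 (.pos 37 .mp ⟨0, 0, 0, 0, 0, 87288878, 0, 0, 0, ⟨0, 0⟩, 0⟩ 0 0) (.cut .s 8900608 (.pos 38 .mp ⟨24983924, 0, 0, 0, 0, 59649630, 0, 0, 0, ⟨0, 0⟩, 0⟩ 0 0) (.pos 38 .mp ⟨25508172, 0, 0, 0, 0, 60691295, 0, 0, 0, ⟨0, 0⟩, 0⟩ 0 0))) (.pos 35 .mp ⟨0, 0, 0, 0, 0, 0, 0, 0, 0, ⟨0, 0⟩, 0⟩ 0 0)))) (.cut .s 8986624 (.cut .l 750040 (.cut .d (-65536) (.cut .d (-98304) (.pos 35 .mp ⟨24002211, 0, 0, 0, 0, 73240299, 0, 0, 0, ⟨0, 0⟩, 0⟩ 0 0) (.cut .v 16908288 (.cut .s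 8957952 (.pos 37 .mp ⟨22621240, 0, 0, 0, 0, 66600333, 0, 0, 0, ⟨0, 0⟩, 0⟩ 0 0) (.pos 37 .mp ⟨23067174, 0, 0, 0, 0, 67829693, 0, 0, 0, ⟨0, 0⟩, 0⟩ 0 0)) (.pos 38 .mp ⟨42067898, 0, 0, 0, 0, 44265069, 0, 0, 0, ⟨0, 0⟩, 0⟩ 0 0))) (.cut .v 16908288 (.cut .l 483578 (.cut .d (-32768) (.cut .s 8957952 (.cut .d (-49152) (.pos 37 .mp ⟨23238996, 0, 0, 0, 0, 65965762, 0, 0, 0, ⟨0, 0⟩, 0⟩ 0 0) (.cut .s 8943616 (.pos 37 .mp ⟨24352935, 0, 0, 0, 0, 62744347, 0, 0, 0, ⟨0, 0⟩, 0⟩ 0 0) (.pos 37 .mp ⟨24574333, 0, 0, 0, 0, 63336814, 0, 0, 0, ⟨0, 0⟩, 0⟩ 0 0))) (.cut .s 8972288 (.cut .s 8965120 (.pos 37 .mp ⟨24107865, 0, 0, 0, 0, 64898833, 0, 0, 0, ⟨0, 0⟩, 0⟩ 0 0) (.pos 37 .mp ⟨24231625,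 0, 0, 0, 0, 65181246, 0, 0, 0, ⟨0, 0⟩, 0⟩ 0 0)) (.pos 37 .mp ⟨23974668, 0, 0, 0, 0, 66288586, 0, 0, 0, ⟨0, 0⟩, 0⟩ 0 0))) (.cut .d (-16384) (.cut .d (-24576) (.cut .v 16842752 (.cut .v 16809984 (.pos 85 .mp ⟨0, 0, 0, 0, 0, 89374966, 0, 0, 0, ⟨0, 0⟩, 0⟩ 0 0) (.cut .s 8957952 (.cut .s 8943616 (.pos 86 .mp ⟨23918665, 0, 0, 0, 0, 62505077, 0, 0, 0, ⟨0, 0⟩, 0⟩ 0 0) (.pos 86 .mp ⟨24144960, 0, 0, 0, 0, 63069096, 0, 0, 0, ⟨0, 0⟩, 0⟩ 0 0)) (.pos 86 .mp ⟨24600801, 0, 0, 0, 0, 63794143, 0, 0, 0, ⟨0, 0⟩, 0⟩ 0 0))) (.pos 81 .mp ⟨74317610, 0, 0, 0, 0, 0, 0, 0, 0, ⟨0, 0⟩, 0⟩ 0 0)) (.pos 37 .mp ⟨24263221, 0, 0, 0, 0, 0, 0, 0, 0, ⟨0, 0⟩, 0⟩ 0 0)) (.pos 37 .mp ⟨22978607, 0, 0,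 0, 0, 0, 0, 0, 0, ⟨0, 0⟩, 0⟩ 0 0))) (.pos 37 .mp ⟨24433455, 0, 0, 0, 0, 61373327, 0, 0, 0, ⟨0, 0⟩, 0⟩ 0 0)) (.pos 38 .mp ⟨75651536, 0, 0, 0, 0, 0, 0, 0, 0, ⟨0, 0⟩, 0⟩ 0 0))) (.cut .d (-65536) (.cut .v 16908288 (.pos 37 .mp ⟨0, 0, 0, 0, 0, 90718877, 0, 0, 0, ⟨0, 0⟩, 0⟩ 0 0) (.cut .s 8957952 (.pos 38 .mp ⟨26038054, 0, 0, 0, 0, 61755320, 0, 0, 0, ⟨0, 0⟩, 0⟩ 0 0) (.pos 38 .mp ⟨26573627, 0, 0, 0, 0, 62841646, 0, 0, 0, ⟨0, 0⟩, 0⟩ 0 0))) (.pos 35 .mp ⟨0, 0, 0, 0, 0, 0, 0, 0, 0, ⟨0, 0⟩, 0⟩ 0 0))) (.cut .l 750040 (.cut .d (-65536) (.cut .v 16908288 (.cut .s 9015296 (.pos 37 .mp ⟨23480150, 0, 0, 0, 0, 69175370, 0, 0, 0, ⟨0, 0⟩, 0⟩ 0 0) (.pos 37 .mp ⟨23941762, 0, 0, 0,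 0, 70434385, 0, 0, 0, ⟨0, 0⟩, 0⟩ 0 0)) (.pos 38 .mp ⟨87993843, 0, 0, 0, 0, 0, 0, 0, 0, ⟨0, 0⟩, 0⟩ 0 0)) (.cut .v 16908288 (.cut .l 483578 (.cut .d (-32768) (.cut .s 9015296 (.cut .s 9000960 (.pos 37 .mp ⟨24227854, 0, 0, 0, 0, 66856718, 0, 0, 0, ⟨0, 0⟩, 0⟩ 0 0) (.pos 37 .mp ⟨24487611, 0, 0, 0, 0, 67422617, 0, 0, 0, ⟨0, 0⟩, 0⟩ 0 0)) (.cut .s 9029632 (.pos 37 .mp ⟨24754044, 0, 0, 0, 0, 67986108, 0, 0, 0, ⟨0, 0⟩, 0⟩ 0 0) (.pos 37 .mp ⟨25027258, 0, 0, 0, 0, 68547016, 0, 0, 0, ⟨0, 0⟩, 0⟩ 0 0))) (.cut .d (-16384) (.cut .d (-24576) (.cut .s 9015296 (.cut .s 9000960 (.pos 37 .mp ⟨24812347, 0, 0, 0, 0, 64529270, 0, 0, 0, ⟨0, 0⟩, 0⟩ 0 0) (.pos 37 .mp ⟨24552918, 0, 0,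 0, 0, 66910013, 0, 0, 0, ⟨0, 0⟩, 0⟩ 0 0)) (.pos 37 .mp ⟨25117469, 0, 0, 0, 0, 67111921, 0, 0, 0, ⟨0, 0⟩, 0⟩ 0 0)) (.pos 37 .mp ⟨25170118, 0, 0, 0, 0, 0, 0, 0, 0, ⟨0, 0⟩, 0⟩ 0 0)) (.pos 37 .mp ⟨23864725, 0, 0, 0, 0, 0, 0, 0, 0, ⟨0, 0⟩, 0⟩ 0 0))) (.pos 37 .mp ⟨25347628, 0, 0, 0, 0, 63643305, 0, 0, 0, ⟨0, 0⟩, 0⟩ 0 0)) (.pos 38 .mp ⟨78258791, 0, 0, 0, 0, 0, 0, 0, 0, ⟨0, 0⟩, 0⟩ 0 0))) (.cut .d (-65536) (.cut .v 16908288 (.pos 37 .mp ⟨18987258, 0, 0, 0, 0, 73905402, 0, 0, 0, ⟨0, 0⟩, 0⟩ 0 0) (.cut .s 9015296 (.pos 38 .mp ⟨27114947, 0, 0, 0, 0, 63950216, 0, 0, 0, ⟨0, 0⟩, 0⟩ 0 0) (.pos 38 .mp ⟨27662073, 0, 0, 0, 0, 65080967, 0, 0, 0, ⟨0, 0⟩, 0⟩ 0 0))) (.pos 35 .mp ⟨0,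 0, 0, 0, 0, 0, 0, 0, 0, ⟨0, 0⟩, 0⟩ 0 0))))) (.pos 36 .mp ⟨77703979, 0, 0, 0, 0, 0, 0, 0, 0, ⟨0, 0⟩, 0⟩ 0 0)))) (.pos 34 .mp ⟨81311639, 0, 0, 0, 0, 0, 0, 0, 0, ⟨0, 0⟩, 0⟩ 0 0)) (.pos 32 .mp ⟨87756900, 0, 0, 0, 0, 0, 0, 0, 0, ⟨0, 0⟩, 0⟩ 0 0)) (.void 30 ⟨100000, 0, 0, 0, 0, 0, 0, 0, 0, ⟨0, 0⟩, 0⟩ 0 0))))))) (.void 28 ⟨100000, 0, 0, 0, 0, 0, 0, 0, 0, ⟨0, 0⟩, 0⟩ 0 0))) (.void 26 ⟨100000, 0, 0, 0, 0, 0, 0, 0, 0, ⟨0, 0⟩, 0⟩ 0 0)) (.void 73 ⟨100000, 0, 0, 0, 0, 0, 0, 0, 0, ⟨0, 0⟩, 0⟩ 0 0)) (.void 84 ⟨100000, 0, 0, 0, 0, 0, 0, 0, 0, ⟨0, 0⟩, 0⟩ 0 0))) (.cut .v 16777216 (.cut .v 8388608 (.cut .v 4194304 (.pos 4 .pm ⟨0, 0, 86503507, 0, 0, 0, 0, 0, 162685122, ⟨0, 0⟩, 3966728⟩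 0 0) (.pos 5 .pm ⟨0, 0, 0, 0, 0, 0, 0, 0, 1913279, ⟨0, 0⟩, 9975792⟩ 0 0)) (.cut .d 8004398 (.pos 3 .pm ⟨0, 0, 0, 0, 0, 0, 0, 0, 0, ⟨0, 0⟩, 0⟩ 0 0) (.cut .d 12006597 (.pos 3 .pm ⟨0, 0, 0, 0, 0, 0, 0, 15156166, 0, ⟨5022295, 3230⟩, 0⟩ 195 282) (.pos 3 .pm ⟨0, 55849139, 0, 0, 0, 0, 0, 0, 2496189, ⟨0, 0⟩, 14107901⟩ 0 0)))) (.cut .v 67108864 (.cut .d 8004398 (.cut .d 4002199 (.cut .d 2001099 (.cut .v 33554432 (.cut .v 25165824 (.pos 25 .pp ⟨41414588, 0, 0, 0, 0, 0, 0, 0, 0, ⟨0, 0⟩, 0⟩ 0 0) (.pos 26 .pp ⟨110666408, 0, 0, 0, 0, 0, 0, 0, 0, ⟨0, 0⟩, 0⟩ 0 0)) (.pos 73 .pp ⟨439035546, 0, 0, 0, 0, 0, 0, 0, 0, ⟨0, 0⟩, 0⟩ 0 0)) (.pos 72 .pp ⟨0, 0, 0, 0, 0, 0, 3151458, 0,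 0, ⟨0, 0⟩, 0⟩ 0 0)) (.pos 72 .pp ⟨0, 0, 0, 0, 0, 0, 1825852, 0, 0, ⟨0, 0⟩, 0⟩ 0 0)) (.cut .d 12006597 (.pos 72 .pp ⟨0, 0, 0, 0, 0, 0, 0, 22734250, 0, ⟨5022295, 3230⟩, 0⟩ 195 282) (.pos 72 .pp ⟨0, 83056379, 0, 0, 0, 0, 0, 0, 0, ⟨0, 0⟩, 0⟩ 0 0))) (.cut .v 134217728 (.cut .d 8004398 (.cut .d 4002199 (.cut .v 100663296 (.cut .v 83886080 (.pos 95 .pp ⟨782507327, 0, 0, 0, 0, 0, 0, 0, 0, ⟨0, 0⟩, 0⟩ 0 0) (.pos 96 .pp ⟨1195913139, 0, 0, 0, 0, 0, 0, 0, 0, ⟨0, 0⟩, 0⟩ 0 0)) (.pos 92 .pp ⟨76726312553, 91045847447, 0, 0, 0, 0, 0, 0, 0, ⟨0, 0⟩, 0⟩ 0 0)) (.pos 89 .pp ⟨0, 50314350, 0, 0, 0, 0, 138502024, 0, 0, ⟨0, 0⟩, 0⟩ 0 0)) (.void 89 ⟨0, 100000, 0, 0, 0, 0, 0, 0, 0, ⟨0,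 0⟩, 0⟩ 0 0)) (.void 90 ⟨38573, 61427, 0, 0, 0, 0, 0, 0, 0, ⟨0, 0⟩, 0⟩ 0 0))))),
    by decide +kernel⟩

def covers11 : cell.Covers table row11.1 :=
  ⟨(.cut .d 0 (.cut .v 16777216 (.cut .d (-8388608) (.void 1 ⟨0, 0, 0, 0, 0, 100000, 0, 0, 0, ⟨0, 0⟩, 0⟩ 0 0) (.cut .d (-4194304) (.void 1 ⟨0, 0, 0, 0, 0, 100000, 0, 0, 0, ⟨0, 0⟩, 0⟩ 0 0) (.cut .d (-2097152) (.void 1 ⟨0, 0, 0, 0, 0, 100000, 0, 0, 0, ⟨0, 0⟩, 0⟩ 0 0) (.cut .d (-1048576) (.void 1 ⟨0, 0, 0, 0, 0, 100000, 0, 0, 0, ⟨0, 0⟩, 0⟩ 0 0) (.cut .d (-524288) (.void 1 ⟨0, 0, 0, 0, 0, 100000, 0, 0, 0, ⟨0, 0⟩, 0⟩ 0 0) (.cut .d (-262144) (.void 1 ⟨0, 0, 0, 0, 0, 100000, 0, 0, 0, ⟨0, 0⟩, 0⟩ 0 0) (.cut .v 8388608 (.cut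 .v 4194304 (.void 4 ⟨0, 0, 100000, 0, 0, 0, 0, 0, 0, ⟨0, 0⟩, 0⟩ 0 0) (.pos 5 .mm ⟨0, 0, 0, 0, 0, 57516298, 0, 0, 0, ⟨0, 0⟩, 0⟩ 0 0)) (.cut .v 12582912 (.pos 8 .mm ⟨0, 0, 0, 0, 0, 80504110, 0, 0, 0, ⟨0, 0⟩, 0⟩ 0 0) (.cut .v 14680064 (.pos 12 .mm ⟨0, 0, 0, 0, 0, 98128037, 0, 0, 0, ⟨0, 0⟩, 0⟩ 0 0) (.cut .v 15728640 (.pos 16 .mm ⟨0, 0, 0, 0, 0, 108666560, 0, 0, 0, ⟨0, 0⟩, 0⟩ 0 0) (.cut .d (-131072) (.cut .s 9306112 (.pos 17 .mm ⟨0, 0, 0, 0, 0, 114495190, 0, 0, 0, ⟨0, 0⟩, 0⟩ 0 0) (.pos 17 .mm ⟨0, 0, 0, 0, 0, 135707461, 0, 0, 0, ⟨0, 0⟩, 0⟩ 0 0)) (.cut .v 16252928 (.pos 20 .mm ⟨0, 0, 0, 0, 0, 106918843, 0, 0, 0, ⟨0, 0⟩, 0⟩ 0 0) (.cut .s 9306112 (.cut .l 750040 (.cut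 .d (-65536) (.pos 21 .mm ⟨0, 0, 0, 0, 0, 111866346, 0, 0, 0, ⟨0, 0⟩, 0⟩ 0 0) (.cut .s 9175040 (.pos 21 .mm ⟨0, 0, 0, 0, 0, 99295112, 0, 0, 0, ⟨0, 0⟩, 0⟩ 0 0) (.pos 21 .mm ⟨0, 0, 0, 0, 0, 108052291, 0, 0, 0, ⟨0, 0⟩, 0⟩ 0 0))) (.pos 21 .mm ⟨0, 0, 0, 0, 0, 99943875, 0, 0, 0, ⟨0, 0⟩, 0⟩ 0 0)) (.cut .l 750040 (.cut .d (-65536) (.pos 21 .mm ⟨0, 0, 0, 0, 0, 132136808, 0, 0, 0, ⟨0, 0⟩, 0⟩ 0 0) (.cut .s 9437184 (.pos 21 .mm ⟨0, 0, 0, 0, 0, 117418467, 0, 0, 0, ⟨0, 0⟩, 0⟩ 0 0) (.pos 21 .mm ⟨0, 0, 0, 0, 0, 127369038, 0, 0, 0, ⟨0, 0⟩, 0⟩ 0 0))) (.pos 21 .mm ⟨0, 0, 0, 0, 0, 118040821, 0, 0, 0, ⟨0, 0⟩, 0⟩ 0 0))))))))))))))) (.cut .v 67108864 (.cut .v 33554432 (.cut .v 25165824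 (.cut .d (-8388608) (.void 25 ⟨0, 0, 0, 0, 0, 100000, 0, 0, 0, ⟨0, 0⟩, 0⟩ 0 0) (.cut .v 20971520 (.cut .d (-4194304) (.void 27 ⟨0, 0, 0, 0, 0, 100000, 0, 0, 0, ⟨0, 0⟩, 0⟩ 0 0) (.cut .d (-2097152) (.void 27 ⟨0, 0, 0, 0, 0, 100000, 0, 0, 0, ⟨0, 0⟩, 0⟩ 0 0) (.cut .d (-1048576) (.void 27 ⟨0, 0, 0, 0, 0, 100000, 0, 0, 0, ⟨0, 0⟩, 0⟩ 0 0) (.cut .d (-524288) (.void 27 ⟨0, 0, 0, 0, 0, 100000, 0, 0, 0, ⟨0, 0⟩, 0⟩ 0 0) (.cut .d (-262144) (.void 27 ⟨0, 0, 0, 0, 0, 100000, 0, 0, 0, ⟨0, 0⟩, 0⟩ 0 0) (.cut .v 18874368 (.cut .v 17825792 (.cut .v 17301504 (.cut .d (-131072) (.cut .d (-196608) (.void 33 ⟨0, 0, 0, 0, 0, 100000, 0, 0, 0, ⟨0, 0⟩, 0⟩ 0 0) (.cut .v 17039360 (.cut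 .l 750040 (.void 35 ⟨0, 0, 0, 0, 0, 100000, 0, 0, 0, ⟨0, 0⟩, 0⟩ 0 0) (.cut .d (-163840) (.pos 35 .mp ⟨26421599, 0, 0, 0, 0, 106872397, 0, 0, 0, ⟨0, 0⟩, 0⟩ 0 0) (.cut .l 1016502 (.void 35 ⟨0, 0, 0, 0, 0, 100000, 0, 0, 0, ⟨0, 0⟩, 0⟩ 0 0) (.cut .s 9306112 (.cut .v 16908288 (.pos 37 .mp ⟨0, 0, 0, 0, 0, 109701795, 0, 0, 0, ⟨0, 0⟩, 0⟩ 0 0) (.cut .s 9175040 (.cut .s 9109504 (.cut .s 9076736 (.pos 38 .mp ⟨25033239, 0, 0, 0, 0, 72235024, 0, 0, 0, ⟨0, 0⟩, 0⟩ 0 0) (.pos 38 .mp ⟨25627240, 0, 0, 0, 0, 73578938, 0, 0, 0, ⟨0, 0⟩, 0⟩ 0 0)) (.cut .l 1149733 (.pos 38 .mp ⟨26906683, 0, 0, 0, 0, 76600903, 0, 0, 0, ⟨0, 0⟩, 0⟩ 0 0) (.cut .s 9142272 (.pos 38 .mp ⟨29201270, 0, 0,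 0, 0, 70162160, 0, 0, 0, ⟨0, 0⟩, 0⟩ 0 0) (.cut .s 9158656 (.pos 38 .mp ⟨29442036, 0, 0, 0, 0, 71558017, 0, 0, 0, ⟨0, 0⟩, 0⟩ 0 0) (.pos 38 .mp ⟨27146008, 0, 0, 0, 0, 76380437, 0, 0, 0, ⟨0, 0⟩, 0⟩ 0 0))))) (.cut .s 9240576 (.cut .l 1149733 (.pos 38 .mp ⟨28161743, 0, 0, 0, 0, 79531601, 0, 0, 0, ⟨0, 0⟩, 0⟩ 0 0) (.cut .d (-147456) (.cut .s 9207808 (.pos 38 .mp ⟨28315537, 0, 0, 0, 0, 77244994, 0, 0, 0, ⟨0, 0⟩, 0⟩ 0 0) (.pos 38 .mp ⟨28966374, 0, 0, 0, 0, 78694020, 0, 0, 0, ⟨0, 0⟩, 0⟩ 0 0)) (.pos 38 .mp ⟨30356054, 0, 0, 0, 0, 72604387, 0, 0, 0, ⟨0, 0⟩, 0⟩ 0 0))) (.cut .s 9273344 (.cut .s 9256960 (.pos 38 .mp ⟨28777135, 0, 0, 0, 0, 80036497, 0, 0, 0, ⟨0, 0⟩, 0⟩ 0 0)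 (.pos 38 .mp ⟨29072663, 0, 0, 0, 0, 80851404, 0, 0, 0, ⟨0, 0⟩, 0⟩ 0 0)) (.pos 38 .mp ⟨29352415, 0, 0, 0, 0, 82457846, 0, 0, 0, ⟨0, 0⟩, 0⟩ 0 0))))) (.cut .s 9437184 (.cut .s 9371648 (.cut .s 9338880 (.pos 35 .mp ⟨29820437, 0, 0, 0, 0, 84292050, 0, 0, 0, ⟨0, 0⟩, 0⟩ 0 0) (.pos 35 .mp ⟨30458581, 0, 0, 0, 0, 85970564, 0, 0, 0, ⟨0, 0⟩, 0⟩ 0 0)) (.pos 35 .mp ⟨31102891, 0, 0, 0, 0, 89247997, 0, 0, 0, ⟨0, 0⟩, 0⟩ 0 0)) (.pos 35 .mp ⟨32410329, 0, 0, 0, 0, 96007539, 0, 0, 0, ⟨0, 0⟩, 0⟩ 0 0)))))) (.pos 36 .mp ⟨107933443, 0, 0, 0, 0, 0, 0, 0, 0, ⟨0, 0⟩, 0⟩ 0 0))) (.cut .s 9306112 (.cut .v 17039360 (.cut .s 9175040 (.cut .s 9109504 (.cut .d (-65536) (.cut .l 750040 (.cut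 .v 16908288 (.cut .s 9076736 (.pos 37 .mp ⟨24433404, 0, 0, 0, 0, 71944899, 0, 0, 0, ⟨0, 0⟩, 0⟩ 0 0) (.pos 37 .mp ⟨24957060, 0, 0, 0, 0, 73344732, 0, 0, 0, ⟨0, 0⟩, 0⟩ 0 0)) (.pos 38 .mp ⟨91584249, 0, 0, 0, 0, 0, 0, 0, 0, ⟨0, 0⟩, 0⟩ 0 0)) (.cut .d (-98304) (.cut .v 16908288 (.pos 37 .mp ⟨0, 0, 0, 0, 0, 102527570, 0, 0, 0, ⟨0, 0⟩, 0⟩ 0 0) (.cut .s 9076736 (.pos 38 .mp ⟨28287871, 0, 0, 0, 0, 66635673, 0, 0, 0, ⟨0, 0⟩, 0⟩ 0 0) (.pos 38 .mp ⟨28948866, 0, 0, 0, 0, 67826903, 0, 0, 0, ⟨0, 0⟩, 0⟩ 0 0))) (.pos 35 .mp ⟨27203233, 0, 0, 0, 0, 66106933, 0, 0, 0, ⟨0, 0⟩, 0⟩ 0 0))) (.cut .v 16908288 (.cut .l 750040 (.cut .l 483578 (.cut .d (-32768) (.cut .d (-49152) (.pos 37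 .mp ⟨25034744, 0, 0, 0, 0, 73057012, 0, 0, 0, ⟨0, 0⟩, 0⟩ 0 0) (.cut .l 350347 (.cut .s 9076736 (.pos 37 .mp ⟨25462806, 0, 0, 0, 0, 69942667, 0, 0, 0, ⟨0, 0⟩, 0⟩ 0 0) (.cut .s 9093120 (.pos 37 .mp ⟨26157928, 0, 0, 0, 0, 70190500, 0, 0, 0, ⟨0, 0⟩, 0⟩ 0 0) (.pos 37 .mp ⟨26393794, 0, 0, 0, 0, 70943369, 0, 0, 0, ⟨0, 0⟩, 0⟩ 0 0))) (.pos 37 .mp ⟨26741659, 0, 0, 0, 0, 66815074, 0, 0, 0, ⟨0, 0⟩, 0⟩ 0 0))) (.cut .d (-16384) (.cut .d (-24576) (.cut .s 9076736 (.pos 37 .mp ⟨25981981, 0, 0, 0, 0, 67870917, 0, 0, 0, ⟨0, 0⟩, 0⟩ 0 0) (.cut .s 9093120 (.pos 37 .mp ⟨25985234, 0, 0, 0, 0, 69836995, 0, 0, 0, ⟨0, 0⟩, 0⟩ 0 0) (.cut .s 9101312 (.pos 37 .mp ⟨26044425, 0, 0, 0, 0,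 70625011, 0, 0, 0, ⟨0, 0⟩, 0⟩ 0 0) (.pos 37 .mp ⟨26177293, 0, 0, 0, 0, 70985317, 0, 0, 0, ⟨0, 0⟩, 0⟩ 0 0)))) (.pos 37 .mp ⟨26234065, 0, 0, 0, 0, 0, 0, 0, 0, ⟨0, 0⟩, 0⟩ 0 0)) (.pos 37 .mp ⟨25250889, 0, 0, 0, 0, 0, 0, 0, 0, ⟨0, 0⟩, 0⟩ 0 0))) (.pos 37 .mp ⟨26862032, 0, 0, 0, 0, 65636808, 0, 0, 0, ⟨0, 0⟩, 0⟩ 0 0)) (.pos 37 .mp ⟨0, 0, 0, 0, 0, 0, 0, 0, 0, ⟨0, 0⟩, 0⟩ 0 0)) (.pos 38 .mp ⟨80384980, 0, 0, 0, 0, 0, 0, 0, 0, ⟨0, 0⟩, 0⟩ 0 0))) (.cut .d (-65536) (.cut .l 750040 (.cut .d (-98304) (.void 35 ⟨0, 0, 0, 0, 0, 100000, 0, 0, 0, ⟨0, 0⟩, 0⟩ 0 0) (.cut .d (-81920) (.pos 35 .mp ⟨26457219, 0, 0, 0, 0, 77006297, 0, 0, 0, ⟨0, 0⟩, 0⟩ 0 0) (.cut .l 483578 (.void 35 ⟨0,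 0, 0, 0, 0, 100000, 0, 0, 0, ⟨0, 0⟩, 0⟩ 0 0) (.cut .s 9142272 (.pos 35 .mp ⟨28373685, 0, 0, 0, 0, 69435361, 0, 0, 0, ⟨0, 0⟩, 0⟩ 0 0) (.pos 35 .mp ⟨28994276, 0, 0, 0, 0, 70749007, 0, 0, 0, ⟨0, 0⟩, 0⟩ 0 0))))) (.cut .d (-98304) (.cut .v 16908288 (.pos 37 .mp ⟨0, 0, 0, 0, 0, 106753304, 0, 0, 0, ⟨0, 0⟩, 0⟩ 0 0) (.cut .s 9142272 (.pos 38 .mp ⟨29614337, 0, 0, 0, 0, 69064380, 0, 0, 0, ⟨0, 0⟩, 0⟩ 0 0) (.cut .s 9158656 (.pos 38 .mp ⟨29948847, 0, 0, 0, 0, 70331641, 0, 0, 0, ⟨0, 0⟩, 0⟩ 0 0) (.pos 38 .mp ⟨30285162, 0, 0, 0, 0, 70977080, 0, 0, 0, ⟨0, 0⟩, 0⟩ 0 0)))) (.pos 35 .mp ⟨28436182, 0, 0, 0, 0, 68676430, 0, 0, 0, ⟨0, 0⟩, 0⟩ 0 0))) (.cut .v 16908288 (.cut .l 750040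 (.cut .l 483578 (.cut .d (-32768) (.cut .s 9142272 (.cut .d (-49152) (.pos 37 .mp ⟨26099675, 0, 0, 0, 0, 74215864, 0, 0, 0, ⟨0, 0⟩, 0⟩ 0 0) (.cut .s 9125888 (.pos 37 .mp ⟨27437001, 0, 0, 0, 0, 70152874, 0, 0, 0, ⟨0, 0⟩, 0⟩ 0 0) (.cut .s 9134080 (.pos 37 .mp ⟨27190038, 0, 0, 0, 0, 71429447, 0, 0, 0, ⟨0, 0⟩, 0⟩ 0 0) (.pos 37 .mp ⟨27344999, 0, 0, 0, 0, 71753678, 0, 0, 0, ⟨0, 0⟩, 0⟩ 0 0)))) (.cut .d (-49152) (.pos 37 .mp ⟨26619080, 0, 0, 0, 0, 75706213, 0, 0, 0, ⟨0, 0⟩, 0⟩ 0 0) (.cut .v 16842752 (.cut .s 9158656 (.pos 80 .mp ⟨27207850, 0, 0, 0, 0, 72607398, 0, 0, 0, ⟨0, 0⟩, 0⟩ 0 0) (.pos 80 .mp ⟨27431166, 0, 0, 0, 0, 73404550, 0, 0, 0, ⟨0, 0⟩, 0⟩ 0 0)) (.pos 81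 .mp ⟨40272176, 0, 0, 0, 0, 57373250, 0, 0, 0, ⟨0, 0⟩, 0⟩ 0 0)))) (.cut .d (-16384) (.cut .d (-24576) (.cut .v 16842752 (.cut .v 16809984 (.pos 85 .mp ⟨0, 0, 0, 0, 0, 102293151, 0, 0, 0, ⟨0, 0⟩, 0⟩ 0 0) (.cut .l 350347 (.cut .l 283731 (.cut .v 16826368 (.cut .l 250423 (.cut .d (-28672) (.pos 93 .mp ⟨26236188, 0, 0, 0, 0, 74950986, 0, 0, 0, ⟨0, 0⟩, 0⟩ 0 0) (.cut .s 9142272 (.pos 93 .mp ⟨26671367, 0, 0, 0, 0, 71196103, 0, 0, 0, ⟨0, 0⟩, 0⟩ 0 0) (.cut .s 9158656 (.pos 93 .mp ⟨26742430, 0, 0, 0, 0, 72578002, 0, 0, 0, ⟨0, 0⟩, 0⟩ 0 0) (.pos 93 .mp ⟨27010260, 0, 0, 0, 0, 73309441, 0, 0, 0, ⟨0, 0⟩, 0⟩ 0 0)))) (.pos 93 .mp ⟨25868594, 0, 0, 0, 0, 72341631, 0, 0, 0, ⟨0,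 0⟩, 0⟩ 0 0)) (.pos 94 .mp ⟨50841450, 0, 0, 0, 0, 43602921, 0, 0, 0, ⟨0, 0⟩, 0⟩ 0 0)) (.pos 86 .mp ⟨27361123, 0, 0, 0, 0, 0, 0, 0, 0, ⟨0, 0⟩, 0⟩ 0 0)) (.pos 86 .mp ⟨0, 0, 0, 0, 0, 0, 0, 0, 0, ⟨0, 0⟩, 0⟩ 0 0))) (.pos 81 .mp ⟨82709296, 0, 0, 0, 0, 0, 0, 0, 0, ⟨0, 0⟩, 0⟩ 0 0)) (.pos 37 .mp ⟨27316808, 0, 0, 0, 0, 0, 0, 0, 0, ⟨0, 0⟩, 0⟩ 0 0)) (.pos 37 .mp ⟨26238643, 0, 0, 0, 0, 0, 0, 0, 0, ⟨0, 0⟩, 0⟩ 0 0))) (.pos 37 .mp ⟨28020953, 0, 0, 0, 0, 68287943, 0, 0, 0, ⟨0, 0⟩, 0⟩ 0 0)) (.pos 37 .mp ⟨0, 0, 0, 0, 0, 0, 0, 0, 0, ⟨0, 0⟩, 0⟩ 0 0)) (.pos 38 .mp ⟨83254631, 0, 0, 0, 0, 0, 0, 0, 0, ⟨0, 0⟩, 0⟩ 0 0)))) (.cut .s 9240576 (.cut .d (-65536) (.cut .l 750040 (.cut .d (-98304)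 (.void 35 ⟨0, 0, 0, 0, 0, 100000, 0, 0, 0, ⟨0, 0⟩, 0⟩ 0 0) (.cut .d (-81920) (.pos 35 .mp ⟨27582610, 0, 0, 0, 0, 80088764, 0, 0, 0, ⟨0, 0⟩, 0⟩ 0 0) (.cut .v 16908288 (.cut .s 9207808 (.pos 37 .mp ⟨26617261, 0, 0, 0, 0, 77588740, 0, 0, 0, ⟨0, 0⟩, 0⟩ 0 0) (.pos 37 .mp ⟨27174673, 0, 0, 0, 0, 79135928, 0, 0, 0, ⟨0, 0⟩, 0⟩ 0 0)) (.pos 38 .mp ⟨88063092, 0, 0, 0, 0, 0, 0, 0, 0, ⟨0, 0⟩, 0⟩ 0 0)))) (.cut .d (-98304) (.cut .v 16908288 (.pos 37 .mp ⟨0, 0, 0, 0, 0, 111228086, 0, 0, 0, ⟨0, 0⟩, 0⟩ 0 0) (.cut .l 1016502 (.cut .s 9207808 (.pos 38 .mp ⟨30963249, 0, 0, 0, 0, 72229810, 0, 0, 0, ⟨0, 0⟩, 0⟩ 0 0) (.pos 38 .mp ⟨31648687, 0, 0, 0, 0, 73614288, 0, 0, 0, ⟨0, 0⟩, 0⟩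 0 0)) (.pos 38 .mp ⟨30178684, 0, 0, 0, 0, 72295316, 0, 0, 0, ⟨0, 0⟩, 0⟩ 0 0))) (.pos 35 .mp ⟨29675590, 0, 0, 0, 0, 71348777, 0, 0, 0, ⟨0, 0⟩, 0⟩ 0 0))) (.cut .v 16908288 (.cut .l 750040 (.cut .l 483578 (.cut .d (-32768) (.cut .s 9207808 (.cut .d (-49152) (.pos 37 .mp ⟨27175993, 0, 0, 0, 0, 77194826, 0, 0, 0, ⟨0, 0⟩, 0⟩ 0 0) (.cut .v 16842752 (.cut .s 9191424 (.pos 80 .mp ⟨27667202, 0, 0, 0, 0, 74196848, 0, 0, 0, ⟨0, 0⟩, 0⟩ 0 0) (.pos 80 .mp ⟨27916284, 0, 0, 0, 0, 74983810, 0, 0, 0, ⟨0, 0⟩, 0⟩ 0 0)) (.pos 81 .mp ⟨40899633, 0, 0, 0, 0, 58709378, 0, 0, 0, ⟨0, 0⟩, 0⟩ 0 0))) (.cut .d (-49152) (.pos 37 .mp ⟨27735685, 0, 0, 0, 0, 78741223, 0, 0, 0, ⟨0, 0⟩, 0⟩ 0 0)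 (.cut .v 16842752 (.cut .s 9224192 (.pos 80 .mp ⟨28178737, 0, 0, 0, 0, 75764950, 0, 0, 0, ⟨0, 0⟩, 0⟩ 0 0) (.pos 80 .mp ⟨27075110, 0, 0, 0, 0, 78780792, 0, 0, 0, ⟨0, 0⟩, 0⟩ 0 0)) (.pos 81 .mp ⟨41649835, 0, 0, 0, 0, 59945896, 0, 0, 0, ⟨0, 0⟩, 0⟩ 0 0)))) (.cut .d (-16384) (.cut .d (-24576) (.cut .v 16842752 (.cut .v 16809984 (.pos 85 .mp ⟨0, 0, 0, 0, 0, 106646001, 0, 0, 0, ⟨0, 0⟩, 0⟩ 0 0) (.cut .l 350347 (.cut .l 283731 (.cut .v 16826368 (.cut .s 9207808 (.cut .d (-28672) (.pos 93 .mp ⟨27137916, 0, 0, 0, 0, 75770657, 0, 0, 0, ⟨0, 0⟩, 0⟩ 0 0) (.cut .s 9191424 (.pos 93 .mp ⟨27279219, 0, 0, 0, 0, 74048278, 0, 0, 0, ⟨0, 0⟩, 0⟩ 0 0) (.pos 93 .mp ⟨27549370, 0, 0, 0,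 0, 74794356, 0, 0, 0, ⟨0, 0⟩, 0⟩ 0 0))) (.cut .s 9224192 (.cut .s 9216000 (.pos 93 .mp ⟨27821152, 0, 0, 0, 0, 75218287, 0, 0, 0, ⟨0, 0⟩, 0⟩ 0 0) (.pos 93 .mp ⟨27957476, 0, 0, 0, 0, 75600548, 0, 0, 0, ⟨0, 0⟩, 0⟩ 0 0)) (.pos 93 .mp ⟨28094089, 0, 0, 0, 0, 76459681, 0, 0, 0, ⟨0, 0⟩, 0⟩ 0 0))) (.pos 94 .mp ⟨52205593, 0, 0, 0, 0, 46016333, 0, 0, 0, ⟨0, 0⟩, 0⟩ 0 0)) (.pos 86 .mp ⟨28465330, 0, 0, 0, 0, 0, 0, 0, 0, ⟨0, 0⟩, 0⟩ 0 0)) (.pos 86 .mp ⟨0, 0, 0, 0, 0, 0, 0, 0, 0, ⟨0, 0⟩, 0⟩ 0 0))) (.pos 81 .mp ⟨85703201, 0, 0, 0, 0, 0, 0, 0, 0, ⟨0, 0⟩, 0⟩ 0 0)) (.pos 37 .mp ⟨28418365, 0, 0, 0, 0, 0, 0, 0, 0, ⟨0, 0⟩, 0⟩ 0 0)) (.pos 37 .mp ⟨27242097, 0, 0, 0, 0, 0, 0, 0, 0, ⟨0,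 0⟩, 0⟩ 0 0))) (.pos 37 .mp ⟨29191302, 0, 0, 0, 0, 71070368, 0, 0, 0, ⟨0, 0⟩, 0⟩ 0 0)) (.pos 37 .mp ⟨0, 0, 0, 0, 0, 0, 0, 0, 0, ⟨0, 0⟩, 0⟩ 0 0)) (.pos 38 .mp ⟨86287764, 0, 0, 0, 0, 0, 0, 0, 0, ⟨0, 0⟩, 0⟩ 0 0))) (.cut .d (-65536) (.cut .l 750040 (.cut .d (-98304) (.void 35 ⟨0, 0, 0, 0, 0, 100000, 0, 0, 0, ⟨0, 0⟩, 0⟩ 0 0) (.cut .d (-81920) (.pos 35 .mp ⟨28774281, 0, 0, 0, 0, 83308983, 0, 0, 0, ⟨0, 0⟩, 0⟩ 0 0) (.cut .v 16908288 (.cut .s 9273344 (.pos 37 .mp ⟨27735503, 0, 0, 0, 0, 80741262, 0, 0, 0, ⟨0, 0⟩, 0⟩ 0 0) (.pos 37 .mp ⟨28301148, 0, 0, 0, 0, 82403896, 0, 0, 0, ⟨0, 0⟩, 0⟩ 0 0)) (.pos 38 .mp ⟨91339010, 0, 0, 0, 0, 0, 0, 0, 0, ⟨0, 0⟩, 0⟩ 0 0)))) (.cut .d (-98304)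 (.cut .v 16908288 (.pos 37 .mp ⟨0, 0, 0, 0, 0, 115959541, 0, 0, 0, ⟨0, 0⟩, 0⟩ 0 0) (.cut .l 1016502 (.cut .s 9273344 (.pos 38 .mp ⟨32341566, 0, 0, 0, 0, 75037630, 0, 0, 0, ⟨0, 0⟩, 0⟩ 0 0) (.pos 38 .mp ⟨33041979, 0, 0, 0, 0, 76499759, 0, 0, 0, ⟨0, 0⟩, 0⟩ 0 0)) (.pos 38 .mp ⟨31516205, 0, 0, 0, 0, 75091788, 0, 0, 0, ⟨0, 0⟩, 0⟩ 0 0))) (.pos 35 .mp ⟨30939289, 0, 0, 0, 0, 74182299, 0, 0, 0, ⟨0, 0⟩, 0⟩ 0 0))) (.cut .v 16908288 (.cut .l 750040 (.cut .l 483578 (.cut .d (-32768) (.cut .s 9273344 (.cut .d (-49152) (.pos 37 .mp ⟨28297913, 0, 0, 0, 0, 80346697, 0, 0, 0, ⟨0, 0⟩, 0⟩ 0 0) (.cut .v 16842752 (.cut .s 9256960 (.pos 80 .mp ⟨27341499, 0, 0, 0, 0, 79590579, 0, 0,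 0, ⟨0, 0⟩, 0⟩ 0 0) (.pos 80 .mp ⟨27608957, 0, 0, 0, 0, 80414807, 0, 0, 0, ⟨0, 0⟩, 0⟩ 0 0)) (.pos 81 .mp ⟨42530049, 0, 0, 0, 0, 61072960, 0, 0, 0, ⟨0, 0⟩, 0⟩ 0 0))) (.cut .d (-49152) (.pos 37 .mp ⟨28865053, 0, 0, 0, 0, 82009125, 0, 0, 0, ⟨0, 0⟩, 0⟩ 0 0) (.cut .s 9289728 (.cut .s 9281536 (.pos 37 .mp ⟨29810180, 0, 0, 0, 0, 78067304, 0, 0, 0, ⟨0, 0⟩, 0⟩ 0 0) (.pos 37 .mp ⟨29943607, 0, 0, 0, 0, 78489070, 0, 0, 0, ⟨0, 0⟩, 0⟩ 0 0)) (.pos 37 .mp ⟨30704366, 0, 0, 0, 0, 78178738, 0, 0, 0, ⟨0, 0⟩, 0⟩ 0 0)))) (.cut .d (-16384) (.cut .d (-24576) (.cut .v 16842752 (.cut .v 16809984 (.pos 85 .mp ⟨0, 0, 0, 0, 0, 111148324, 0, 0, 0, ⟨0, 0⟩, 0⟩ 0 0) (.cut .l 350347 (.cut .l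 283731 (.cut .v 16826368 (.cut .s 9273344 (.cut .s 9256960 (.pos 93 .mp ⟨28368188, 0, 0, 0, 0, 77234209, 0, 0, 0, ⟨0, 0⟩, 0⟩ 0 0) (.pos 93 .mp ⟨28643456, 0, 0, 0, 0, 78015903, 0, 0, 0, ⟨0, 0⟩, 0⟩ 0 0)) (.pos 93 .mp ⟨28548886, 0, 0, 0, 0, 80080507, 0, 0, 0, ⟨0, 0⟩, 0⟩ 0 0)) (.pos 94 .mp ⟨54011683, 0, 0, 0, 0, 48080476, 0, 0, 0, ⟨0, 0⟩, 0⟩ 0 0)) (.pos 86 .mp ⟨29588404, 0, 0, 0, 0, 0, 0, 0, 0, ⟨0, 0⟩, 0⟩ 0 0)) (.pos 86 .mp ⟨0, 0, 0, 0, 0, 0, 0, 0, 0, ⟨0, 0⟩, 0⟩ 0 0))) (.pos 81 .mp ⟨88861025, 0, 0, 0, 0, 0, 0, 0, 0, ⟨0, 0⟩, 0⟩ 0 0)) (.pos 37 .mp ⟨29534928, 0, 0, 0, 0, 0, 0, 0, 0, ⟨0, 0⟩, 0⟩ 0 0)) (.pos 37 .mp ⟨28261657, 0, 0, 0, 0, 0, 0, 0, 0, ⟨0, 0⟩, 0⟩ 0 0)))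 (.pos 37 .mp ⟨30382493, 0, 0, 0, 0, 73967279, 0, 0, 0, ⟨0, 0⟩, 0⟩ 0 0)) (.pos 37 .mp ⟨0, 0, 0, 0, 0, 0, 0, 0, 0, ⟨0, 0⟩, 0⟩ 0 0)) (.pos 38 .mp ⟨89487729, 0, 0, 0, 0, 0, 0, 0, 0, ⟨0, 0⟩, 0⟩ 0 0))))) (.pos 36 .mp ⟨90381873, 0, 0, 0, 0, 0, 0, 0, 0, ⟨0, 0⟩, 0⟩ 0 0)) (.cut .v 17039360 (.cut .s 9437184 (.cut .s 9371648 (.cut .d (-65536) (.cut .l 750040 (.cut .v 16908288 (.cut .s 9338880 (.pos 37 .mp ⟨28871673, 0, 0, 0, 0, 84280995, 0, 0, 0, ⟨0, 0⟩, 0⟩ 0 0) (.pos 37 .mp ⟨29447143, 0, 0, 0, 0, 86020195, 0, 0, 0, ⟨0, 0⟩, 0⟩ 0 0)) (.pos 38 .mp ⟨105317648, 0, 0, 0, 0, 0, 0, 0, 0, ⟨0, 0⟩, 0⟩ 0 0)) (.cut .d (-98304) (.cut .l 1016502 (.cut .s 9338880 (.pos 35 .mp ⟨29424048,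 0, 0, 0, 0, 84511669, 0, 0, 0, ⟨0, 0⟩, 0⟩ 0 0) (.pos 35 .mp ⟨30036574, 0, 0, 0, 0, 86215969, 0, 0, 0, ⟨0, 0⟩, 0⟩ 0 0)) (.pos 35 .mp ⟨32372524, 0, 0, 0, 0, 77391550, 0, 0, 0, ⟨0, 0⟩, 0⟩ 0 0)) (.pos 35 .mp ⟨32228089, 0, 0, 0, 0, 77155954, 0, 0, 0, ⟨0, 0⟩, 0⟩ 0 0))) (.cut .v 16908288 (.cut .l 750040 (.cut .l 483578 (.cut .d (-32768) (.cut .d (-49152) (.pos 37 .mp ⟨29437172, 0, 0, 0, 0, 85615837, 0, 0, 0, ⟨0, 0⟩, 0⟩ 0 0) (.cut .l 350347 (.cut .s 9338880 (.pos 37 .mp ⟨29654005, 0, 0, 0, 0, 82478404, 0, 0, 0, ⟨0, 0⟩, 0⟩ 0 0) (.pos 37 .mp ⟨30282504, 0, 0, 0, 0, 84084844, 0, 0, 0, ⟨0, 0⟩, 0⟩ 0 0)) (.pos 37 .mp ⟨31331165, 0, 0, 0, 0, 78392458, 0, 0, 0, ⟨0, 0⟩, 0⟩ 0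 0))) (.cut .d (-16384) (.cut .d (-24576) (.cut .s 9338880 (.cut .s 9322496 (.pos 37 .mp ⟨29869045, 0, 0, 0, 0, 80315672, 0, 0, 0, ⟨0, 0⟩, 0⟩ 0 0) (.pos 37 .mp ⟨30132047, 0, 0, 0, 0, 81201271, 0, 0, 0, ⟨0, 0⟩, 0⟩ 0 0)) (.pos 37 .mp ⟨31023849, 0, 0, 0, 0, 81274014, 0, 0, 0, ⟨0, 0⟩, 0⟩ 0 0)) (.pos 37 .mp ⟨30670866, 0, 0, 0, 0, 50000148, 0, 0, 0, ⟨0, 0⟩, 0⟩ 0 0)) (.pos 37 .mp ⟨29297745, 0, 0, 0, 0, 0, 0, 0, 0, ⟨0, 0⟩, 0⟩ 0 0))) (.pos 37 .mp ⟨31596272, 0, 0, 0, 0, 76972671, 0, 0, 0, ⟨0, 0⟩, 0⟩ 0 0)) (.pos 37 .mp ⟨0, 0, 0, 0, 0, 0, 0, 0, 0, ⟨0, 0⟩, 0⟩ 0 0)) (.pos 38 .mp ⟨92858003, 0, 0, 0, 0, 0, 0, 0, 0, ⟨0, 0⟩, 0⟩ 0 0))) (.cut .d (-65536) (.cut .l 750040 (.cut .s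 9404416 (.pos 35 .mp ⟨30213011, 0, 0, 0, 0, 88820711, 0, 0, 0, ⟨0, 0⟩, 0⟩ 0 0) (.pos 35 .mp ⟨30810381, 0, 0, 0, 0, 90657253, 0, 0, 0, ⟨0, 0⟩, 0⟩ 0 0)) (.cut .d (-98304) (.cut .l 1016502 (.pos 35 .mp ⟨30654743, 0, 0, 0, 0, 89584074, 0, 0, 0, ⟨0, 0⟩, 0⟩ 0 0) (.pos 35 .mp ⟨33782185, 0, 0, 0, 0, 80401157, 0, 0, 0, ⟨0, 0⟩, 0⟩ 0 0)) (.pos 35 .mp ⟨33542640, 0, 0, 0, 0, 80184705, 0, 0, 0, ⟨0, 0⟩, 0⟩ 0 0))) (.cut .v 16908288 (.cut .l 750040 (.cut .l 483578 (.cut .d (-32768) (.cut .s 9404416 (.cut .s 9388032 (.pos 37 .mp ⟨30667043, 0, 0, 0, 0, 84983861, 0, 0, 0, ⟨0, 0⟩, 0⟩ 0 0) (.pos 37 .mp ⟨31038426, 0, 0, 0, 0, 85745581, 0, 0, 0, ⟨0, 0⟩, 0⟩ 0 0)) (.pos 37 .mp ⟨30448348,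 0, 0, 0, 0, 88787518, 0, 0, 0, ⟨0, 0⟩, 0⟩ 0 0)) (.cut .d (-16384) (.cut .s 9404416 (.cut .s 9388032 (.pos 37 .mp ⟨31463948, 0, 0, 0, 0, 81577047, 0, 0, 0, ⟨0, 0⟩, 0⟩ 0 0) (.pos 37 .mp ⟨31759320, 0, 0, 0, 0, 82394033, 0, 0, 0, ⟨0, 0⟩, 0⟩ 0 0)) (.pos 37 .mp ⟨32354088, 0, 0, 0, 0, 83242422, 0, 0, 0, ⟨0, 0⟩, 0⟩ 0 0)) (.pos 37 .mp ⟨30350796, 0, 0, 0, 0, 0, 0, 0, 0, ⟨0, 0⟩, 0⟩ 0 0))) (.pos 37 .mp ⟨32833235, 0, 0, 0, 0, 80082234, 0, 0, 0, ⟨0, 0⟩, 0⟩ 0 0)) (.pos 37 .mp ⟨0, 0, 0, 0, 0, 0, 0, 0, 0, ⟨0, 0⟩, 0⟩ 0 0)) (.pos 38 .mp ⟨96402193, 0, 0, 0, 0, 0, 0, 0, 0, ⟨0, 0⟩, 0⟩ 0 0)))) (.cut .s 9502720 (.cut .d (-65536) (.cut .l 750040 (.cut .s 9469952 (.pos 35 .mp ⟨31413015,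 0, 0, 0, 0, 92597620, 0, 0, 0, ⟨0, 0⟩, 0⟩ 0 0) (.pos 35 .mp ⟨32020983, 0, 0, 0, 0, 94632741, 0, 0, 0, ⟨0, 0⟩, 0⟩ 0 0)) (.cut .v 16908288 (.pos 37 .mp ⟨22166902, 0, 0, 0, 0, 101956955, 0, 0, 0, ⟨0, 0⟩, 0⟩ 0 0) (.pos 38 .mp ⟨37408055, 0, 0, 0, 0, 83327064, 0, 0, 0, ⟨0, 0⟩, 0⟩ 0 0))) (.cut .v 16908288 (.cut .l 750040 (.cut .l 483578 (.cut .d (-32768) (.cut .s 9469952 (.pos 37 .mp ⟨31233942, 0, 0, 0, 0, 90322315, 0, 0, 0, ⟨0, 0⟩, 0⟩ 0 0) (.pos 37 .mp ⟨32066894, 0, 0, 0, 0, 91833840, 0, 0, 0, ⟨0, 0⟩, 0⟩ 0 0)) (.cut .s 9469952 (.pos 37 .mp ⟨32954280, 0, 0, 0, 0, 84383218, 0, 0, 0, ⟨0, 0⟩, 0⟩ 0 0) (.pos 37 .mp ⟨33559969, 0, 0, 0, 0, 86065498, 0, 0, 0, ⟨0, 0⟩, 0⟩ 0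 0))) (.pos 37 .mp ⟨34093996, 0, 0, 0, 0, 83291700, 0, 0, 0, ⟨0, 0⟩, 0⟩ 0 0)) (.pos 37 .mp ⟨0, 0, 0, 0, 0, 0, 0, 0, 0, ⟨0, 0⟩, 0⟩ 0 0)) (.pos 38 .mp ⟨100124042, 0, 0, 0, 0, 0, 0, 0, 0, ⟨0, 0⟩, 0⟩ 0 0))) (.cut .d (-65536) (.cut .l 750040 (.pos 35 .mp ⟨32634357, 0, 0, 0, 0, 98703365, 0, 0, 0, ⟨0, 0⟩, 0⟩ 0 0) (.cut .s 9535488 (.pos 35 .mp ⟨37884836, 0, 0, 0, 0, 85905315, 0, 0, 0, ⟨0, 0⟩, 0⟩ 0 0) (.pos 35 .mp ⟨38635702, 0, 0, 0, 0, 87651799, 0, 0, 0, ⟨0, 0⟩, 0⟩ 0 0))) (.cut .d (-32768) (.cut .s 9535488 (.pos 35 .mp ⟨36727426, 0, 0, 0, 0, 87304786, 0, 0, 0, ⟨0, 0⟩, 0⟩ 0 0) (.pos 35 .mp ⟨37419698, 0, 0, 0, 0, 89212475, 0, 0, 0, ⟨0, 0⟩, 0⟩ 0 0)) (.pos 35 .mp ⟨35046046,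 0, 0, 0, 0, 87152733, 0, 0, 0, ⟨0, 0⟩, 0⟩ 0 0))))) (.pos 36 .mp ⟨104371519, 0, 0, 0, 0, 0, 0, 0, 0, ⟨0, 0⟩, 0⟩ 0 0)))) (.pos 34 .mp ⟨108378269, 0, 0, 0, 0, 0, 0, 0, 0, ⟨0, 0⟩, 0⟩ 0 0)) (.pos 32 .mp ⟨116037654, 0, 0, 0, 0, 0, 0, 0, 0, ⟨0, 0⟩, 0⟩ 0 0)) (.void 30 ⟨100000, 0, 0, 0, 0, 0, 0, 0, 0, ⟨0, 0⟩, 0⟩ 0 0))))))) (.void 28 ⟨100000, 0, 0, 0, 0, 0, 0, 0, 0, ⟨0, 0⟩, 0⟩ 0 0))) (.void 26 ⟨100000, 0, 0, 0, 0, 0, 0, 0, 0, ⟨0, 0⟩, 0⟩ 0 0)) (.void 73 ⟨100000, 0, 0, 0, 0, 0, 0, 0, 0, ⟨0, 0⟩, 0⟩ 0 0)) (.void 84 ⟨100000, 0, 0, 0, 0, 0, 0, 0, 0, ⟨0, 0⟩, 0⟩ 0 0))) (.cut .v 16777216 (.cut .v 8388608 (.cut .v 4194304 (.cut .v 2097152 (.void 6 ⟨0, 0, 25058, 0, 0, 0, 0, 0,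 74942, ⟨0, 0⟩, 2804900⟩ 0 0) (.pos 7 .pm ⟨0, 0, 11433009, 0, 0, 0, 0, 0, 7181356, ⟨0, 0⟩, 7053950⟩ 0 0)) (.cut .d 7172869 (.pos 5 .pm ⟨0, 0, 0, 0, 0, 0, 0, 0, 0, ⟨0, 0⟩, 0⟩ 0 0) (.pos 5 .pm ⟨0, 31273963, 0, 0, 0, 0, 0, 0, 1764612, ⟨0, 0⟩, 9975792⟩ 0 0))) (.cut .d 7172869 (.pos 3 .pm ⟨0, 0, 0, 0, 0, 0, 0, 0, 0, ⟨0, 0⟩, 0⟩ 0 0) (.cut .d 10759303 (.pos 3 .pm ⟨0, 0, 0, 0, 0, 0, 0, 0, 0, ⟨0, 0⟩, 0⟩ 0 0) (.cut .d 12552520 (.pos 3 .pm ⟨0, 53786021, 0, 0, 0, 0, 0, 0, 0, ⟨0, 0⟩, 0⟩ 0 0) (.pos 3 .pm ⟨0, 86534597, 0, 0, 0, 0, 0, 0, 0, ⟨0, 0⟩, 0⟩ 0 0))))) (.cut .v 67108864 (.cut .d 7172869 (.cut .d 3586434 (.cut .d 1793217 (.cut .v 33554432 (.cut .v 25165824 (.pos 25 .pp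 ⟨58978727, 0, 0, 0, 0, 0, 0, 0, 0, ⟨0, 0⟩, 0⟩ 0 0) (.pos 26 .pp ⟨154685947, 0, 0, 0, 0, 0, 0, 0, 0, ⟨0, 0⟩, 0⟩ 0 0)) (.pos 73 .pp ⟨602289762, 0, 0, 0, 0, 0, 0, 0, 0, ⟨0, 0⟩, 0⟩ 0 0)) (.pos 72 .pp ⟨47109918, 0, 0, 0, 0, 0, 2059419, 0, 0, ⟨0, 0⟩, 0⟩ 0 0)) (.pos 72 .pp ⟨0, 0, 0, 0, 0, 0, 0, 0, 0, ⟨0, 0⟩, 0⟩ 0 0)) (.pos 72 .pp ⟨0, 64734717, 0, 0, 0, 0, 0, 0, 0, ⟨0, 0⟩, 0⟩ 0 0)) (.cut .v 134217728 (.cut .v 100663296 (.cut .d 7172869 (.cut .d 3586434 (.cut .v 83886080 (.pos 95 .pp ⟨1039650618, 0, 0, 0, 0, 0, 0, 0, 0, ⟨0, 0⟩, 0⟩ 0 0) (.pos 96 .pp ⟨1572244553, 0, 0, 0, 0, 0, 0, 0, 0, ⟨0, 0⟩, 0⟩ 0 0)) (.pos 91 .pp ⟨0, 62638567, 0, 0, 0, 0, 8612407, 0, 0, ⟨0, 0⟩, 0⟩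 0 0)) (.void 91 ⟨0, 100000, 0, 0, 0, 0, 0, 0, 0, ⟨0, 0⟩, 0⟩ 0 0)) (.void 92 ⟨38048, 61952, 0, 0, 0, 0, 0, 0, 0, ⟨0, 0⟩, 0⟩ 0 0)) (.void 90 ⟨38048, 61952, 0, 0, 0, 0, 0, 0, 0, ⟨0, 0⟩, 0⟩ 0 0))))),
    by decide +kernel⟩

def covers12 : cell.Covers table row12.1 :=
  ⟨(.cut .d 0 (.cut .v 16777216 (.cut .d (-8388608) (.void 1 ⟨0, 0, 0, 0, 0, 100000, 0, 0, 0, ⟨0, 0⟩, 0⟩ 0 0) (.cut .d (-4194304) (.void 1 ⟨0, 0, 0, 0, 0, 100000, 0, 0, 0, ⟨0, 0⟩, 0⟩ 0 0) (.cut .d (-2097152) (.void 1 ⟨0, 0, 0, 0, 0, 100000, 0, 0, 0, ⟨0, 0⟩, 0⟩ 0 0) (.cut .d (-1048576) (.void 1 ⟨0, 0, 0, 0, 0, 100000, 0, 0, 0, ⟨0, 0⟩, 0⟩ 0 0) (.cut .d (-524288) (.void 1 ⟨0, 0, 0, 0, 0, 100000, 0, 0,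 0, ⟨0, 0⟩, 0⟩ 0 0) (.cut .d (-262144) (.void 1 ⟨0, 0, 0, 0, 0, 100000, 0, 0, 0, ⟨0, 0⟩, 0⟩ 0 0) (.cut .v 8388608 (.cut .v 4194304 (.void 4 ⟨0, 0, 100000, 0, 0, 0, 0, 0, 0, ⟨0, 0⟩, 0⟩ 0 0) (.pos 5 .mm ⟨0, 0, 0, 0, 0, 78138440, 0, 0, 0, ⟨0, 0⟩, 0⟩ 0 0)) (.cut .d (-131072) (.pos 3 .mm ⟨0, 0, 0, 0, 0, 186216282, 0, 0, 0, ⟨0, 0⟩, 0⟩ 0 0) (.cut .v 12582912 (.pos 8 .mm ⟨0, 0, 0, 0, 0, 107104208, 0, 0, 0, ⟨0, 0⟩, 0⟩ 0 0) (.cut .v 14680064 (.pos 12 .mm ⟨0, 0, 0, 0, 0, 129603443, 0, 0, 0, ⟨0, 0⟩, 0⟩ 0 0) (.cut .v 15728640 (.pos 16 .mm ⟨0, 0, 0, 0, 0, 143368576, 0, 0, 0, ⟨0, 0⟩, 0⟩ 0 0) (.cut .v 16252928 (.pos 20 .mm ⟨0, 0, 0, 0, 0, 150890189, 0, 0, 0, ⟨0, 0⟩, 0⟩ 0 0)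 (.cut .s 9830400 (.cut .s 9699328 (.pos 21 .mm ⟨0, 0, 0, 0, 0, 141510578, 0, 0, 0, ⟨0, 0⟩, 0⟩ 0 0) (.cut .s 9764864 (.pos 21 .mm ⟨0, 0, 0, 0, 0, 148076106, 0, 0, 0, ⟨0, 0⟩, 0⟩ 0 0) (.pos 21 .mm ⟨0, 0, 0, 0, 0, 153997250, 0, 0, 0, ⟨0, 0⟩, 0⟩ 0 0))) (.cut .v 16515072 (.pos 22 .mm ⟨0, 0, 0, 0, 0, 167148130, 0, 0, 0, ⟨0, 0⟩, 0⟩ 0 0) (.cut .s 9961472 (.cut .s 9895936 (.pos 23 .mm ⟨0, 0, 0, 0, 0, 160105278, 0, 0, 0, ⟨0, 0⟩, 0⟩ 0 0) (.pos 23 .mm ⟨0, 0, 0, 0, 0, 166396516, 0, 0, 0, ⟨0, 0⟩, 0⟩ 0 0)) (.cut .s 10027008 (.pos 23 .mm ⟨0, 0, 0, 0, 0, 172867385, 0, 0, 0, ⟨0, 0⟩, 0⟩ 0 0) (.pos 23 .mm ⟨0, 0, 0, 0, 0, 179514400, 0, 0, 0, ⟨0, 0⟩, 0⟩ 0 0))))))))))))))))) (.cut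 .v 268435456 (.cut .v 67108864 (.cut .v 33554432 (.cut .v 25165824 (.cut .d (-8388608) (.void 25 ⟨0, 0, 0, 0, 0, 100000, 0, 0, 0, ⟨0, 0⟩, 0⟩ 0 0) (.cut .v 20971520 (.cut .d (-4194304) (.void 27 ⟨0, 0, 0, 0, 0, 100000, 0, 0, 0, ⟨0, 0⟩, 0⟩ 0 0) (.cut .d (-2097152) (.void 27 ⟨100000, 0, 0, 0, 0, 0, 0, 0, 0, ⟨0, 0⟩, 0⟩ 0 0) (.cut .d (-1048576) (.void 27 ⟨100000, 0, 0, 0, 0, 0, 0, 0, 0, ⟨0, 0⟩, 0⟩ 0 0) (.cut .d (-524288) (.void 27 ⟨100000, 0, 0, 0, 0, 0, 0, 0, 0, ⟨0, 0⟩, 0⟩ 0 0) (.cut .d (-262144) (.void 27 ⟨0, 0, 0, 0, 0, 100000, 0, 0, 0, ⟨0, 0⟩, 0⟩ 0 0) (.cut .v 18874368 (.cut .v 17825792 (.cut .v 17301504 (.cut .d (-131072) (.cut .s 9830400 (.cut .v 17039360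 (.cut .s 9699328 (.pos 35 .mp ⟨37433147, 0, 0, 0, 0, 106496165, 0, 0, 0, ⟨0, 0⟩, 0⟩ 0 0) (.pos 35 .mp ⟨39371198, 0, 0, 0, 0, 115994997, 0, 0, 0, ⟨0, 0⟩, 0⟩ 0 0)) (.pos 36 .mp ⟨142157331, 0, 0, 0, 0, 0, 0, 0, 0, ⟨0, 0⟩, 0⟩ 0 0)) (.void 33 ⟨0, 0, 0, 0, 0, 100000, 0, 0, 0, ⟨0, 0⟩, 0⟩ 0 0)) (.cut .s 9830400 (.cut .v 17039360 (.cut .s 9699328 (.cut .d (-65536) (.cut .l 750040 (.pos 35 .mp ⟨33879847, 0, 0, 0, 0, 108562612, 0, 0, 0, ⟨0, 0⟩, 0⟩ 0 0) (.cut .d (-98304) (.cut .s 9633792 (.pos 35 .mp ⟨32730820, 0, 0, 0, 0, 103805464, 0, 0, 0, ⟨0, 0⟩, 0⟩ 0 0) (.pos 35 .mp ⟨34072503, 0, 0, 0, 0, 107153257, 0, 0, 0, ⟨0, 0⟩, 0⟩ 0 0)) (.cut .s 9633792 (.pos 35 .mp ⟨37699613,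 0, 0, 0, 0, 92339080, 0, 0, 0, ⟨0, 0⟩, 0⟩ 0 0) (.pos 35 .mp ⟨39167553, 0, 0, 0, 0, 95280669, 0, 0, 0, ⟨0, 0⟩, 0⟩ 0 0)))) (.cut .l 750040 (.cut .v 16908288 (.cut .s 9633792 (.cut .l 483578 (.cut .d (-32768) (.pos 37 .mp ⟨34178250, 0, 0, 0, 0, 99601219, 0, 0, 0, ⟨0, 0⟩, 0⟩ 0 0) (.cut .s 9601024 (.pos 37 .mp ⟨35419844, 0, 0, 0, 0, 91819915, 0, 0, 0, ⟨0, 0⟩, 0⟩ 0 0) (.pos 37 .mp ⟨36053612, 0, 0, 0, 0, 93599425, 0, 0, 0, ⟨0, 0⟩, 0⟩ 0 0))) (.pos 37 .mp ⟨36722581, 0, 0, 0, 0, 91208233, 0, 0, 0, ⟨0, 0⟩, 0⟩ 0 0)) (.cut .l 483578 (.cut .d (-32768) (.cut .s 9666560 (.pos 37 .mp ⟨35910478, 0, 0, 0, 0, 100262925, 0, 0, 0, ⟨0, 0⟩, 0⟩ 0 0) (.pos 37 .mp ⟨36138978, 0, 0, 0,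 0, 102693962, 0, 0, 0, ⟨0, 0⟩, 0⟩ 0 0)) (.cut .d (-16384) (.cut .s 9666560 (.pos 37 .mp ⟨36691385, 0, 0, 0, 0, 96527549, 0, 0, 0, ⟨0, 0⟩, 0⟩ 0 0) (.pos 37 .mp ⟨37333224, 0, 0, 0, 0, 98392771, 0, 0, 0, ⟨0, 0⟩, 0⟩ 0 0)) (.pos 37 .mp ⟨36025702, 0, 0, 0, 0, 0, 0, 0, 0, ⟨0, 0⟩, 0⟩ 0 0))) (.pos 37 .mp ⟨38082825, 0, 0, 0, 0, 94701468, 0, 0, 0, ⟨0, 0⟩, 0⟩ 0 0))) (.pos 38 .mp ⟨112941090, 0, 0, 0, 0, 0, 0, 0, 0, ⟨0, 0⟩, 0⟩ 0 0)) (.pos 35 .mp ⟨36525746, 0, 0, 0, 0, 0, 0, 0, 0, ⟨0, 0⟩, 0⟩ 0 0))) (.cut .d (-65536) (.cut .l 750040 (.cut .s 9764864 (.pos 35 .mp ⟨36525746, 0, 0, 0, 0, 110574336, 0, 0, 0, ⟨0, 0⟩, 0⟩ 0 0) (.cut .s 9797632 (.pos 35 .mp ⟨37873142, 0, 0, 0, 0,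 111838093, 0, 0, 0, ⟨0, 0⟩, 0⟩ 0 0) (.pos 35 .mp ⟨38553179, 0, 0, 0, 0, 113958605, 0, 0, 0, ⟨0, 0⟩, 0⟩ 0 0))) (.cut .d (-98304) (.cut .v 16908288 (.pos 37 .mp ⟨0, 0, 0, 0, 0, 158750836, 0, 0, 0, ⟨0, 0⟩, 0⟩ 0 0) (.cut .l 1016502 (.pos 38 .mp ⟨39887563, 0, 0, 0, 0, 111965070, 0, 0, 0, ⟨0, 0⟩, 0⟩ 0 0) (.cut .v 16973824 (.cut .s 9764864 (.pos 78 .mp ⟨35584307, 0, 0, 0, 0, 108979942, 0, 0, 0, ⟨0, 0⟩, 0⟩ 0 0) (.cut .s 9797632 (.pos 78 .mp ⟨36970929, 0, 0, 0, 0, 111231002, 0, 0, 0, ⟨0, 0⟩, 0⟩ 0 0) (.pos 78 .mp ⟨37670500, 0, 0, 0, 0, 113215659, 0, 0, 0, ⟨0, 0⟩, 0⟩ 0 0))) (.pos 79 .mp ⟨78069668, 0, 0, 0, 0, 58952004, 0, 0, 0, ⟨0, 0⟩, 0⟩ 0 0)))) (.cut .d (-81920) (.cut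 .l 1016502 (.cut .s 9764864 (.pos 35 .mp ⟨40658563, 0, 0, 0, 0, 99838350, 0, 0, 0, ⟨0, 0⟩, 0⟩ 0 0) (.cut .s 9797632 (.pos 35 .mp ⟨37335495, 0, 0, 0, 0, 111522345, 0, 0, 0, ⟨0, 0⟩, 0⟩ 0 0) (.pos 35 .mp ⟨38021873, 0, 0, 0, 0, 113499549, 0, 0, 0, ⟨0, 0⟩, 0⟩ 0 0))) (.pos 35 .mp ⟨40179079, 0, 0, 0, 0, 0, 0, 0, 0, ⟨0, 0⟩, 0⟩ 0 0)) (.pos 35 .mp ⟨40703849, 0, 0, 0, 0, 97978961, 0, 0, 0, ⟨0, 0⟩, 0⟩ 0 0)))) (.cut .l 750040 (.cut .v 16908288 (.cut .s 9764864 (.cut .d (-32768) (.cut .l 483578 (.cut .s 9732096 (.pos 37 .mp ⟨36414103, 0, 0, 0, 0, 105118021, 0, 0, 0, ⟨0, 0⟩, 0⟩ 0 0) (.pos 37 .mp ⟨36737876, 0, 0, 0, 0, 107531716, 0, 0, 0, ⟨0, 0⟩, 0⟩ 0 0)) (.cut .s 9732096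 (.pos 37 .mp ⟨37931728, 0, 0, 0, 0, 100976033, 0, 0, 0, ⟨0, 0⟩, 0⟩ 0 0) (.pos 37 .mp ⟨39237463, 0, 0, 0, 0, 101815490, 0, 0, 0, ⟨0, 0⟩, 0⟩ 0 0))) (.cut .d (-16384) (.cut .v 16842752 (.cut .s 9732096 (.pos 80 .mp ⟨36052308, 0, 0, 0, 0, 103529250, 0, 0, 0, ⟨0, 0⟩, 0⟩ 0 0) (.cut .s 9748480 (.pos 80 .mp ⟨36482877, 0, 0, 0, 0, 104740822, 0, 0, 0, ⟨0, 0⟩, 0⟩ 0 0) (.pos 80 .mp ⟨36786407, 0, 0, 0, 0, 105762646, 0, 0, 0, ⟨0, 0⟩, 0⟩ 0 0))) (.pos 81 .mp ⟨113694537, 0, 0, 0, 0, 0, 0, 0, 0, ⟨0, 0⟩, 0⟩ 0 0)) (.pos 37 .mp ⟨37250834, 0, 0, 0, 0, 0, 0, 0, 0, ⟨0, 0⟩, 0⟩ 0 0))) (.cut .d (-32768) (.cut .l 483578 (.cut .d (-49152) (.pos 37 .mp ⟨38080892, 0, 0, 0, 0, 130330189,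 0, 0, 0, ⟨0, 0⟩, 0⟩ 0 0) (.cut .l 350347 (.pos 37 .mp ⟨37805895, 0, 0, 0, 0, 113485823, 0, 0, 0, ⟨0, 0⟩, 0⟩ 0 0) (.cut .s 9797632 (.pos 37 .mp ⟨39720800, 0, 0, 0, 0, 104239102, 0, 0, 0, ⟨0, 0⟩, 0⟩ 0 0) (.pos 37 .mp ⟨40401407, 0, 0, 0, 0, 106170119, 0, 0, 0, ⟨0, 0⟩, 0⟩ 0 0)))) (.cut .s 9797632 (.pos 37 .mp ⟨40160009, 0, 0, 0, 0, 103312432, 0, 0, 0, ⟨0, 0⟩, 0⟩ 0 0) (.pos 37 .mp ⟨40862522, 0, 0, 0, 0, 105215083, 0, 0, 0, ⟨0, 0⟩, 0⟩ 0 0))) (.cut .d (-16384) (.cut .v 16842752 (.cut .v 16809984 (.pos 85 .mp ⟨0, 0, 0, 0, 0, 152771431, 0, 0, 0, ⟨0, 0⟩, 0⟩ 0 0) (.cut .l 483578 (.cut .l 350347 (.cut .s 9797632 (.cut .d (-24576) (.pos 86 .mp ⟨39197744, 0, 0, 0, 0, 105672202,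 0, 0, 0, ⟨0, 0⟩, 0⟩ 0 0) (.pos 86 .mp ⟨38490915, 0, 0, 0, 0, 104856756, 0, 0, 0, ⟨0, 0⟩, 0⟩ 0 0)) (.cut .d (-24576) (.pos 86 .mp ⟨39853203, 0, 0, 0, 0, 107625533, 0, 0, 0, ⟨0, 0⟩, 0⟩ 0 0) (.cut .d (-20480) (.pos 86 .mp ⟨39127597, 0, 0, 0, 0, 107863273, 0, 0, 0, ⟨0, 0⟩, 0⟩ 0 0) (.pos 86 .mp ⟨38765091, 0, 0, 0, 0, 0, 0, 0, 0, ⟨0, 0⟩, 0⟩ 0 0)))) (.pos 86 .mp ⟨0, 0, 0, 0, 0, 0, 0, 0, 0, ⟨0, 0⟩, 0⟩ 0 0)) (.pos 86 .mp ⟨0, 0, 0, 0, 0, 0, 0, 0, 0, ⟨0, 0⟩, 0⟩ 0 0))) (.pos 81 .mp ⟨117230016, 0, 0, 0, 0, 0, 0, 0, 0, ⟨0, 0⟩, 0⟩ 0 0)) (.pos 37 .mp ⟨38489679, 0, 0, 0, 0, 0, 0, 0, 0, ⟨0, 0⟩, 0⟩ 0 0)))) (.pos 38 .mp ⟨119840869, 0, 0, 0, 0, 0, 0, 0, 0, ⟨0, 0⟩, 0⟩ 0 0)) (.pos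 35 .mp ⟨39237533, 0, 0, 0, 0, 0, 0, 0, 0, ⟨0, 0⟩, 0⟩ 0 0)))) (.pos 36 .mp ⟨121112657, 0, 0, 0, 0, 0, 0, 0, 0, ⟨0, 0⟩, 0⟩ 0 0)) (.cut .v 17039360 (.cut .s 9961472 (.cut .d (-65536) (.cut .l 750040 (.cut .d (-98304) (.void 35 ⟨0, 0, 0, 0, 0, 100000, 0, 0, 0, ⟨0, 0⟩, 0⟩ 0 0) (.cut .d (-81920) (.void 35 ⟨0, 0, 0, 0, 0, 100000, 0, 0, 0, ⟨0, 0⟩, 0⟩ 0 0) (.cut .d (-73728) (.pos 35 .mp ⟨40333359, 0, 0, 0, 0, 124005760, 0, 0, 0, ⟨0, 0⟩, 0⟩ 0 0) (.cut .v 16908288 (.cut .s 9895936 (.pos 37 .mp ⟨38875228, 0, 0, 0, 0, 117088082, 0, 0, 0, ⟨0, 0⟩, 0⟩ 0 0) (.pos 37 .mp ⟨40229965, 0, 0, 0, 0, 121524845, 0, 0, 0, ⟨0, 0⟩, 0⟩ 0 0)) (.pos 38 .mp ⟨128754157, 0, 0, 0, 0, 0, 0, 0,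 0, ⟨0, 0⟩, 0⟩ 0 0))))) (.cut .d (-98304) (.cut .v 16908288 (.pos 37 .mp ⟨0, 0, 0, 0, 0, 170544357, 0, 0, 0, ⟨0, 0⟩, 0⟩ 0 0) (.cut .l 1016502 (.cut .s 9895936 (.pos 38 .mp ⟨40555104, 0, 0, 0, 0, 118110907, 0, 0, 0, ⟨0, 0⟩, 0⟩ 0 0) (.pos 38 .mp ⟨42056145, 0, 0, 0, 0, 122287494, 0, 0, 0, ⟨0, 0⟩, 0⟩ 0 0)) (.cut .s 9895936 (.cut .v 16973824 (.cut .v 16941056 (.pos 104 .mp ⟨8609800, 0, 0, 0, 0, 153854943, 0, 0, 0, ⟨0, 0⟩, 0⟩ 0 0) (.cut .s 9863168 (.cut .s 9846784 (.pos 105 .mp ⟨42973470, 0, 0, 0, 0, 108359079, 0, 0, 0, ⟨0, 0⟩, 0⟩ 0 0) (.pos 105 .mp ⟨43297551, 0, 0, 0, 0, 109435467, 0, 0, 0, ⟨0, 0⟩, 0⟩ 0 0)) (.cut .s 9879552 (.pos 105 .mp ⟨43654441, 0, 0, 0, 0, 110484025,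 0, 0, 0, ⟨0, 0⟩, 0⟩ 0 0) (.pos 105 .mp ⟨44044810, 0, 0, 0, 0, 111503718, 0, 0, 0, ⟨0, 0⟩, 0⟩ 0 0)))) (.pos 79 .mp ⟨61400381, 0, 0, 0, 0, 87760001, 0, 0, 0, ⟨0, 0⟩, 0⟩ 0 0)) (.cut .v 16973824 (.cut .v 16941056 (.pos 104 .mp ⟨9445422, 0, 0, 0, 0, 159026856, 0, 0, 0, ⟨0, 0⟩, 0⟩ 0 0) (.cut .s 9928704 (.cut .s 9912320 (.pos 105 .mp ⟨44469327, 0, 0, 0, 0, 112493507, 0, 0, 0, ⟨0, 0⟩, 0⟩ 0 0) (.pos 105 .mp ⟨44928667, 0, 0, 0, 0, 113452341, 0, 0, 0, ⟨0, 0⟩, 0⟩ 0 0)) (.cut .s 9945088 (.pos 105 .mp ⟨45423508, 0, 0, 0, 0, 114379161, 0, 0, 0, ⟨0, 0⟩, 0⟩ 0 0) (.pos 105 .mp ⟨45844627, 0, 0, 0, 0, 115420732, 0, 0, 0, ⟨0, 0⟩, 0⟩ 0 0)))) (.pos 79 .mp ⟨97680118, 0, 0, 0, 0, 50537154,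 0, 0, 0, ⟨0, 0⟩, 0⟩ 0 0))))) (.cut .l 1016502 (.cut .s 9895936 (.cut .d (-81920) (.cut .v 16908288 (.pos 37 .mp ⟨17350678, 0, 0, 0, 0, 143108046, 0, 0, 0, ⟨0, 0⟩, 0⟩ 0 0) (.cut .s 9863168 (.pos 38 .mp ⟨43339158, 0, 0, 0, 0, 107810703, 0, 0, 0, ⟨0, 0⟩, 0⟩ 0 0) (.pos 38 .mp ⟨44126171, 0, 0, 0, 0, 109752573, 0, 0, 0, ⟨0, 0⟩, 0⟩ 0 0))) (.pos 35 .mp ⟨42164333, 0, 0, 0, 0, 106628190, 0, 0, 0, ⟨0, 0⟩, 0⟩ 0 0)) (.cut .d (-81920) (.cut .v 16908288 (.pos 37 .mp ⟨16330653, 0, 0, 0, 0, 150612695, 0, 0, 0, ⟨0, 0⟩, 0⟩ 0 0) (.pos 38 .mp ⟨45719593, 0, 0, 0, 0, 112309096, 0, 0, 0, ⟨0, 0⟩, 0⟩ 0 0)) (.pos 35 .mp ⟨43646469, 0, 0, 0, 0, 110538919, 0, 0, 0, ⟨0, 0⟩, 0⟩ 0 0))) (.pos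 35 .mp ⟨43146345, 0, 0, 0, 0, 0, 0, 0, 0, ⟨0, 0⟩, 0⟩ 0 0)))) (.cut .l 750040 (.cut .v 16908288 (.cut .s 9895936 (.cut .d (-32768) (.cut .l 483578 (.cut .d (-49152) (.void 37 ⟨0, 0, 0, 0, 0, 100000, 0, 0, 0, ⟨0, 0⟩, 0⟩ 0 0) (.cut .l 350347 (.pos 37 .mp ⟨38946836, 0, 0, 0, 0, 117956241, 0, 0, 0, ⟨0, 0⟩, 0⟩ 0 0) (.cut .s 9863168 (.pos 37 .mp ⟨41086805, 0, 0, 0, 0, 108156572, 0, 0, 0, ⟨0, 0⟩, 0⟩ 0 0) (.cut .s 9879552 (.pos 37 .mp ⟨38703847, 0, 0, 0, 0, 115116113, 0, 0, 0, ⟨0, 0⟩, 0⟩ 0 0) (.pos 37 .mp ⟨39000147, 0, 0, 0, 0, 116254689, 0, 0, 0, ⟨0, 0⟩, 0⟩ 0 0))))) (.cut .d (-49152) (.cut .s 9863168 (.pos 37 .mp ⟨37421838, 0, 0, 0, 0, 114800185, 0, 0, 0, ⟨0, 0⟩, 0⟩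 0 0) (.pos 37 .mp ⟨38058550, 0, 0, 0, 0, 116949777, 0, 0, 0, ⟨0, 0⟩, 0⟩ 0 0)) (.pos 37 .mp ⟨40520911, 0, 0, 0, 0, 106972056, 0, 0, 0, ⟨0, 0⟩, 0⟩ 0 0))) (.cut .d (-16384) (.cut .v 16842752 (.cut .v 16809984 (.pos 85 .mp ⟨0, 0, 0, 0, 0, 158721262, 0, 0, 0, ⟨0, 0⟩, 0⟩ 0 0) (.cut .l 483578 (.cut .l 350347 (.cut .s 9863168 (.cut .v 16826368 (.cut .d (-24576) (.pos 93 .mp ⟨38366420, 0, 0, 0, 0, 112646435, 0, 0, 0, ⟨0, 0⟩, 0⟩ 0 0) (.cut .d (-20480) (.cut .s 9846784 (.pos 93 .mp ⟨38721639, 0, 0, 0, 0, 110551213, 0, 0, 0, ⟨0, 0⟩, 0⟩ 0 0) (.pos 93 .mp ⟨39035869, 0, 0, 0, 0, 111599336, 0, 0, 0, ⟨0, 0⟩, 0⟩ 0 0)) (.pos 93 .mp ⟨39351035, 0, 0, 0, 0, 0, 0, 0, 0, ⟨0, 0⟩, 0⟩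 0 0))) (.pos 94 .mp ⟨61780476, 0, 0, 0, 0, 82243861, 0, 0, 0, ⟨0, 0⟩, 0⟩ 0 0)) (.cut .v 16826368 (.cut .d (-24576) (.pos 93 .mp ⟨38741181, 0, 0, 0, 0, 115140772, 0, 0, 0, ⟨0, 0⟩, 0⟩ 0 0) (.cut .d (-20480) (.cut .s 9879552 (.pos 93 .mp ⟨39351035, 0, 0, 0, 0, 112656431, 0, 0, 0, ⟨0, 0⟩, 0⟩ 0 0) (.pos 93 .mp ⟨39667145, 0, 0, 0, 0, 113722429, 0, 0, 0, ⟨0, 0⟩, 0⟩ 0 0)) (.pos 93 .mp ⟨39984207, 0, 0, 0, 0, 0, 0, 0, 0, ⟨0, 0⟩, 0⟩ 0 0))) (.pos 94 .mp ⟨62421204, 0, 0, 0, 0, 84287407, 0, 0, 0, ⟨0, 0⟩, 0⟩ 0 0))) (.pos 86 .mp ⟨0, 0, 0, 0, 0, 0, 0, 0, 0, ⟨0, 0⟩, 0⟩ 0 0)) (.pos 86 .mp ⟨0, 0, 0, 0, 0, 0, 0, 0, 0, ⟨0, 0⟩, 0⟩ 0 0))) (.pos 81 .mp ⟨120987192, 0, 0, 0, 0, 0, 0,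 0, 0, ⟨0, 0⟩, 0⟩ 0 0)) (.pos 37 .mp ⟨39742698, 0, 0, 0, 0, 0, 0, 0, 0, ⟨0, 0⟩, 0⟩ 0 0))) (.cut .d (-32768) (.cut .l 483578 (.cut .d (-49152) (.void 37 ⟨0, 0, 0, 0, 0, 100000, 0, 0, 0, ⟨0, 0⟩, 0⟩ 0 0) (.cut .l 350347 (.pos 37 .mp ⟨40244626, 0, 0, 0, 0, 122375390, 0, 0, 0, ⟨0, 0⟩, 0⟩ 0 0) (.cut .s 9928704 (.pos 37 .mp ⟨39217998, 0, 0, 0, 0, 118375233, 0, 0, 0, ⟨0, 0⟩, 0⟩ 0 0) (.pos 37 .mp ⟨39855801, 0, 0, 0, 0, 120650346, 0, 0, 0, ⟨0, 0⟩, 0⟩ 0 0)))) (.cut .d (-49152) (.cut .s 9928704 (.pos 37 .mp ⟨38698734, 0, 0, 0, 0, 119165854, 0, 0, 0, ⟨0, 0⟩, 0⟩ 0 0) (.pos 37 .mp ⟨39342448, 0, 0, 0, 0, 121448771, 0, 0, 0, ⟨0, 0⟩, 0⟩ 0 0)) (.pos 37 .mp ⟨41659699, 0, 0, 0,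 0, 111433748, 0, 0, 0, ⟨0, 0⟩, 0⟩ 0 0))) (.cut .d (-16384) (.cut .v 16842752 (.cut .v 16809984 (.pos 85 .mp ⟨0, 0, 0, 0, 0, 164851218, 0, 0, 0, ⟨0, 0⟩, 0⟩ 0 0) (.cut .l 483578 (.cut .l 350347 (.cut .s 9928704 (.cut .v 16826368 (.cut .d (-24576) (.pos 93 .mp ⟨39339636, 0, 0, 0, 0, 117392617, 0, 0, 0, ⟨0, 0⟩, 0⟩ 0 0) (.cut .d (-20480) (.cut .s 9912320 (.pos 93 .mp ⟨39984207, 0, 0, 0, 0, 114797260, 0, 0, 0, ⟨0, 0⟩, 0⟩ 0 0) (.pos 93 .mp ⟨40302229, 0, 0, 0, 0, 115880858, 0, 0, 0, ⟨0, 0⟩, 0⟩ 0 0)) (.pos 93 .mp ⟨40621218, 0, 0, 0, 0, 0, 0, 0, 0, ⟨0, 0⟩, 0⟩ 0 0))) (.pos 94 .mp ⟨63296066, 0, 0, 0, 0, 86095857, 0, 0, 0, ⟨0, 0⟩, 0⟩ 0 0)) (.cut .d (-24576) (.pos 86 .mp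 ⟨40065878, 0, 0, 0, 0, 119793477, 0, 0, 0, ⟨0, 0⟩, 0⟩ 0 0) (.cut .d (-20480) (.pos 86 .mp ⟨41714389, 0, 0, 0, 0, 116324550, 0, 0, 0, ⟨0, 0⟩, 0⟩ 0 0) (.pos 86 .mp ⟨41312213, 0, 0, 0, 0, 0, 0, 0, 0, ⟨0, 0⟩, 0⟩ 0 0)))) (.pos 86 .mp ⟨0, 0, 0, 0, 0, 0, 0, 0, 0, ⟨0, 0⟩, 0⟩ 0 0)) (.pos 86 .mp ⟨0, 0, 0, 0, 0, 0, 0, 0, 0, ⟨0, 0⟩, 0⟩ 0 0))) (.pos 81 .mp ⟨124971162, 0, 0, 0, 0, 0, 0, 0, 0, ⟨0, 0⟩, 0⟩ 0 0)) (.pos 37 .mp ⟨41010371, 0, 0, 0, 0, 0, 0, 0, 0, ⟨0, 0⟩, 0⟩ 0 0)))) (.pos 38 .mp ⟨127603289, 0, 0, 0, 0, 0, 0, 0, 0, ⟨0, 0⟩, 0⟩ 0 0)) (.pos 35 .mp ⟨42019519, 0, 0, 0, 0, 0, 0, 0, 0, ⟨0, 0⟩, 0⟩ 0 0))) (.cut .d (-65536) (.cut .l 750040 (.cut .s 10027008 (.pos 35 .mp ⟨42019519,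 0, 0, 0, 0, 128200654, 0, 0, 0, ⟨0, 0⟩, 0⟩ 0 0) (.pos 35 .mp ⟨43438271, 0, 0, 0, 0, 133188436, 0, 0, 0, ⟨0, 0⟩, 0⟩ 0 0)) (.cut .s 10027008 (.cut .v 16908288 (.cut .s 9994240 (.pos 37 .mp ⟨27636136, 0, 0, 0, 0, 140167447, 0, 0, 0, ⟨0, 0⟩, 0⟩ 0 0) (.pos 37 .mp ⟨28771966, 0, 0, 0, 0, 142016483, 0, 0, 0, ⟨0, 0⟩, 0⟩ 0 0)) (.cut .v 16973824 (.cut .s 9994240 (.cut .s 9977856 (.cut .s 9969664 (.pos 78 .mp ⟨46531215, 0, 0, 0, 0, 115200183, 0, 0, 0, ⟨0, 0⟩, 0⟩ 0 0) (.pos 78 .mp ⟨46790712, 0, 0, 0, 0, 115667142, 0, 0, 0, ⟨0, 0⟩, 0⟩ 0 0)) (.pos 78 .mp ⟨49325600, 0, 0, 0, 0, 113445834, 0, 0, 0, ⟨0, 0⟩, 0⟩ 0 0)) (.cut .s 10010624 (.pos 78 .mp ⟨49905550, 0, 0, 0, 0, 114314841,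 0, 0, 0, ⟨0, 0⟩, 0⟩ 0 0) (.pos 78 .mp ⟨50523586, 0, 0, 0, 0, 115147729, 0, 0, 0, ⟨0, 0⟩, 0⟩ 0 0))) (.pos 79 .mp ⟨144866059, 0, 0, 0, 0, 0, 0, 0, 0, ⟨0, 0⟩, 0⟩ 0 0))) (.cut .v 16908288 (.pos 37 .mp ⟨16581616, 0, 0, 0, 0, 162525522, 0, 0, 0, ⟨0, 0⟩, 0⟩ 0 0) (.cut .s 10059776 (.cut .s 10043392 (.pos 38 .mp ⟨51260713, 0, 0, 0, 0, 115853498, 0, 0, 0, ⟨0, 0⟩, 0⟩ 0 0) (.pos 38 .mp ⟨51716724, 0, 0, 0, 0, 116936661, 0, 0, 0, ⟨0, 0⟩, 0⟩ 0 0)) (.pos 38 .mp ⟨52635397, 0, 0, 0, 0, 118178840, 0, 0, 0, ⟨0, 0⟩, 0⟩ 0 0))))) (.cut .l 750040 (.cut .v 16908288 (.cut .s 10027008 (.cut .d (-32768) (.cut .s 9994240 (.cut .l 483578 (.cut .s 9977856 (.pos 37 .mp ⟨41406492, 0, 0, 0,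 0, 121261458, 0, 0, 0, ⟨0, 0⟩, 0⟩ 0 0) (.pos 37 .mp ⟨41798851, 0, 0, 0, 0, 122348238, 0, 0, 0, ⟨0, 0⟩, 0⟩ 0 0)) (.pos 37 .mp ⟨38696534, 0, 0, 0, 0, 124622477, 0, 0, 0, ⟨0, 0⟩, 0⟩ 0 0)) (.cut .l 483578 (.pos 37 .mp ⟨41325043, 0, 0, 0, 0, 126050494, 0, 0, 0, ⟨0, 0⟩, 0⟩ 0 0) (.pos 37 .mp ⟨39497591, 0, 0, 0, 0, 126765410, 0, 0, 0, ⟨0, 0⟩, 0⟩ 0 0))) (.cut .d (-16384) (.cut .v 16842752 (.cut .v 16809984 (.pos 85 .mp ⟨0, 0, 0, 0, 0, 171157896, 0, 0, 0, ⟨0, 0⟩, 0⟩ 0 0) (.cut .l 483578 (.cut .l 350347 (.cut .s 9994240 (.cut .s 9977856 (.cut .s 9969664 (.pos 86 .mp ⟨42688474, 0, 0, 0, 0, 116629733, 0, 0, 0, ⟨0, 0⟩, 0⟩ 0 0) (.pos 86 .mp ⟨42857828, 0, 0, 0, 0, 117186110,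 0, 0, 0, ⟨0, 0⟩, 0⟩ 0 0)) (.pos 86 .mp ⟨43197415, 0, 0, 0, 0, 118052448, 0, 0, 0, ⟨0, 0⟩, 0⟩ 0 0)) (.cut .s 10010624 (.pos 86 .mp ⟨43538184, 0, 0, 0, 0, 119174335, 0, 0, 0, ⟨0, 0⟩, 0⟩ 0 0) (.pos 86 .mp ⟨43880145, 0, 0, 0, 0, 120304376, 0, 0, 0, ⟨0, 0⟩, 0⟩ 0 0))) (.pos 86 .mp ⟨42781076, 0, 0, 0, 0, 0, 0, 0, 0, ⟨0, 0⟩, 0⟩ 0 0)) (.pos 86 .mp ⟨0, 0, 0, 0, 0, 0, 0, 0, 0, ⟨0, 0⟩, 0⟩ 0 0))) (.pos 81 .mp ⟨129187227, 0, 0, 0, 0, 0, 0, 0, 0, ⟨0, 0⟩, 0⟩ 0 0)) (.pos 37 .mp ⟨42293194, 0, 0, 0, 0, 0, 0, 0, 0, ⟨0, 0⟩, 0⟩ 0 0))) (.cut .d (-32768) (.cut .s 10059776 (.cut .s 10043392 (.pos 37 .mp ⟨41752301, 0, 0, 0, 0, 127126727, 0, 0, 0, ⟨0, 0⟩, 0⟩ 0 0) (.pos 37 .mp ⟨42281362,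 0, 0, 0, 0, 128090542, 0, 0, 0, ⟨0, 0⟩, 0⟩ 0 0)) (.cut .s 10076160 (.pos 37 .mp ⟨42838380, 0, 0, 0, 0, 129029735, 0, 0, 0, ⟨0, 0⟩, 0⟩ 0 0) (.pos 37 .mp ⟨43423811, 0, 0, 0, 0, 129943542, 0, 0, 0, ⟨0, 0⟩, 0⟩ 0 0))) (.cut .d (-16384) (.cut .v 16842752 (.cut .s 10059776 (.cut .s 10043392 (.pos 80 .mp ⟨42080319, 0, 0, 0, 0, 124546627, 0, 0, 0, ⟨0, 0⟩, 0⟩ 0 0) (.pos 80 .mp ⟨42400028, 0, 0, 0, 0, 125730715, 0, 0, 0, ⟨0, 0⟩, 0⟩ 0 0)) (.pos 80 .mp ⟨42720710, 0, 0, 0, 0, 128029963, 0, 0, 0, ⟨0, 0⟩, 0⟩ 0 0)) (.pos 81 .mp ⟨133640902, 0, 0, 0, 0, 0, 0, 0, 0, ⟨0, 0⟩, 0⟩ 0 0)) (.pos 37 .mp ⟨43591683, 0, 0, 0, 0, 0, 0, 0, 0, ⟨0, 0⟩, 0⟩ 0 0)))) (.pos 38 .mp ⟨136266883, 0, 0,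 0, 0, 0, 0, 0, 0, ⟨0, 0⟩, 0⟩ 0 0)) (.pos 35 .mp ⟨44876340, 0, 0, 0, 0, 0, 0, 0, 0, ⟨0, 0⟩, 0⟩ 0 0)))) (.pos 36 .mp ⟨137584639, 0, 0, 0, 0, 0, 0, 0, 0, ⟨0, 0⟩, 0⟩ 0 0)))) (.pos 34 .mp ⟨144755478, 0, 0, 0, 0, 0, 0, 0, 0, ⟨0, 0⟩, 0⟩ 0 0)) (.pos 32 .mp ⟨154740072, 0, 0, 0, 0, 0, 0, 0, 0, ⟨0, 0⟩, 0⟩ 0 0)) (.void 30 ⟨100000, 0, 0, 0, 0, 0, 0, 0, 0, ⟨0, 0⟩, 0⟩ 0 0))))))) (.void 28 ⟨100000, 0, 0, 0, 0, 0, 0, 0, 0, ⟨0, 0⟩, 0⟩ 0 0))) (.void 26 ⟨100000, 0, 0, 0, 0, 0, 0, 0, 0, ⟨0, 0⟩, 0⟩ 0 0)) (.void 73 ⟨100000, 0, 0, 0, 0, 0, 0, 0, 0, ⟨0, 0⟩, 0⟩ 0 0)) (.void 84 ⟨100000, 0, 0, 0, 0, 0, 0, 0, 0, ⟨0, 0⟩, 0⟩ 0 0)) (.void 103 ⟨62439, 37561, 0, 0, 0, 0, 0, 0, 0, ⟨0, 0⟩, 0⟩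 0 0))) (.cut .v 16777216 (.cut .v 8388608 (.cut .v 4194304 (.cut .v 2097152 (.void 6 ⟨0, 0, 25058, 0, 0, 0, 0, 0, 74942, ⟨0, 0⟩, 2804900⟩ 0 0) (.pos 7 .pm ⟨0, 0, 1290075, 0, 0, 0, 0, 0, 0, ⟨0, 0⟩, 0⟩ 0 0)) (.cut .d 6320185 (.pos 5 .pm ⟨0, 0, 0, 0, 0, 0, 0, 0, 0, ⟨0, 0⟩, 0⟩ 0 0) (.cut .d 9480278 (.pos 5 .pm ⟨0, 0, 0, 0, 0, 0, 0, 0, 0, ⟨0, 0⟩, 0⟩ 0 0) (.pos 5 .pm ⟨0, 65815882, 0, 0, 0, 0, 0, 0, 0, ⟨0, 0⟩, 0⟩ 0 0)))) (.cut .d 6320185 (.pos 3 .pm ⟨0, 0, 0, 0, 0, 0, 0, 0, 0, ⟨0, 0⟩, 0⟩ 0 0) (.cut .d 9480278 (.pos 3 .pm ⟨0, 0, 0, 0, 0, 0, 0, 0, 0, ⟨0, 0⟩, 0⟩ 0 0) (.cut .d 11060324 (.pos 3 .pm ⟨0, 69531077, 0, 0, 0, 0, 0, 0, 0, ⟨0, 0⟩, 0⟩ 0 0) (.pos 3 .pm ⟨0, 110263776,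 0, 0, 0, 0, 0, 0, 0, ⟨0, 0⟩, 0⟩ 0 0))))) (.cut .v 268435456 (.cut .v 67108864 (.cut .d 6320185 (.cut .d 3160092 (.cut .v 33554432 (.cut .v 25165824 (.cut .v 20971520 (.pos 27 .pp ⟨57768178, 0, 0, 0, 0, 0, 0, 0, 0, ⟨0, 0⟩, 0⟩ 0 0) (.pos 28 .pp ⟨112886320, 0, 0, 0, 0, 0, 0, 0, 0, ⟨0, 0⟩, 0⟩ 0 0)) (.pos 26 .pp ⟨170289553, 0, 0, 0, 0, 0, 0, 0, 0, ⟨0, 0⟩, 0⟩ 0 0)) (.cut .d 1580046 (.cut .v 50331648 (.pos 74 .pp ⟨486134830, 0, 0, 0, 0, 0, 0, 0, 0, ⟨0, 0⟩, 0⟩ 0 0) (.void 75 ⟨100000, 0, 0, 0, 0, 0, 0, 0, 0, ⟨0, 0⟩, 0⟩ 0 0)) (.pos 73 .pp ⟨248507699, 0, 0, 0, 0, 0, 0, 0, 0, ⟨0, 0⟩, 0⟩ 0 0))) (.pos 72 .pp ⟨0, 0, 0, 0, 0, 0, 0, 0, 0, ⟨0, 0⟩, 0⟩ 0 0)) (.pos 72 .pp ⟨0, 83548493,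 0, 0, 0, 0, 0, 0, 0, ⟨0, 0⟩, 0⟩ 0 0)) (.cut .v 134217728 (.cut .v 100663296 (.cut .d 6320185 (.cut .d 3160092 (.cut .v 83886080 (.pos 95 .pp ⟨1339763891, 0, 0, 0, 0, 0, 0, 0, 0, ⟨0, 0⟩, 0⟩ 0 0) (.pos 96 .pp ⟨2006930231, 0, 0, 0, 0, 0, 0, 0, 0, ⟨0, 0⟩, 0⟩ 0 0)) (.pos 91 .pp ⟨0, 75886218, 0, 0, 0, 0, 7375740, 0, 0, ⟨0, 0⟩, 0⟩ 0 0)) (.void 91 ⟨0, 100000, 0, 0, 0, 0, 0, 0, 0, ⟨0, 0⟩, 0⟩ 0 0)) (.void 92 ⟨37646, 62354, 0, 0, 0, 0, 0, 0, 0, ⟨0, 0⟩, 0⟩ 0 0)) (.void 90 ⟨37646, 62354, 0, 0, 0, 0, 0, 0, 0, ⟨0, 0⟩, 0⟩ 0 0))) (.void 103 ⟨0, 0, 0, 100000, 0, 0, 0, 0, 0, ⟨0, 0⟩, 0⟩ 0 0)))),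
    by decide +kernel⟩

def covers13 : cell.Covers table row13.1 :=
  ⟨(.cut .d 0 (.cut .v 16777216 (.cut .d (-8388608) (.void 1 ⟨0, 0, 0, 0, 0, 100000, 0, 0, 0, ⟨0, 0⟩, 0⟩ 0 0) (.cut .d (-4194304) (.void 1 ⟨0, 0, 0, 0, 0, 100000, 0, 0, 0, ⟨0, 0⟩, 0⟩ 0 0) (.cut .d (-2097152) (.void 1 ⟨0, 0, 0, 0, 0, 100000, 0, 0, 0, ⟨0, 0⟩, 0⟩ 0 0) (.cut .d (-1048576) (.void 1 ⟨0, 0, 0, 0, 0, 100000, 0, 0, 0, ⟨0, 0⟩, 0⟩ 0 0) (.cut .d (-524288) (.void 1 ⟨0, 0, 0, 0, 0, 100000, 0, 0, 0, ⟨0, 0⟩, 0⟩ 0 0) (.cut .d (-262144) (.void 1 ⟨0, 0, 0, 0, 0, 100000, 0, 0, 0, ⟨0, 0⟩, 0⟩ 0 0) (.cut .d (-131072) (.void 1 ⟨0, 0, 0, 0, 0, 100000, 0, 0, 0, ⟨0, 0⟩, 0⟩ 0 0) (.cut .v 8388608 (.cut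 .v 4194304 (.void 4 ⟨0, 0, 100000, 0, 0, 0, 0, 0, 0, ⟨0, 0⟩, 0⟩ 0 0) (.pos 5 .mm ⟨0, 0, 0, 0, 0, 96265981, 0, 0, 0, ⟨0, 0⟩, 0⟩ 0 0)) (.cut .v 12582912 (.pos 8 .mm ⟨0, 0, 0, 0, 0, 143963178, 0, 0, 0, ⟨0, 0⟩, 0⟩ 0 0) (.cut .v 14680064 (.pos 12 .mm ⟨0, 0, 0, 0, 0, 172605613, 0, 0, 0, ⟨0, 0⟩, 0⟩ 0 0) (.cut .v 15728640 (.pos 16 .mm ⟨0, 0, 0, 0, 0, 189108312, 0, 0, 0, ⟨0, 0⟩, 0⟩ 0 0) (.cut .v 16252928 (.pos 20 .mm ⟨0, 0, 0, 0, 0, 197913859, 0, 0, 0, ⟨0, 0⟩, 0⟩ 0 0) (.cut .s 10289152 (.cut .s 10190848 (.pos 21 .mm ⟨0, 0, 0, 0, 0, 189497216, 0, 0, 0, ⟨0, 0⟩, 0⟩ 0 0) (.pos 21 .mm ⟨0, 0, 0, 0, 0, 200345831, 0, 0, 0, ⟨0, 0⟩, 0⟩ 0 0)) (.cut .s 10387456 (.pos 21 .mm ⟨0,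 0, 0, 0, 0, 211695357, 0, 0, 0, ⟨0, 0⟩, 0⟩ 0 0) (.pos 21 .mm ⟨0, 0, 0, 0, 0, 223531780, 0, 0, 0, ⟨0, 0⟩, 0⟩ 0 0))))))))))))))) (.cut .v 268435456 (.cut .v 67108864 (.cut .v 33554432 (.cut .v 25165824 (.cut .d (-8388608) (.void 25 ⟨0, 0, 0, 0, 0, 100000, 0, 0, 0, ⟨0, 0⟩, 0⟩ 0 0) (.cut .v 20971520 (.cut .d (-4194304) (.void 27 ⟨100000, 0, 0, 0, 0, 0, 0, 0, 0, ⟨0, 0⟩, 0⟩ 0 0) (.cut .d (-2097152) (.void 27 ⟨100000, 0, 0, 0, 0, 0, 0, 0, 0, ⟨0, 0⟩, 0⟩ 0 0) (.cut .d (-1048576) (.void 27 ⟨100000, 0, 0, 0, 0, 0, 0, 0, 0, ⟨0, 0⟩, 0⟩ 0 0) (.cut .d (-524288) (.void 27 ⟨100000, 0, 0, 0, 0, 0, 0, 0, 0, ⟨0, 0⟩, 0⟩ 0 0) (.cut .d (-262144) (.void 27 ⟨100000, 0, 0, 0, 0, 0,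 0, 0, 0, ⟨0, 0⟩, 0⟩ 0 0) (.cut .d (-131072) (.void 27 ⟨0, 0, 0, 0, 0, 100000, 0, 0, 0, ⟨0, 0⟩, 0⟩ 0 0) (.cut .v 18874368 (.cut .v 17825792 (.cut .v 17301504 (.cut .v 17039360 (.cut .s 10289152 (.cut .d (-65536) (.cut .l 750040 (.pos 35 .mp ⟨45381243, 0, 0, 0, 0, 152150582, 0, 0, 0, ⟨0, 0⟩, 0⟩ 0 0) (.cut .s 10190848 (.cut .d (-98304) (.cut .s 10141696 (.pos 35 .mp ⟨43923201, 0, 0, 0, 0, 137567247, 0, 0, 0, ⟨0, 0⟩, 0⟩ 0 0) (.cut .s 10166272 (.pos 35 .mp ⟨45084049, 0, 0, 0, 0, 138885799, 0, 0, 0, ⟨0, 0⟩, 0⟩ 0 0) (.pos 35 .mp ⟨45666833, 0, 0, 0, 0, 140718177, 0, 0, 0, ⟨0, 0⟩, 0⟩ 0 0))) (.cut .l 1016502 (.cut .s 10141696 (.pos 35 .mp ⟨49738302, 0, 0, 0, 0, 124313262,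 0, 0, 0, ⟨0, 0⟩, 0⟩ 0 0) (.cut .s 10166272 (.pos 35 .mp ⟨43666255, 0, 0, 0, 0, 139574145, 0, 0, 0, ⟨0, 0⟩, 0⟩ 0 0) (.pos 35 .mp ⟨44202717, 0, 0, 0, 0, 141389043, 0, 0, 0, ⟨0, 0⟩, 0⟩ 0 0))) (.pos 35 .mp ⟨48625064, 0, 0, 0, 0, 124428870, 0, 0, 0, ⟨0, 0⟩, 0⟩ 0 0))) (.cut .d (-98304) (.cut .d (-114688) (.pos 35 .mp ⟨48373053, 0, 0, 0, 0, 149490705, 0, 0, 0, ⟨0, 0⟩, 0⟩ 0 0) (.cut .l 1016502 (.void 35 ⟨0, 0, 0, 0, 0, 100000, 0, 0, 0, ⟨0, 0⟩, 0⟩ 0 0) (.cut .v 16908288 (.pos 37 .mp ⟨0, 0, 0, 0, 0, 206158813, 0, 0, 0, ⟨0, 0⟩, 0⟩ 0 0) (.cut .s 10240000 (.pos 38 .mp ⟨52451148, 0, 0, 0, 0, 133030116, 0, 0, 0, ⟨0, 0⟩, 0⟩ 0 0) (.pos 38 .mp ⟨53790041, 0, 0, 0, 0, 136341330,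 0, 0, 0, ⟨0, 0⟩, 0⟩ 0 0))))) (.cut .l 1016502 (.cut .d (-81920) (.cut .s 10240000 (.pos 35 .mp ⟨46680398, 0, 0, 0, 0, 143679690, 0, 0, 0, ⟨0, 0⟩, 0⟩ 0 0) (.pos 35 .mp ⟨47833069, 0, 0, 0, 0, 147379324, 0, 0, 0, ⟨0, 0⟩, 0⟩ 0 0)) (.cut .s 10240000 (.pos 35 .mp ⟨50266455, 0, 0, 0, 0, 132147168, 0, 0, 0, ⟨0, 0⟩, 0⟩ 0 0) (.pos 35 .mp ⟨51482528, 0, 0, 0, 0, 135563351, 0, 0, 0, ⟨0, 0⟩, 0⟩ 0 0))) (.cut .s 10240000 (.pos 35 .mp ⟨49852688, 0, 0, 0, 0, 131737732, 0, 0, 0, ⟨0, 0⟩, 0⟩ 0 0) (.pos 35 .mp ⟨51089692, 0, 0, 0, 0, 135153374, 0, 0, 0, ⟨0, 0⟩, 0⟩ 0 0)))))) (.cut .l 750040 (.cut .v 16908288 (.cut .s 10190848 (.cut .d (-32768) (.cut .s 10141696 (.cut .s 10117120 (.pos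 37 .mp ⟨43225402, 0, 0, 0, 0, 132613871, 0, 0, 0, ⟨0, 0⟩, 0⟩ 0 0) (.pos 37 .mp ⟨43169289, 0, 0, 0, 0, 135168034, 0, 0, 0, ⟨0, 0⟩, 0⟩ 0 0)) (.cut .s 10166272 (.pos 37 .mp ⟨43171531, 0, 0, 0, 0, 137684706, 0, 0, 0, ⟨0, 0⟩, 0⟩ 0 0) (.pos 37 .mp ⟨43233954, 0, 0, 0, 0, 140160927, 0, 0, 0, ⟨0, 0⟩, 0⟩ 0 0))) (.cut .d (-16384) (.cut .v 16842752 (.cut .v 16809984 (.pos 85 .mp ⟨0, 0, 0, 0, 0, 188206594, 0, 0, 0, ⟨0, 0⟩, 0⟩ 0 0) (.cut .s 10141696 (.pos 86 .mp ⟨46306551, 0, 0, 0, 0, 127417920, 0, 0, 0, ⟨0, 0⟩, 0⟩ 0 0) (.cut .s 10166272 (.pos 86 .mp ⟨46833949, 0, 0, 0, 0, 130380302, 0, 0, 0, ⟨0, 0⟩, 0⟩ 0 0) (.pos 86 .mp ⟨47362929, 0, 0, 0, 0, 132216142, 0, 0, 0, ⟨0, 0⟩,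 0⟩ 0 0)))) (.pos 81 .mp ⟨139265522, 0, 0, 0, 0, 0, 0, 0, 0, ⟨0, 0⟩, 0⟩ 0 0)) (.pos 37 .mp ⟨45564817, 0, 0, 0, 0, 0, 0, 0, 0, ⟨0, 0⟩, 0⟩ 0 0))) (.cut .d (-32768) (.cut .s 10240000 (.cut .l 483578 (.pos 37 .mp ⟨45114658, 0, 0, 0, 0, 142899149, 0, 0, 0, ⟨0, 0⟩, 0⟩ 0 0) (.cut .s 10215424 (.pos 37 .mp ⟨43045460, 0, 0, 0, 0, 142255534, 0, 0, 0, ⟨0, 0⟩, 0⟩ 0 0) (.pos 37 .mp ⟨43379904, 0, 0, 0, 0, 144429895, 0, 0, 0, ⟨0, 0⟩, 0⟩ 0 0))) (.cut .s 10264576 (.cut .s 10252288 (.pos 37 .mp ⟨45503378, 0, 0, 0, 0, 143915041, 0, 0, 0, ⟨0, 0⟩, 0⟩ 0 0) (.pos 37 .mp ⟨45666217, 0, 0, 0, 0, 145040826, 0, 0, 0, ⟨0, 0⟩, 0⟩ 0 0)) (.pos 37 .mp ⟨44190472, 0, 0, 0, 0, 149495650, 0, 0,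 0, ⟨0, 0⟩, 0⟩ 0 0))) (.cut .d (-16384) (.cut .v 16842752 (.cut .v 16809984 (.pos 85 .mp ⟨0, 0, 0, 0, 0, 198670128, 0, 0, 0, ⟨0, 0⟩, 0⟩ 0 0) (.cut .l 483578 (.cut .l 350347 (.cut .s 10240000 (.pos 86 .mp ⟨48425733, 0, 0, 0, 0, 134649789, 0, 0, 0, ⟨0, 0⟩, 0⟩ 0 0) (.pos 86 .mp ⟨49495158, 0, 0, 0, 0, 138365016, 0, 0, 0, ⟨0, 0⟩, 0⟩ 0 0)) (.pos 86 .mp ⟨48252443, 0, 0, 0, 0, 132132700, 0, 0, 0, ⟨0, 0⟩, 0⟩ 0 0)) (.pos 86 .mp ⟨0, 0, 0, 0, 0, 0, 0, 0, 0, ⟨0, 0⟩, 0⟩ 0 0))) (.pos 81 .mp ⟨145311228, 0, 0, 0, 0, 0, 0, 0, 0, ⟨0, 0⟩, 0⟩ 0 0)) (.pos 37 .mp ⟨47557342, 0, 0, 0, 0, 0, 0, 0, 0, ⟨0, 0⟩, 0⟩ 0 0)))) (.pos 38 .mp ⟨151295705, 0, 0, 0, 0, 0, 0, 0, 0, ⟨0, 0⟩, 0⟩ 0 0))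 (.pos 35 .mp ⟨49386059, 0, 0, 0, 0, 0, 0, 0, 0, ⟨0, 0⟩, 0⟩ 0 0))) (.cut .d (-65536) (.cut .l 750040 (.pos 35 .mp ⟨49386059, 0, 0, 0, 0, 169647979, 0, 0, 0, ⟨0, 0⟩, 0⟩ 0 0) (.cut .s 10387456 (.cut .d (-98304) (.cut .d (-114688) (.void 35 ⟨0, 0, 0, 0, 0, 100000, 0, 0, 0, ⟨0, 0⟩, 0⟩ 0 0) (.cut .s 10338304 (.cut .s 10313728 (.pos 35 .mp ⟨48605378, 0, 0, 0, 0, 149428303, 0, 0, 0, ⟨0, 0⟩, 0⟩ 0 0) (.pos 35 .mp ⟨49198196, 0, 0, 0, 0, 151441922, 0, 0, 0, ⟨0, 0⟩, 0⟩ 0 0)) (.pos 35 .mp ⟨49792780, 0, 0, 0, 0, 155658178, 0, 0, 0, ⟨0, 0⟩, 0⟩ 0 0))) (.cut .l 1016502 (.cut .d (-81920) (.cut .s 10338304 (.pos 35 .mp ⟨48992513, 0, 0, 0, 0, 151269318, 0, 0, 0, ⟨0, 0⟩, 0⟩ 0 0)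 (.pos 35 .mp ⟨50158945, 0, 0, 0, 0, 155351228, 0, 0, 0, ⟨0, 0⟩, 0⟩ 0 0)) (.cut .s 10338304 (.pos 35 .mp ⟨52708284, 0, 0, 0, 0, 139161157, 0, 0, 0, ⟨0, 0⟩, 0⟩ 0 0) (.pos 35 .mp ⟨53943996, 0, 0, 0, 0, 142941989, 0, 0, 0, ⟨0, 0⟩, 0⟩ 0 0))) (.cut .s 10338304 (.pos 35 .mp ⟨52336342, 0, 0, 0, 0, 138700188, 0, 0, 0, ⟨0, 0⟩, 0⟩ 0 0) (.pos 35 .mp ⟨53387434, 0, 0, 0, 0, 142847592, 0, 0, 0, ⟨0, 0⟩, 0⟩ 0 0)))) (.cut .d (-98304) (.cut .s 10436608 (.pos 35 .mp ⟨50987358, 0, 0, 0, 0, 160684387, 0, 0, 0, ⟨0, 0⟩, 0⟩ 0 0) (.pos 35 .mp ⟨52189339, 0, 0, 0, 0, 165222252, 0, 0, 0, ⟨0, 0⟩, 0⟩ 0 0)) (.cut .v 16908288 (.pos 37 .mp ⟨0, 0, 0, 0, 0, 226563003, 0, 0, 0, ⟨0, 0⟩, 0⟩ 0 0)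 (.cut .s 10436608 (.pos 38 .mp ⟨58210176, 0, 0, 0, 0, 145728009, 0, 0, 0, ⟨0, 0⟩, 0⟩ 0 0) (.pos 38 .mp ⟨59580488, 0, 0, 0, 0, 149848195, 0, 0, 0, ⟨0, 0⟩, 0⟩ 0 0)))))) (.cut .l 750040 (.cut .v 16908288 (.cut .s 10387456 (.cut .d (-32768) (.cut .s 10338304 (.cut .s 10313728 (.pos 37 .mp ⟨44671916, 0, 0, 0, 0, 151584022, 0, 0, 0, ⟨0, 0⟩, 0⟩ 0 0) (.pos 37 .mp ⟨45153740, 0, 0, 0, 0, 153723185, 0, 0, 0, ⟨0, 0⟩, 0⟩ 0 0)) (.cut .s 10362880 (.pos 37 .mp ⟨45635957, 0, 0, 0, 0, 155913367, 0, 0, 0, ⟨0, 0⟩, 0⟩ 0 0) (.pos 37 .mp ⟨46122605, 0, 0, 0, 0, 158148532, 0, 0, 0, ⟨0, 0⟩, 0⟩ 0 0))) (.cut .d (-16384) (.cut .s 10338304 (.cut .s 10313728 (.pos 37 .mp ⟨49896433, 0, 0,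 0, 0, 141578870, 0, 0, 0, ⟨0, 0⟩, 0⟩ 0 0) (.pos 37 .mp ⟨50406330, 0, 0, 0, 0, 143629890, 0, 0, 0, ⟨0, 0⟩, 0⟩ 0 0)) (.pos 37 .mp ⟨51804533, 0, 0, 0, 0, 144908532, 0, 0, 0, ⟨0, 0⟩, 0⟩ 0 0)) (.pos 37 .mp ⟨49566964, 0, 0, 0, 0, 0, 0, 0, 0, ⟨0, 0⟩, 0⟩ 0 0))) (.cut .d (-32768) (.cut .s 10436608 (.cut .s 10412032 (.pos 37 .mp ⟨46810670, 0, 0, 0, 0, 160122067, 0, 0, 0, ⟨0, 0⟩, 0⟩ 0 0) (.pos 37 .mp ⟨47577811, 0, 0, 0, 0, 162023703, 0, 0, 0, ⟨0, 0⟩, 0⟩ 0 0)) (.pos 37 .mp ⟨47569030, 0, 0, 0, 0, 166895371, 0, 0, 0, ⟨0, 0⟩, 0⟩ 0 0)) (.cut .s 10436608 (.pos 37 .mp ⟨52900812, 0, 0, 0, 0, 148019737, 0, 0, 0, ⟨0, 0⟩, 0⟩ 0 0) (.pos 37 .mp ⟨54004633, 0, 0, 0, 0, 152179557, 0,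 0, 0, ⟨0, 0⟩, 0⟩ 0 0)))) (.pos 38 .mp ⟨165798721, 0, 0, 0, 0, 0, 0, 0, 0, ⟨0, 0⟩, 0⟩ 0 0)) (.pos 35 .mp ⟨50547923, 0, 0, 0, 0, 138977283, 0, 0, 0, ⟨0, 0⟩, 0⟩ 0 0)))) (.cut .s 10289152 (.pos 36 .mp ⟨156540083, 0, 0, 0, 0, 0, 0, 0, 0, ⟨0, 0⟩, 0⟩ 0 0) (.pos 36 .mp ⟨170700120, 0, 0, 0, 0, 0, 0, 0, 0, ⟨0, 0⟩, 0⟩ 0 0))) (.pos 34 .mp ⟨167392410, 0, 0, 0, 0, 0, 0, 0, 0, ⟨0, 0⟩, 0⟩ 0 0)) (.pos 32 .mp ⟨177729638, 0, 0, 0, 0, 0, 0, 0, 0, ⟨0, 0⟩, 0⟩ 0 0)) (.void 30 ⟨100000, 0, 0, 0, 0, 0, 0, 0, 0, ⟨0, 0⟩, 0⟩ 0 0)))))))) (.void 28 ⟨100000, 0, 0, 0, 0, 0, 0, 0, 0, ⟨0, 0⟩, 0⟩ 0 0))) (.void 26 ⟨100000, 0, 0, 0, 0, 0, 0, 0, 0, ⟨0, 0⟩, 0⟩ 0 0)) (.void 73 ⟨100000, 0, 0, 0, 0,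 0, 0, 0, 0, ⟨0, 0⟩, 0⟩ 0 0)) (.void 84 ⟨100000, 0, 0, 0, 0, 0, 0, 0, 0, ⟨0, 0⟩, 0⟩ 0 0)) (.void 103 ⟨61538, 38462, 0, 0, 0, 0, 0, 0, 0, ⟨0, 0⟩, 0⟩ 0 0))) (.cut .v 16777216 (.cut .v 8388608 (.cut .v 4194304 (.cut .v 2097152 (.pos 6 .pm ⟨0, 0, 46829919, 0, 0, 0, 0, 0, 95969121, ⟨0, 0⟩, 2804900⟩ 0 0) (.pos 7 .pm ⟨0, 392095, 0, 0, 0, 0, 0, 0, 0, ⟨0, 0⟩, 0⟩ 0 0)) (.cut .d 5556092 (.pos 5 .pm ⟨0, 0, 0, 0, 0, 0, 0, 0, 0, ⟨0, 0⟩, 0⟩ 0 0) (.cut .d 8334138 (.pos 5 .pm ⟨0, 0, 0, 0, 0, 0, 0, 0, 0, ⟨0, 0⟩, 0⟩ 0 0) (.pos 5 .pm ⟨0, 74706718, 0, 0, 0, 0, 0, 0, 0, ⟨0, 0⟩, 0⟩ 0 0)))) (.cut .d 5556092 (.pos 3 .pm ⟨0, 0, 0, 0, 0, 0, 0, 0, 0, ⟨0, 0⟩, 0⟩ 0 0) (.cut .d 8334138 (.pos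 3 .pm ⟨0, 0, 0, 0, 0, 0, 0, 0, 0, ⟨0, 0⟩, 0⟩ 0 0) (.cut .d 9723161 (.pos 3 .pm ⟨0, 72703506, 0, 0, 0, 0, 0, 0, 0, ⟨0, 0⟩, 0⟩ 0 0) (.pos 3 .pm ⟨0, 126465241, 0, 0, 0, 0, 0, 0, 0, ⟨0, 0⟩, 0⟩ 0 0))))) (.cut .v 268435456 (.cut .d 5556092 (.cut .v 67108864 (.cut .d 2778046 (.cut .v 33554432 (.cut .v 25165824 (.cut .v 20971520 (.pos 27 .pp ⟨71224141, 0, 0, 0, 0, 0, 0, 0, 0, ⟨0, 0⟩, 0⟩ 0 0) (.pos 28 .pp ⟨146907752, 0, 0, 0, 0, 0, 0, 0, 0, ⟨0, 0⟩, 0⟩ 0 0)) (.pos 26 .pp ⟨218321383, 0, 0, 0, 0, 0, 0, 0, 0, ⟨0, 0⟩, 0⟩ 0 0)) (.cut .d 1389023 (.cut .v 50331648 (.pos 74 .pp ⟨595974445, 0, 0, 0, 0, 0, 0, 0, 0, ⟨0, 0⟩, 0⟩ 0 0) (.void 75 ⟨100000, 0, 0, 0, 0, 0, 0, 0, 0, ⟨0,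 0⟩, 0⟩ 0 0)) (.pos 73 .pp ⟨340870600, 0, 0, 0, 0, 0, 0, 0, 0, ⟨0, 0⟩, 0⟩ 0 0))) (.pos 72 .pp ⟨0, 0, 0, 0, 0, 0, 0, 0, 0, ⟨0, 0⟩, 0⟩ 0 0)) (.cut .v 134217728 (.cut .d 2778046 (.cut .v 100663296 (.cut .v 83886080 (.pos 95 .pp ⟨1615124966, 0, 0, 0, 0, 0, 0, 0, 0, ⟨0, 0⟩, 0⟩ 0 0) (.pos 96 .pp ⟨2400422699, 0, 0, 0, 0, 0, 0, 0, 0, ⟨0, 0⟩, 0⟩ 0 0)) (.void 92 ⟨42490, 57510, 0, 0, 0, 0, 0, 0, 0, ⟨0, 0⟩, 0⟩ 0 0)) (.pos 89 .pp ⟨0, 326769118, 0, 0, 0, 0, 3846554, 0, 0, ⟨0, 0⟩, 0⟩ 0 0)) (.void 90 ⟨40700, 59300, 0, 0, 0, 0, 0, 0, 0, ⟨0, 0⟩, 0⟩ 0 0))) (.pos 83 .pp ⟨0, 97099716, 0, 0, 0, 0, 0, 0, 0, ⟨0, 0⟩, 0⟩ 0 0)) (.void 103 ⟨0, 0, 0, 100000, 0, 0, 0, 0, 0, ⟨0, 0⟩, 0⟩ 0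 0)))),
    by decide +kernel⟩

def covers14 : cell.Covers table row14.1 :=
  ⟨(.cut .d 0 (.cut .v 16777216 (.cut .d (-8388608) (.void 1 ⟨0, 0, 0, 0, 0, 100000, 0, 0, 0, ⟨0, 0⟩, 0⟩ 0 0) (.cut .d (-4194304) (.void 1 ⟨0, 0, 0, 0, 0, 100000, 0, 0, 0, ⟨0, 0⟩, 0⟩ 0 0) (.cut .d (-2097152) (.void 1 ⟨0, 0, 0, 0, 0, 100000, 0, 0, 0, ⟨0, 0⟩, 0⟩ 0 0) (.cut .d (-1048576) (.void 1 ⟨0, 0, 0, 0, 0, 100000, 0, 0, 0, ⟨0, 0⟩, 0⟩ 0 0) (.cut .d (-524288) (.void 1 ⟨0, 0, 0, 0, 0, 100000, 0, 0, 0, ⟨0, 0⟩, 0⟩ 0 0) (.cut .d (-262144) (.void 1 ⟨0, 0, 0, 0, 0, 100000, 0, 0, 0, ⟨0, 0⟩, 0⟩ 0 0) (.cut .d (-131072) (.void 1 ⟨0, 0, 0, 0, 0, 100000, 0, 0, 0, ⟨0, 0⟩, 0⟩ 0 0) (.cut .v 8388608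 (.cut .v 4194304 (.void 4 ⟨0, 0, 100000, 0, 0, 0, 0, 0, 0, ⟨0, 0⟩, 0⟩ 0 0) (.pos 5 .mm ⟨0, 0, 0, 0, 0, 119260495, 0, 0, 0, ⟨0, 0⟩, 0⟩ 0 0)) (.cut .v 12582912 (.pos 8 .mm ⟨0, 0, 0, 0, 0, 181970101, 0, 0, 0, ⟨0, 0⟩, 0⟩ 0 0) (.cut .v 14680064 (.pos 12 .mm ⟨0, 0, 0, 0, 0, 217090057, 0, 0, 0, ⟨0, 0⟩, 0⟩ 0 0) (.cut .v 15728640 (.pos 16 .mm ⟨0, 0, 0, 0, 0, 236968767, 0, 0, 0, ⟨0, 0⟩, 0⟩ 0 0) (.cut .v 16252928 (.pos 20 .mm ⟨0, 0, 0, 0, 0, 247497756, 0, 0, 0, ⟨0, 0⟩, 0⟩ 0 0) (.cut .s 10682368 (.cut .s 10584064 (.pos 21 .mm ⟨0, 0, 0, 0, 0, 236405325, 0, 0, 0, ⟨0, 0⟩, 0⟩ 0 0) (.pos 21 .mm ⟨0, 0, 0, 0, 0, 249350994, 0, 0, 0, ⟨0, 0⟩, 0⟩ 0 0)) (.cut .s 10780672 (.pos 21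 .mm ⟨0, 0, 0, 0, 0, 262847144, 0, 0, 0, ⟨0, 0⟩, 0⟩ 0 0) (.pos 21 .mm ⟨0, 0, 0, 0, 0, 276972272, 0, 0, 0, ⟨0, 0⟩, 0⟩ 0 0))))))))))))))) (.cut .v 268435456 (.cut .v 67108864 (.cut .v 33554432 (.cut .v 25165824 (.cut .d (-8388608) (.void 25 ⟨0, 0, 0, 0, 0, 100000, 0, 0, 0, ⟨0, 0⟩, 0⟩ 0 0) (.cut .d (-4194304) (.void 25 ⟨100000, 0, 0, 0, 0, 0, 0, 0, 0, ⟨0, 0⟩, 0⟩ 0 0) (.cut .v 20971520 (.cut .d (-2097152) (.void 27 ⟨100000, 0, 0, 0, 0, 0, 0, 0, 0, ⟨0, 0⟩, 0⟩ 0 0) (.cut .d (-1048576) (.void 27 ⟨100000, 0, 0, 0, 0, 0, 0, 0, 0, ⟨0, 0⟩, 0⟩ 0 0) (.cut .d (-524288) (.void 27 ⟨100000, 0, 0, 0, 0, 0, 0, 0, 0, ⟨0, 0⟩, 0⟩ 0 0) (.cut .d (-262144) (.void 27 ⟨100000, 0, 0, 0,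 0, 0, 0, 0, 0, ⟨0, 0⟩, 0⟩ 0 0) (.cut .d (-131072) (.void 27 ⟨0, 0, 0, 0, 0, 100000, 0, 0, 0, ⟨0, 0⟩, 0⟩ 0 0) (.cut .v 18874368 (.cut .v 17825792 (.cut .v 17301504 (.cut .v 17039360 (.cut .d (-65536) (.cut .l 750040 (.void 35 ⟨0, 0, 0, 0, 0, 100000, 0, 0, 0, ⟨0, 0⟩, 0⟩ 0 0) (.cut .s 10682368 (.cut .d (-98304) (.cut .s 10584064 (.pos 35 .mp ⟨53834345, 0, 0, 0, 0, 177715016, 0, 0, 0, ⟨0, 0⟩, 0⟩ 0 0) (.pos 35 .mp ⟨55987533, 0, 0, 0, 0, 186814715, 0, 0, 0, ⟨0, 0⟩, 0⟩ 0 0)) (.cut .s 10584064 (.cut .v 16908288 (.pos 37 .mp ⟨5262567, 0, 0, 0, 0, 234560480, 0, 0, 0, ⟨0, 0⟩, 0⟩ 0 0) (.cut .s 10534912 (.pos 38 .mp ⟨61011060, 0, 0, 0, 0, 155311122, 0, 0, 0, ⟨0, 0⟩, 0⟩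 0 0) (.pos 38 .mp ⟨62450004, 0, 0, 0, 0, 158991522, 0, 0, 0, ⟨0, 0⟩, 0⟩ 0 0))) (.cut .v 16908288 (.cut .s 10633216 (.pos 37 .mp ⟨25577672, 0, 0, 0, 0, 215465145, 0, 0, 0, ⟨0, 0⟩, 0⟩ 0 0) (.pos 37 .mp ⟨23520310, 0, 0, 0, 0, 224633260, 0, 0, 0, ⟨0, 0⟩, 0⟩ 0 0)) (.cut .s 10633216 (.pos 38 .mp ⟨63898773, 0, 0, 0, 0, 162898792, 0, 0, 0, ⟨0, 0⟩, 0⟩ 0 0) (.cut .s 10657792 (.pos 38 .mp ⟨64626938, 0, 0, 0, 0, 166410170, 0, 0, 0, ⟨0, 0⟩, 0⟩ 0 0) (.pos 38 .mp ⟨65357676, 0, 0, 0, 0, 168568862, 0, 0, 0, ⟨0, 0⟩, 0⟩ 0 0)))))) (.cut .d (-98304) (.cut .s 10780672 (.pos 35 .mp ⟨58586901, 0, 0, 0, 0, 195497017, 0, 0, 0, ⟨0, 0⟩, 0⟩ 0 0) (.pos 35 .mp ⟨61199690, 0, 0, 0, 0, 205894370,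 0, 0, 0, ⟨0, 0⟩, 0⟩ 0 0)) (.cut .s 10780672 (.cut .v 16908288 (.cut .s 10731520 (.pos 37 .mp ⟨22462643, 0, 0, 0, 0, 232700176, 0, 0, 0, ⟨0, 0⟩, 0⟩ 0 0) (.pos 37 .mp ⟨22468700, 0, 0, 0, 0, 239564504, 0, 0, 0, ⟨0, 0⟩, 0⟩ 0 0)) (.cut .s 10731520 (.cut .s 10706944 (.pos 38 .mp ⟨66091028, 0, 0, 0, 0, 170785889, 0, 0, 0, ⟨0, 0⟩, 0⟩ 0 0) (.pos 38 .mp ⟨66827033, 0, 0, 0, 0, 173061474, 0, 0, 0, ⟨0, 0⟩, 0⟩ 0 0)) (.pos 38 .mp ⟨68307171, 0, 0, 0, 0, 175999741, 0, 0, 0, ⟨0, 0⟩, 0⟩ 0 0))) (.cut .s 10829824 (.cut .s 10805248 (.pos 35 .mp ⟨55150337, 0, 0, 0, 0, 202171327, 0, 0, 0, ⟨0, 0⟩, 0⟩ 0 0) (.pos 35 .mp ⟨55694793, 0, 0, 0, 0, 205033887, 0, 0, 0, ⟨0, 0⟩, 0⟩ 0 0)) (.pos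 35 .mp ⟨56238363, 0, 0, 0, 0, 209726955, 0, 0, 0, ⟨0, 0⟩, 0⟩ 0 0)))))) (.cut .l 750040 (.cut .s 10682368 (.cut .v 16908288 (.cut .d (-32768) (.cut .s 10584064 (.cut .s 10534912 (.pos 37 .mp ⟨48539276, 0, 0, 0, 0, 172317318, 0, 0, 0, ⟨0, 0⟩, 0⟩ 0 0) (.pos 37 .mp ⟨49554649, 0, 0, 0, 0, 176691910, 0, 0, 0, ⟨0, 0⟩, 0⟩ 0 0)) (.cut .l 483578 (.pos 37 .mp ⟨53407042, 0, 0, 0, 0, 184595362, 0, 0, 0, ⟨0, 0⟩, 0⟩ 0 0) (.cut .s 10633216 (.pos 37 .mp ⟨50565996, 0, 0, 0, 0, 180176068, 0, 0, 0, ⟨0, 0⟩, 0⟩ 0 0) (.pos 37 .mp ⟨51573329, 0, 0, 0, 0, 185008676, 0, 0, 0, ⟨0, 0⟩, 0⟩ 0 0)))) (.cut .d (-16384) (.cut .l 483578 (.cut .v 16842752 (.cut .s 10584064 (.cut .s 10534912 (.pos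 80 .mp ⟨48554586, 0, 0, 0, 0, 169503572, 0, 0, 0, ⟨0, 0⟩, 0⟩ 0 0) (.pos 80 .mp ⟨49523478, 0, 0, 0, 0, 173824302, 0, 0, 0, ⟨0, 0⟩, 0⟩ 0 0)) (.cut .s 10633216 (.pos 80 .mp ⟨50488206, 0, 0, 0, 0, 178393726, 0, 0, 0, ⟨0, 0⟩, 0⟩ 0 0) (.pos 80 .mp ⟨51448776, 0, 0, 0, 0, 183214254, 0, 0, 0, ⟨0, 0⟩, 0⟩ 0 0))) (.pos 81 .mp ⟨177313987, 0, 0, 0, 0, 0, 0, 0, 0, ⟨0, 0⟩, 0⟩ 0 0)) (.pos 37 .mp ⟨55544045, 0, 0, 0, 0, 0, 0, 0, 0, ⟨0, 0⟩, 0⟩ 0 0)) (.pos 37 .mp ⟨55732293, 0, 0, 0, 0, 0, 0, 0, 0, ⟨0, 0⟩, 0⟩ 0 0))) (.pos 38 .mp ⟨183852347, 0, 0, 0, 0, 0, 0, 0, 0, ⟨0, 0⟩, 0⟩ 0 0)) (.cut .v 16908288 (.cut .d (-32768) (.cut .s 10780672 (.cut .l 483578 (.pos 37 .mp ⟨55544045, 0, 0,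 0, 0, 194738688, 0, 0, 0, ⟨0, 0⟩, 0⟩ 0 0) (.cut .s 10731520 (.pos 37 .mp ⟨52576660, 0, 0, 0, 0, 190060890, 0, 0, 0, ⟨0, 0⟩, 0⟩ 0 0) (.pos 37 .mp ⟨53576001, 0, 0, 0, 0, 195333208, 0, 0, 0, ⟨0, 0⟩, 0⟩ 0 0))) (.cut .s 10829824 (.pos 37 .mp ⟨54571363, 0, 0, 0, 0, 202379744, 0, 0, 0, ⟨0, 0⟩, 0⟩ 0 0) (.pos 37 .mp ⟨55562758, 0, 0, 0, 0, 208297220, 0, 0, 0, ⟨0, 0⟩, 0⟩ 0 0))) (.cut .d (-16384) (.cut .l 483578 (.cut .v 16842752 (.cut .s 10780672 (.cut .s 10731520 (.pos 80 .mp ⟨52405195, 0, 0, 0, 0, 188288297, 0, 0, 0, ⟨0, 0⟩, 0⟩ 0 0) (.pos 80 .mp ⟨53357467, 0, 0, 0, 0, 193618265, 0, 0, 0, ⟨0, 0⟩, 0⟩ 0 0)) (.cut .s 10829824 (.pos 80 .mp ⟨54305596, 0, 0, 0, 0, 199206565,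 0, 0, 0, ⟨0, 0⟩, 0⟩ 0 0) (.pos 80 .mp ⟨55249586, 0, 0, 0, 0, 205055602, 0, 0, 0, ⟨0, 0⟩, 0⟩ 0 0))) (.pos 81 .mp ⟨192316820, 0, 0, 0, 0, 0, 0, 0, 0, ⟨0, 0⟩, 0⟩ 0 0)) (.pos 37 .mp ⟨59811355, 0, 0, 0, 0, 0, 0, 0, 0, ⟨0, 0⟩, 0⟩ 0 0)) (.pos 37 .mp ⟨59504650, 0, 0, 0, 0, 141297152, 0, 0, 0, ⟨0, 0⟩, 0⟩ 0 0))) (.pos 38 .mp ⟨199341377, 0, 0, 0, 0, 0, 0, 0, 0, ⟨0, 0⟩, 0⟩ 0 0))) (.cut .d (-32768) (.cut .d (-49152) (.cut .l 1016502 (.cut .d (-57344) (.cut .s 10682368 (.pos 35 .mp ⟨58913025, 0, 0, 0, 0, 157563613, 0, 0, 0, ⟨0, 0⟩, 0⟩ 0 0) (.cut .s 10780672 (.pos 35 .mp ⟨61380862, 0, 0, 0, 0, 174076965, 0, 0, 0, ⟨0, 0⟩, 0⟩ 0 0) (.pos 35 .mp ⟨63862703, 0, 0, 0, 0, 183326909,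 0, 0, 0, ⟨0, 0⟩, 0⟩ 0 0))) (.pos 35 .mp ⟨62235442, 0, 0, 0, 0, 125265756, 0, 0, 0, ⟨0, 0⟩, 0⟩ 0 0)) (.pos 35 .mp ⟨0, 0, 0, 0, 0, 0, 0, 0, 0, ⟨0, 0⟩, 0⟩ 0 0)) (.pos 35 .mp ⟨60610307, 0, 0, 0, 0, 0, 0, 0, 0, ⟨0, 0⟩, 0⟩ 0 0)) (.pos 35 .mp ⟨0, 0, 0, 0, 0, 0, 0, 0, 0, ⟨0, 0⟩, 0⟩ 0 0)))) (.cut .s 10682368 (.pos 36 .mp ⟨189624975, 0, 0, 0, 0, 0, 0, 0, 0, ⟨0, 0⟩, 0⟩ 0 0) (.pos 36 .mp ⟨205836851, 0, 0, 0, 0, 0, 0, 0, 0, ⟨0, 0⟩, 0⟩ 0 0))) (.pos 34 .mp ⟨202053735, 0, 0, 0, 0, 0, 0, 0, 0, ⟨0, 0⟩, 0⟩ 0 0)) (.pos 32 .mp ⟨214912961, 0, 0, 0, 0, 0, 0, 0, 0, ⟨0, 0⟩, 0⟩ 0 0)) (.void 30 ⟨100000, 0, 0, 0, 0, 0, 0, 0, 0, ⟨0, 0⟩, 0⟩ 0 0))))))) (.void 28 ⟨100000, 0, 0, 0, 0, 0, 0,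 0, 0, ⟨0, 0⟩, 0⟩ 0 0)))) (.void 26 ⟨100000, 0, 0, 0, 0, 0, 0, 0, 0, ⟨0, 0⟩, 0⟩ 0 0)) (.void 73 ⟨100000, 0, 0, 0, 0, 0, 0, 0, 0, ⟨0, 0⟩, 0⟩ 0 0)) (.void 84 ⟨100000, 0, 0, 0, 0, 0, 0, 0, 0, ⟨0, 0⟩, 0⟩ 0 0)) (.void 103 ⟨96557, 0, 0, 3443, 0, 0, 0, 0, 0, ⟨0, 0⟩, 0⟩ 0 0))) (.cut .v 16777216 (.cut .v 8388608 (.cut .v 4194304 (.cut .v 2097152 (.cut .v 1048576 (.void 108 ⟨0, 0, 19122, 0, 0, 0, 0, 0, 80878, ⟨0, 0⟩, 1983364⟩ 0 0) (.pos 109 .pm ⟨0, 0, 8609647, 0, 0, 0, 0, 0, 0, ⟨0, 0⟩, 0⟩ 0 0)) (.pos 7 .pm ⟨0, 3439164, 0, 0, 0, 0, 0, 0, 0, ⟨0, 0⟩, 0⟩ 0 0)) (.cut .d 5033166 (.pos 5 .pm ⟨0, 0, 0, 0, 0, 0, 0, 0, 0, ⟨0, 0⟩, 0⟩ 0 0) (.cut .d 7549749 (.pos 5 .pm ⟨0, 0, 0, 0,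 0, 0, 0, 0, 0, ⟨0, 0⟩, 0⟩ 0 0) (.cut .d 8808040 (.pos 5 .pm ⟨0, 60694152, 0, 0, 0, 0, 0, 0, 0, ⟨0, 0⟩, 0⟩ 0 0) (.pos 5 .pm ⟨0, 112114605, 0, 0, 0, 0, 0, 0, 0, ⟨0, 0⟩, 0⟩ 0 0))))) (.cut .d 5033166 (.pos 3 .pm ⟨0, 0, 0, 0, 0, 0, 0, 0, 0, ⟨0, 0⟩, 0⟩ 0 0) (.cut .d 7549749 (.pos 3 .pm ⟨0, 0, 0, 0, 0, 0, 0, 0, 0, ⟨0, 0⟩, 0⟩ 0 0) (.cut .d 8808040 (.pos 3 .pm ⟨0, 80215320, 0, 0, 0, 0, 0, 0, 0, ⟨0, 0⟩, 0⟩ 0 0) (.pos 3 .pm ⟨0, 144404739, 0, 0, 0, 0, 0, 0, 0, ⟨0, 0⟩, 0⟩ 0 0))))) (.cut .v 268435456 (.cut .d 5033166 (.cut .v 67108864 (.cut .d 2516583 (.cut .v 33554432 (.cut .v 25165824 (.cut .v 20971520 (.pos 27 .pp ⟨85191660, 0, 0, 0, 0, 0, 0, 0, 0, ⟨0, 0⟩, 0⟩ 0 0) (.pos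 28 .pp ⟨178046994, 0, 0, 0, 0, 0, 0, 0, 0, ⟨0, 0⟩, 0⟩ 0 0)) (.pos 26 .pp ⟨263561050, 0, 0, 0, 0, 0, 0, 0, 0, ⟨0, 0⟩, 0⟩ 0 0)) (.cut .d 1258291 (.cut .v 50331648 (.pos 74 .pp ⟨709826324, 0, 0, 0, 0, 0, 0, 0, 0, ⟨0, 0⟩, 0⟩ 0 0) (.void 75 ⟨100000, 0, 0, 0, 0, 0, 0, 0, 0, ⟨0, 0⟩, 0⟩ 0 0)) (.pos 73 .pp ⟨419653060, 0, 0, 0, 0, 0, 0, 0, 0, ⟨0, 0⟩, 0⟩ 0 0))) (.pos 72 .pp ⟨0, 0, 0, 0, 0, 0, 0, 0, 0, ⟨0, 0⟩, 0⟩ 0 0)) (.cut .v 134217728 (.cut .d 2516583 (.cut .v 100663296 (.cut .v 83886080 (.cut .d 1258291 (.void 95 ⟨100000, 0, 0, 0, 0, 0, 0, 0, 0, ⟨0, 0⟩, 0⟩ 0 0) (.pos 95 .pp ⟨1497700015, 0, 0, 0, 0, 0, 0, 0, 0, ⟨0, 0⟩, 0⟩ 0 0)) (.pos 96 .pp ⟨2805803758, 0, 0, 0, 0,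 0, 0, 0, 0, ⟨0, 0⟩, 0⟩ 0 0)) (.void 92 ⟨41769, 58231, 0, 0, 0, 0, 0, 0, 0, ⟨0, 0⟩, 0⟩ 0 0)) (.pos 89 .pp ⟨0, 395244814, 0, 0, 0, 0, 3056896, 0, 0, ⟨0, 0⟩, 0⟩ 0 0)) (.void 90 ⟨40138, 59862, 0, 0, 0, 0, 0, 0, 0, ⟨0, 0⟩, 0⟩ 0 0))) (.pos 83 .pp ⟨0, 115736278, 0, 0, 0, 0, 0, 0, 0, ⟨0, 0⟩, 0⟩ 0 0)) (.void 103 ⟨0, 0, 0, 100000, 0, 0, 0, 0, 0, ⟨0, 0⟩, 0⟩ 0 0)))),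
    by decide +kernel⟩

def covers15 : cell.Covers table row15.1 :=
  ⟨(.cut .d 0 (.cut .v 16777216 (.cut .d (-8388608) (.void 1 ⟨0, 0, 0, 0, 0, 100000, 0, 0, 0, ⟨0, 0⟩, 0⟩ 0 0) (.cut .d (-4194304) (.void 1 ⟨0, 0, 0, 0, 0, 100000, 0, 0, 0, ⟨0, 0⟩, 0⟩ 0 0) (.cut .d (-2097152) (.void 1 ⟨0, 0, 0, 0, 0, 100000, 0, 0, 0, ⟨0, 0⟩, 0⟩ 0 0) (.cut .d (-1048576) (.void 1 ⟨0, 0, 0, 0, 0, 100000, 0, 0, 0, ⟨0, 0⟩, 0⟩ 0 0) (.cut .d (-524288) (.void 1 ⟨0, 0, 0, 0, 0, 100000, 0, 0, 0, ⟨0, 0⟩, 0⟩ 0 0) (.cut .d (-262144) (.void 1 ⟨0, 0, 0, 0, 0, 100000, 0, 0, 0, ⟨0, 0⟩, 0⟩ 0 0) (.cut .d (-131072) (.void 1 ⟨0, 0, 0, 0, 0, 100000, 0, 0, 0, ⟨0, 0⟩, 0⟩ 0 0) (.cut .v 8388608 (.cut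 .v 4194304 (.void 4 ⟨0, 0, 100000, 0, 0, 0, 0, 0, 0, ⟨0, 0⟩, 0⟩ 0 0) (.pos 5 .mm ⟨0, 0, 0, 0, 0, 151933323, 0, 0, 0, ⟨0, 0⟩, 0⟩ 0 0)) (.cut .v 12582912 (.pos 8 .mm ⟨0, 0, 0, 0, 0, 232694701, 0, 0, 0, ⟨0, 0⟩, 0⟩ 0 0) (.cut .v 14680064 (.pos 12 .mm ⟨0, 0, 0, 0, 0, 275808343, 0, 0, 0, ⟨0, 0⟩, 0⟩ 0 0) (.cut .v 15728640 (.pos 16 .mm ⟨0, 0, 0, 0, 0, 300072031, 0, 0, 0, ⟨0, 0⟩, 0⟩ 0 0) (.cut .v 16252928 (.pos 20 .mm ⟨0, 0, 0, 0, 0, 312893810, 0, 0, 0, ⟨0, 0⟩, 0⟩ 0 0) (.cut .s 11108352 (.cut .d (-65536) (.pos 21 .mm ⟨0, 0, 0, 0, 0, 316122404, 0, 0, 0, ⟨0, 0⟩, 0⟩ 0 0) (.cut .s 10993664 (.pos 21 .mm ⟨0, 0, 0, 0, 0, 290637699, 0, 0, 0, ⟨0, 0⟩, 0⟩ 0 0) (.pos 21 .mm ⟨0,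 0, 0, 0, 0, 308356415, 0, 0, 0, ⟨0, 0⟩, 0⟩ 0 0))) (.cut .d (-65536) (.pos 21 .mm ⟨0, 0, 0, 0, 0, 354678198, 0, 0, 0, ⟨0, 0⟩, 0⟩ 0 0) (.cut .s 11223040 (.pos 21 .mm ⟨0, 0, 0, 0, 0, 326997508, 0, 0, 0, ⟨0, 0⟩, 0⟩ 0 0) (.pos 21 .mm ⟨0, 0, 0, 0, 0, 346533280, 0, 0, 0, ⟨0, 0⟩, 0⟩ 0 0)))))))))))))))) (.cut .v 268435456 (.cut .v 67108864 (.cut .v 33554432 (.cut .v 25165824 (.cut .d (-8388608) (.void 25 ⟨0, 0, 0, 0, 0, 100000, 0, 0, 0, ⟨0, 0⟩, 0⟩ 0 0) (.cut .d (-4194304) (.void 25 ⟨100000, 0, 0, 0, 0, 0, 0, 0, 0, ⟨0, 0⟩, 0⟩ 0 0) (.cut .v 20971520 (.cut .d (-2097152) (.void 27 ⟨100000, 0, 0, 0, 0, 0, 0, 0, 0, ⟨0, 0⟩, 0⟩ 0 0) (.cut .d (-1048576) (.void 27 ⟨100000, 0,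 0, 0, 0, 0, 0, 0, 0, ⟨0, 0⟩, 0⟩ 0 0) (.cut .d (-524288) (.void 27 ⟨100000, 0, 0, 0, 0, 0, 0, 0, 0, ⟨0, 0⟩, 0⟩ 0 0) (.cut .d (-262144) (.void 27 ⟨100000, 0, 0, 0, 0, 0, 0, 0, 0, ⟨0, 0⟩, 0⟩ 0 0) (.cut .d (-131072) (.void 27 ⟨0, 0, 0, 0, 0, 100000, 0, 0, 0, ⟨0, 0⟩, 0⟩ 0 0) (.cut .v 18874368 (.cut .v 17825792 (.cut .v 17301504 (.cut .d (-65536) (.cut .v 17039360 (.cut .d (-98304) (.void 35 ⟨0, 0, 0, 0, 0, 100000, 0, 0, 0, ⟨0, 0⟩, 0⟩ 0 0) (.cut .l 750040 (.void 35 ⟨0, 0, 0, 0, 0, 100000, 0, 0, 0, ⟨0, 0⟩, 0⟩ 0 0) (.cut .s 11108352 (.cut .s 10993664 (.cut .s 10936320 (.pos 35 .mp ⟨57329723, 0, 0, 0, 0, 218237658, 0, 0, 0, ⟨0, 0⟩, 0⟩ 0 0) (.cut .v 16908288 (.pos 37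 .mp ⟨33243071, 0, 0, 0, 0, 257036421, 0, 0, 0, ⟨0, 0⟩, 0⟩ 0 0) (.pos 38 .mp ⟨74996278, 0, 0, 0, 0, 198248847, 0, 0, 0, ⟨0, 0⟩, 0⟩ 0 0))) (.cut .s 11051008 (.cut .d (-81920) (.pos 35 .mp ⟨63616085, 0, 0, 0, 0, 227153853, 0, 0, 0, ⟨0, 0⟩, 0⟩ 0 0) (.cut .v 16908288 (.pos 37 .mp ⟨30446196, 0, 0, 0, 0, 269111331, 0, 0, 0, ⟨0, 0⟩, 0⟩ 0 0) (.pos 38 .mp ⟨73118409, 0, 0, 0, 0, 207488073, 0, 0, 0, ⟨0, 0⟩, 0⟩ 0 0))) (.cut .v 16908288 (.pos 37 .mp ⟨23597419, 0, 0, 0, 0, 287906508, 0, 0, 0, ⟨0, 0⟩, 0⟩ 0 0) (.cut .s 11079680 (.pos 38 .mp ⟨76051187, 0, 0, 0, 0, 210919345, 0, 0, 0, ⟨0, 0⟩, 0⟩ 0 0) (.pos 38 .mp ⟨77222064, 0, 0, 0, 0, 213647810, 0, 0, 0, ⟨0, 0⟩, 0⟩ 0 0)))))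 (.cut .s 11223040 (.cut .l 1016502 (.pos 35 .mp ⟨66351720, 0, 0, 0, 0, 250138270, 0, 0, 0, ⟨0, 0⟩, 0⟩ 0 0) (.cut .v 16908288 (.pos 37 .mp ⟨0, 0, 0, 0, 0, 332053019, 0, 0, 0, ⟨0, 0⟩, 0⟩ 0 0) (.cut .s 11165696 (.cut .s 11137024 (.pos 38 .mp ⟨75977592, 0, 0, 0, 0, 219657824, 0, 0, 0, ⟨0, 0⟩, 0⟩ 0 0) (.pos 38 .mp ⟨76866743, 0, 0, 0, 0, 222993451, 0, 0, 0, ⟨0, 0⟩, 0⟩ 0 0)) (.pos 38 .mp ⟨78647347, 0, 0, 0, 0, 227215704, 0, 0, 0, ⟨0, 0⟩, 0⟩ 0 0)))) (.cut .s 11280384 (.pos 35 .mp ⟨65393787, 0, 0, 0, 0, 260494467, 0, 0, 0, ⟨0, 0⟩, 0⟩ 0 0) (.pos 35 .mp ⟨66679650, 0, 0, 0, 0, 269144042, 0, 0, 0, ⟨0, 0⟩, 0⟩ 0 0)))))) (.pos 36 .mp ⟨251336960, 0, 0, 0, 0, 0, 0, 0, 0, ⟨0,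 0⟩, 0⟩ 0 0)) (.cut .v 17039360 (.cut .s 11108352 (.cut .s 10993664 (.cut .v 16908288 (.cut .s 10936320 (.cut .l 750040 (.cut .d (-32768) (.pos 37 .mp ⟨56555875, 0, 0, 0, 0, 215800945, 0, 0, 0, ⟨0, 0⟩, 0⟩ 0 0) (.cut .s 10907648 (.pos 37 .mp ⟨63771014, 0, 0, 0, 0, 195824472, 0, 0, 0, ⟨0, 0⟩, 0⟩ 0 0) (.pos 37 .mp ⟨64450066, 0, 0, 0, 0, 198919271, 0, 0, 0, ⟨0, 0⟩, 0⟩ 0 0))) (.pos 37 .mp ⟨64506005, 0, 0, 0, 0, 195587489, 0, 0, 0, ⟨0, 0⟩, 0⟩ 0 0)) (.cut .l 750040 (.cut .d (-32768) (.pos 37 .mp ⟨57774032, 0, 0, 0, 0, 221976105, 0, 0, 0, ⟨0, 0⟩, 0⟩ 0 0) (.cut .s 10964992 (.pos 37 .mp ⟨65127680, 0, 0, 0, 0, 202070983, 0, 0, 0, ⟨0, 0⟩, 0⟩ 0 0) (.pos 37 .mp ⟨65803860,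 0, 0, 0, 0, 205279153, 0, 0, 0, ⟨0, 0⟩, 0⟩ 0 0))) (.pos 37 .mp ⟨65996313, 0, 0, 0, 0, 201544536, 0, 0, 0, ⟨0, 0⟩, 0⟩ 0 0))) (.pos 38 .mp ⟨205636452, 0, 0, 0, 0, 0, 0, 0, 0, ⟨0, 0⟩, 0⟩ 0 0)) (.cut .s 11051008 (.cut .v 16908288 (.cut .d (-32768) (.cut .l 750040 (.cut .s 11022336 (.pos 37 .mp ⟨58975366, 0, 0, 0, 0, 225415754, 0, 0, 0, ⟨0, 0⟩, 0⟩ 0 0) (.pos 37 .mp ⟨59569646, 0, 0, 0, 0, 228851836, 0, 0, 0, ⟨0, 0⟩, 0⟩ 0 0)) (.pos 37 .mp ⟨52200883, 0, 0, 0, 0, 233632893, 0, 0, 0, ⟨0, 0⟩, 0⟩ 0 0)) (.cut .s 11022336 (.pos 37 .mp ⟨66478610, 0, 0, 0, 0, 208543330, 0, 0, 0, ⟨0, 0⟩, 0⟩ 0 0) (.pos 37 .mp ⟨67151934, 0, 0, 0, 0, 211863069, 0, 0, 0, ⟨0, 0⟩, 0⟩ 0 0))) (.pos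 38 .mp ⟨211303041, 0, 0, 0, 0, 0, 0, 0, 0, ⟨0, 0⟩, 0⟩ 0 0)) (.cut .v 16908288 (.cut .d (-32768) (.cut .l 750040 (.cut .s 11079680 (.pos 37 .mp ⟨60159626, 0, 0, 0, 0, 232400927, 0, 0, 0, ⟨0, 0⟩, 0⟩ 0 0) (.pos 37 .mp ⟨60745272, 0, 0, 0, 0, 236063696, 0, 0, 0, ⟨0, 0⟩, 0⟩ 0 0)) (.pos 37 .mp ⟨53222625, 0, 0, 0, 0, 240680857, 0, 0, 0, ⟨0, 0⟩, 0⟩ 0 0)) (.cut .d (-16384) (.cut .s 11079680 (.pos 37 .mp ⟨67823835, 0, 0, 0, 0, 216100662, 0, 0, 0, ⟨0, 0⟩, 0⟩ 0 0) (.pos 37 .mp ⟨68494317, 0, 0, 0, 0, 219514930, 0, 0, 0, ⟨0, 0⟩, 0⟩ 0 0)) (.pos 37 .mp ⟨64677270, 0, 0, 0, 0, 217105152, 0, 0, 0, ⟨0, 0⟩, 0⟩ 0 0))) (.pos 38 .mp ⟨216417436, 0, 0, 0, 0, 0, 0, 0, 0, ⟨0, 0⟩, 0⟩ 0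 0)))) (.cut .s 11223040 (.cut .l 750040 (.cut .v 16908288 (.cut .d (-32768) (.cut .l 483578 (.pos 37 .mp ⟨64903305, 0, 0, 0, 0, 249498464, 0, 0, 0, ⟨0, 0⟩, 0⟩ 0 0) (.cut .s 11165696 (.cut .s 11137024 (.pos 37 .mp ⟨61326551, 0, 0, 0, 0, 239084270, 0, 0, 0, ⟨0, 0⟩, 0⟩ 0 0) (.pos 37 .mp ⟨61903427, 0, 0, 0, 0, 242912827, 0, 0, 0, ⟨0, 0⟩, 0⟩ 0 0)) (.pos 37 .mp ⟨62475866, 0, 0, 0, 0, 249615138, 0, 0, 0, ⟨0, 0⟩, 0⟩ 0 0))) (.cut .d (-16384) (.cut .l 483578 (.cut .s 11165696 (.cut .s 11137024 (.pos 37 .mp ⟨69163385, 0, 0, 0, 0, 223755293, 0, 0, 0, ⟨0, 0⟩, 0⟩ 0 0) (.pos 37 .mp ⟨69831042, 0, 0, 0, 0, 227399080, 0, 0, 0, ⟨0, 0⟩, 0⟩ 0 0)) (.pos 37 .mp ⟨71162137, 0, 0, 0,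 0, 232371067, 0, 0, 0, ⟨0, 0⟩, 0⟩ 0 0)) (.pos 37 .mp ⟨66842967, 0, 0, 0, 0, 184306290, 0, 0, 0, ⟨0, 0⟩, 0⟩ 0 0)) (.pos 37 .mp ⟨67012922, 0, 0, 0, 0, 222791598, 0, 0, 0, ⟨0, 0⟩, 0⟩ 0 0))) (.pos 38 .mp ⟨240775011, 0, 0, 0, 0, 0, 0, 0, 0, ⟨0, 0⟩, 0⟩ 0 0)) (.cut .s 11165696 (.cut .s 11137024 (.pos 35 .mp ⟨70700837, 0, 0, 0, 0, 219706735, 0, 0, 0, ⟨0, 0⟩, 0⟩ 0 0) (.pos 35 .mp ⟨71454159, 0, 0, 0, 0, 223111743, 0, 0, 0, ⟨0, 0⟩, 0⟩ 0 0)) (.pos 35 .mp ⟨72957449, 0, 0, 0, 0, 226186883, 0, 0, 0, ⟨0, 0⟩, 0⟩ 0 0))) (.cut .l 750040 (.cut .v 16908288 (.cut .d (-32768) (.cut .s 11280384 (.pos 37 .mp ⟨63607283, 0, 0, 0, 0, 259605052, 0, 0, 0, ⟨0, 0⟩, 0⟩ 0 0) (.pos 37 .mp ⟨64720501,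 0, 0, 0, 0, 268518876, 0, 0, 0, ⟨0, 0⟩, 0⟩ 0 0)) (.cut .s 11280384 (.cut .s 11251712 (.pos 37 .mp ⟨71825584, 0, 0, 0, 0, 236620547, 0, 0, 0, ⟨0, 0⟩, 0⟩ 0 0) (.pos 37 .mp ⟨72487634, 0, 0, 0, 0, 240369300, 0, 0, 0, ⟨0, 0⟩, 0⟩ 0 0)) (.pos 37 .mp ⟨73807560, 0, 0, 0, 0, 245595094, 0, 0, 0, ⟨0, 0⟩, 0⟩ 0 0))) (.pos 38 .mp ⟨252206350, 0, 0, 0, 0, 0, 0, 0, 0, ⟨0, 0⟩, 0⟩ 0 0)) (.cut .s 11280384 (.pos 35 .mp ⟨74456336, 0, 0, 0, 0, 233181108, 0, 0, 0, ⟨0, 0⟩, 0⟩ 0 0) (.pos 35 .mp ⟨75950902, 0, 0, 0, 0, 240381827, 0, 0, 0, ⟨0, 0⟩, 0⟩ 0 0))))) (.pos 36 .mp ⟨226602920, 0, 0, 0, 0, 0, 0, 0, 0, ⟨0, 0⟩, 0⟩ 0 0))) (.pos 34 .mp ⟨246661940, 0, 0, 0, 0, 0, 0, 0, 0, ⟨0, 0⟩, 0⟩ 0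 0)) (.pos 32 .mp ⟨261588475, 0, 0, 0, 0, 0, 0, 0, 0, ⟨0, 0⟩, 0⟩ 0 0)) (.void 30 ⟨100000, 0, 0, 0, 0, 0, 0, 0, 0, ⟨0, 0⟩, 0⟩ 0 0))))))) (.void 28 ⟨100000, 0, 0, 0, 0, 0, 0, 0, 0, ⟨0, 0⟩, 0⟩ 0 0)))) (.void 26 ⟨100000, 0, 0, 0, 0, 0, 0, 0, 0, ⟨0, 0⟩, 0⟩ 0 0)) (.void 73 ⟨100000, 0, 0, 0, 0, 0, 0, 0, 0, ⟨0, 0⟩, 0⟩ 0 0)) (.void 84 ⟨100000, 0, 0, 0, 0, 0, 0, 0, 0, ⟨0, 0⟩, 0⟩ 0 0)) (.void 103 ⟨96414, 0, 0, 3586, 0, 0, 0, 0, 0, ⟨0, 0⟩, 0⟩ 0 0))) (.cut .v 16777216 (.cut .v 8388608 (.cut .v 4194304 (.cut .v 2097152 (.cut .v 1048576 (.pos 108 .pm ⟨0, 0, 31255079, 0, 0, 0, 0, 0, 60300625, ⟨0, 0⟩, 1983364⟩ 0 0) (.pos 109 .pm ⟨0, 0, 5492477, 0, 0, 0, 0, 0, 0, ⟨0, 0⟩, 0⟩ 0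 0)) (.pos 7 .pm ⟨0, 8679059, 0, 0, 0, 0, 0, 0, 0, ⟨0, 0⟩, 0⟩ 0 0)) (.cut .d 4548041 (.pos 5 .pm ⟨0, 0, 0, 0, 0, 0, 0, 0, 0, ⟨0, 0⟩, 0⟩ 0 0) (.cut .d 6822062 (.pos 5 .pm ⟨0, 0, 0, 0, 0, 0, 0, 0, 0, ⟨0, 0⟩, 0⟩ 0 0) (.cut .d 7959072 (.pos 5 .pm ⟨0, 74644483, 0, 0, 0, 0, 0, 0, 0, ⟨0, 0⟩, 0⟩ 0 0) (.pos 5 .pm ⟨0, 135009300, 0, 0, 0, 0, 0, 0, 0, ⟨0, 0⟩, 0⟩ 0 0))))) (.cut .d 4548041 (.pos 3 .pm ⟨0, 0, 0, 0, 0, 0, 0, 0, 0, ⟨0, 0⟩, 0⟩ 0 0) (.cut .d 6822062 (.pos 3 .pm ⟨0, 0, 0, 0, 0, 0, 0, 0, 0, ⟨0, 0⟩, 0⟩ 0 0) (.cut .d 7959072 (.pos 3 .pm ⟨0, 98643655, 0, 0, 0, 0, 0, 0, 0, ⟨0, 0⟩, 0⟩ 0 0) (.pos 3 .pm ⟨0, 174550114, 0, 0, 0, 0, 0, 0, 0, ⟨0, 0⟩, 0⟩ 0 0))))) (.cut .v 268435456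 (.cut .d 4548041 (.cut .v 67108864 (.cut .d 2274020 (.cut .v 33554432 (.cut .v 25165824 (.cut .v 20971520 (.pos 27 .pp ⟨101091187, 0, 0, 0, 0, 0, 0, 0, 0, ⟨0, 0⟩, 0⟩ 0 0) (.pos 28 .pp ⟨214295022, 0, 0, 0, 0, 0, 0, 0, 0, ⟨0, 0⟩, 0⟩ 0 0)) (.pos 26 .pp ⟨316944009, 0, 0, 0, 0, 0, 0, 0, 0, ⟨0, 0⟩, 0⟩ 0 0)) (.cut .d 1137010 (.cut .v 50331648 (.pos 74 .pp ⟨851105032, 0, 0, 0, 0, 0, 0, 0, 0, ⟨0, 0⟩, 0⟩ 0 0) (.void 75 ⟨100000, 0, 0, 0, 0, 0, 0, 0, 0, ⟨0, 0⟩, 0⟩ 0 0)) (.pos 73 .pp ⟨506700733, 0, 0, 0, 0, 0, 0, 0, 0, ⟨0, 0⟩, 0⟩ 0 0))) (.pos 72 .pp ⟨0, 0, 0, 0, 0, 0, 0, 0, 0, ⟨0, 0⟩, 0⟩ 0 0)) (.cut .v 134217728 (.cut .d 2274020 (.cut .v 100663296 (.cut .d 1137010 (.void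 91 ⟨100000, 0, 0, 0, 0, 0, 0, 0, 0, ⟨0, 0⟩, 0⟩ 0 0) (.cut .d 1705515 (.pos 91 .pp ⟨2898722865, 0, 0, 0, 0, 0, 0, 0, 0, ⟨0, 0⟩, 0⟩ 0 0) (.pos 91 .pp ⟨1809509960, 0, 0, 0, 0, 0, 0, 0, 0, ⟨0, 0⟩, 0⟩ 0 0))) (.void 92 ⟨40931, 59069, 0, 0, 0, 0, 0, 0, 0, ⟨0, 0⟩, 0⟩ 0 0)) (.pos 89 .pp ⟨0, 480732702, 0, 0, 0, 0, 0, 0, 0, ⟨0, 0⟩, 0⟩ 0 0)) (.void 90 ⟨39452, 60548, 0, 0, 0, 0, 0, 0, 0, ⟨0, 0⟩, 0⟩ 0 0))) (.pos 83 .pp ⟨0, 144341797, 0, 0, 0, 0, 0, 0, 0, ⟨0, 0⟩, 0⟩ 0 0)) (.void 103 ⟨0, 0, 0, 100000, 0, 0, 0, 0, 0, ⟨0, 0⟩, 0⟩ 0 0)))),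
    by decide +kernel⟩

def covers16 : cell.Covers table row16.1 :=
  ⟨(.cut .d 0 (.cut .v 16777216 (.cut .d (-8388608) (.void 1 ⟨0, 0, 0, 0, 0, 100000, 0, 0, 0, ⟨0, 0⟩, 0⟩ 0 0) (.cut .d (-4194304) (.void 1 ⟨0, 0, 0, 0, 0, 100000, 0, 0, 0, ⟨0, 0⟩, 0⟩ 0 0) (.cut .d (-2097152) (.void 1 ⟨0, 0, 0, 0, 0, 100000, 0, 0, 0, ⟨0, 0⟩, 0⟩ 0 0) (.cut .d (-1048576) (.void 1 ⟨0, 0, 0, 0, 0, 100000, 0, 0, 0, ⟨0, 0⟩, 0⟩ 0 0) (.cut .d (-524288) (.void 1 ⟨0, 0, 0, 0, 0, 100000, 0, 0, 0, ⟨0, 0⟩, 0⟩ 0 0) (.cut .d (-262144) (.void 1 ⟨0, 0, 0, 0, 0, 100000, 0, 0, 0, ⟨0, 0⟩, 0⟩ 0 0) (.cut .d (-131072) (.void 1 ⟨0, 0, 0, 0, 0, 100000, 0, 0, 0, ⟨0, 0⟩, 0⟩ 0 0) (.cut .v 8388608 (.cut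 .v 4194304 (.void 4 ⟨0, 0, 100000, 0, 0, 0, 0, 0, 0, ⟨0, 0⟩, 0⟩ 0 0) (.pos 5 .mm ⟨0, 0, 0, 0, 0, 185851562, 0, 0, 0, ⟨0, 0⟩, 0⟩ 0 0)) (.cut .d (-65536) (.pos 3 .mm ⟨0, 0, 0, 0, 0, 431842223, 0, 0, 0, ⟨0, 0⟩, 0⟩ 0 0) (.cut .v 12582912 (.pos 8 .mm ⟨0, 0, 0, 0, 0, 289083704, 0, 0, 0, ⟨0, 0⟩, 0⟩ 0 0) (.cut .v 14680064 (.pos 12 .mm ⟨0, 0, 0, 0, 0, 336738145, 0, 0, 0, ⟨0, 0⟩, 0⟩ 0 0) (.cut .v 15728640 (.pos 16 .mm ⟨0, 0, 0, 0, 0, 363549943, 0, 0, 0, ⟨0, 0⟩, 0⟩ 0 0) (.cut .v 16252928 (.pos 20 .mm ⟨0, 0, 0, 0, 0, 377721497, 0, 0, 0, ⟨0, 0⟩, 0⟩ 0 0) (.cut .v 16515072 (.pos 22 .mm ⟨0, 0, 0, 0, 0, 385000833, 0, 0, 0, ⟨0, 0⟩, 0⟩ 0 0) (.cut .s 11534336 (.cut .s 11436032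 (.pos 23 .mm ⟨0, 0, 0, 0, 0, 366346422, 0, 0, 0, ⟨0, 0⟩, 0⟩ 0 0) (.pos 23 .mm ⟨0, 0, 0, 0, 0, 384687262, 0, 0, 0, ⟨0, 0⟩, 0⟩ 0 0)) (.cut .s 11632640 (.pos 23 .mm ⟨0, 0, 0, 0, 0, 403830898, 0, 0, 0, ⟨0, 0⟩, 0⟩ 0 0) (.pos 23 .mm ⟨0, 0, 0, 0, 0, 423757318, 0, 0, 0, ⟨0, 0⟩, 0⟩ 0 0))))))))))))))))) (.cut .v 268435456 (.cut .v 67108864 (.cut .v 33554432 (.cut .d (-8388608) (.void 24 ⟨100000, 0, 0, 0, 0, 0, 0, 0, 0, ⟨0, 0⟩, 0⟩ 0 0) (.cut .v 25165824 (.cut .d (-4194304) (.void 25 ⟨100000, 0, 0, 0, 0, 0, 0, 0, 0, ⟨0, 0⟩, 0⟩ 0 0) (.cut .v 20971520 (.cut .d (-2097152) (.void 27 ⟨100000, 0, 0, 0, 0, 0, 0, 0, 0, ⟨0, 0⟩, 0⟩ 0 0) (.cut .d (-1048576) (.void 27 ⟨100000, 0,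 0, 0, 0, 0, 0, 0, 0, ⟨0, 0⟩, 0⟩ 0 0) (.cut .d (-524288) (.void 27 ⟨100000, 0, 0, 0, 0, 0, 0, 0, 0, ⟨0, 0⟩, 0⟩ 0 0) (.cut .d (-262144) (.void 27 ⟨100000, 0, 0, 0, 0, 0, 0, 0, 0, ⟨0, 0⟩, 0⟩ 0 0) (.cut .d (-131072) (.void 27 ⟨0, 0, 0, 0, 0, 100000, 0, 0, 0, ⟨0, 0⟩, 0⟩ 0 0) (.cut .v 18874368 (.cut .v 17825792 (.cut .v 17301504 (.cut .d (-65536) (.cut .v 17039360 (.cut .d (-98304) (.void 35 ⟨0, 0, 0, 0, 0, 100000, 0, 0, 0, ⟨0, 0⟩, 0⟩ 0 0) (.cut .l 750040 (.void 35 ⟨0, 0, 0, 0, 0, 100000, 0, 0, 0, ⟨0, 0⟩, 0⟩ 0 0) (.cut .d (-81920) (.pos 35 .mp ⟨72485258, 0, 0, 0, 0, 389873583, 0, 0, 0, ⟨0, 0⟩, 0⟩ 0 0) (.cut .l 1016502 (.pos 35 .mp ⟨71938246, 0, 0, 0, 0, 399996925,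 0, 0, 0, ⟨0, 0⟩, 0⟩ 0 0) (.cut .s 11534336 (.cut .s 11436032 (.pos 35 .mp ⟨67944725, 0, 0, 0, 0, 286952912, 0, 0, 0, ⟨0, 0⟩, 0⟩ 0 0) (.cut .v 16908288 (.pos 37 .mp ⟨0, 0, 0, 0, 0, 397469698, 0, 0, 0, ⟨0, 0⟩, 0⟩ 0 0) (.pos 38 .mp ⟨83591212, 0, 0, 0, 0, 274710889, 0, 0, 0, ⟨0, 0⟩, 0⟩ 0 0))) (.cut .s 11632640 (.cut .v 16908288 (.pos 37 .mp ⟨0, 0, 0, 0, 0, 413727305, 0, 0, 0, ⟨0, 0⟩, 0⟩ 0 0) (.cut .s 11583488 (.pos 38 .mp ⟨85054013, 0, 0, 0, 0, 283143441, 0, 0, 0, ⟨0, 0⟩, 0⟩ 0 0) (.pos 38 .mp ⟨86504884, 0, 0, 0, 0, 289988590, 0, 0, 0, ⟨0, 0⟩, 0⟩ 0 0))) (.cut .s 11681792 (.pos 35 .mp ⟨75091739, 0, 0, 0, 0, 320437002, 0, 0, 0, ⟨0, 0⟩, 0⟩ 0 0) (.pos 35 .mp ⟨76197727,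 0, 0, 0, 0, 328729151, 0, 0, 0, ⟨0, 0⟩, 0⟩ 0 0)))))))) (.pos 36 .mp ⟨310490466, 0, 0, 0, 0, 0, 0, 0, 0, ⟨0, 0⟩, 0⟩ 0 0)) (.cut .v 17039360 (.cut .s 11534336 (.cut .s 11436032 (.cut .v 16908288 (.cut .d (-32768) (.cut .l 750040 (.pos 37 .mp ⟨65812190, 0, 0, 0, 0, 284784778, 0, 0, 0, ⟨0, 0⟩, 0⟩ 0 0) (.pos 37 .mp ⟨57882819, 0, 0, 0, 0, 288940490, 0, 0, 0, ⟨0, 0⟩, 0⟩ 0 0)) (.cut .s 11386880 (.pos 37 .mp ⟨74956729, 0, 0, 0, 0, 254496307, 0, 0, 0, ⟨0, 0⟩, 0⟩ 0 0) (.cut .s 11411456 (.pos 37 .mp ⟨75527491, 0, 0, 0, 0, 259313166, 0, 0, 0, ⟨0, 0⟩, 0⟩ 0 0) (.pos 37 .mp ⟨76094744, 0, 0, 0, 0, 262800221, 0, 0, 0, ⟨0, 0⟩, 0⟩ 0 0)))) (.pos 38 .mp ⟨171184672, 0, 0, 0, 0, 124285160,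 0, 0, 0, ⟨0, 0⟩, 0⟩ 0 0)) (.cut .v 16908288 (.cut .d (-32768) (.cut .l 750040 (.cut .s 11485184 (.pos 37 .mp ⟨67834992, 0, 0, 0, 0, 290969115, 0, 0, 0, ⟨0, 0⟩, 0⟩ 0 0) (.pos 37 .mp ⟨68809236, 0, 0, 0, 0, 298266745, 0, 0, 0, ⟨0, 0⟩, 0⟩ 0 0)) (.cut .s 11485184 (.pos 37 .mp ⟨59640572, 0, 0, 0, 0, 298824137, 0, 0, 0, ⟨0, 0⟩, 0⟩ 0 0) (.cut .s 11509760 (.pos 37 .mp ⟨60466363, 0, 0, 0, 0, 304550119, 0, 0, 0, ⟨0, 0⟩, 0⟩ 0 0) (.pos 37 .mp ⟨60865673, 0, 0, 0, 0, 308391943, 0, 0, 0, ⟨0, 0⟩, 0⟩ 0 0)))) (.cut .d (-16384) (.cut .l 750040 (.cut .l 483578 (.cut .s 11485184 (.pos 37 .mp ⟨77218624, 0, 0, 0, 0, 270822577, 0, 0, 0, ⟨0, 0⟩, 0⟩ 0 0) (.pos 37 .mp ⟨78328155, 0, 0,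 0, 0, 277637444, 0, 0, 0, ⟨0, 0⟩, 0⟩ 0 0)) (.pos 37 .mp ⟨74034595, 0, 0, 0, 0, 272765983, 0, 0, 0, ⟨0, 0⟩, 0⟩ 0 0)) (.pos 37 .mp ⟨0, 0, 0, 0, 0, 0, 0, 0, 0, ⟨0, 0⟩, 0⟩ 0 0)) (.pos 37 .mp ⟨73132746, 0, 0, 0, 0, 272234922, 0, 0, 0, ⟨0, 0⟩, 0⟩ 0 0))) (.cut .s 11485184 (.pos 38 .mp ⟨126124556, 0, 0, 0, 0, 201560999, 0, 0, 0, ⟨0, 0⟩, 0⟩ 0 0) (.pos 38 .mp ⟨123106699, 0, 0, 0, 0, 214301573, 0, 0, 0, ⟨0, 0⟩, 0⟩ 0 0)))) (.cut .s 11632640 (.cut .s 11583488 (.cut .v 16908288 (.cut .d (-32768) (.cut .l 750040 (.pos 37 .mp ⟨69758084, 0, 0, 0, 0, 305999935, 0, 0, 0, ⟨0, 0⟩, 0⟩ 0 0) (.cut .s 11558912 (.pos 37 .mp ⟨61255800, 0, 0, 0, 0, 312347433, 0, 0, 0, ⟨0, 0⟩, 0⟩ 0 0)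 (.pos 37 .mp ⟨61636648, 0, 0, 0, 0, 316417254, 0, 0, 0, ⟨0, 0⟩, 0⟩ 0 0))) (.cut .d (-16384) (.cut .s 11558912 (.pos 37 .mp ⟨78877471, 0, 0, 0, 0, 281893888, 0, 0, 0, ⟨0, 0⟩, 0⟩ 0 0) (.pos 37 .mp ⟨79423116, 0, 0, 0, 0, 285607443, 0, 0, 0, ⟨0, 0⟩, 0⟩ 0 0)) (.pos 37 .mp ⟨74040285, 0, 0, 0, 0, 286070269, 0, 0, 0, ⟨0, 0⟩, 0⟩ 0 0))) (.pos 38 .mp ⟨122149089, 0, 0, 0, 0, 224454154, 0, 0, 0, ⟨0, 0⟩, 0⟩ 0 0)) (.cut .v 16908288 (.cut .d (-32768) (.cut .l 750040 (.pos 37 .mp ⟨70681045, 0, 0, 0, 0, 314173430, 0, 0, 0, ⟨0, 0⟩, 0⟩ 0 0) (.cut .s 11608064 (.pos 37 .mp ⟨62008121, 0, 0, 0, 0, 320602076, 0, 0, 0, ⟨0, 0⟩, 0⟩ 0 0) (.pos 37 .mp ⟨62370118, 0, 0, 0, 0, 324902570, 0,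 0, 0, ⟨0, 0⟩, 0⟩ 0 0))) (.cut .d (-16384) (.cut .s 11608064 (.pos 37 .mp ⟨79965061, 0, 0, 0, 0, 289458029, 0, 0, 0, ⟨0, 0⟩, 0⟩ 0 0) (.pos 37 .mp ⟨80503276, 0, 0, 0, 0, 293447234, 0, 0, 0, ⟨0, 0⟩, 0⟩ 0 0)) (.pos 37 .mp ⟨74926461, 0, 0, 0, 0, 293801494, 0, 0, 0, ⟨0, 0⟩, 0⟩ 0 0))) (.cut .s 11608064 (.pos 38 .mp ⟨103000629, 0, 0, 0, 0, 259889299, 0, 0, 0, ⟨0, 0⟩, 0⟩ 0 0) (.pos 38 .mp ⟨104187506, 0, 0, 0, 0, 262903570, 0, 0, 0, ⟨0, 0⟩, 0⟩ 0 0)))) (.cut .s 11681792 (.cut .v 16908288 (.cut .d (-32768) (.cut .l 750040 (.pos 37 .mp ⟨71577606, 0, 0, 0, 0, 322792009, 0, 0, 0, ⟨0, 0⟩, 0⟩ 0 0) (.pos 37 .mp ⟨62722536, 0, 0, 0, 0, 330702292, 0, 0, 0, ⟨0, 0⟩, 0⟩ 0 0)) (.cut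 .d (-16384) (.cut .s 11657216 (.pos 37 .mp ⟨81037730, 0, 0, 0, 0, 297576665, 0, 0, 0, ⟨0, 0⟩, 0⟩ 0 0) (.pos 37 .mp ⟨81568393, 0, 0, 0, 0, 301847949, 0, 0, 0, ⟨0, 0⟩, 0⟩ 0 0)) (.pos 37 .mp ⟨75790859, 0, 0, 0, 0, 301746354, 0, 0, 0, ⟨0, 0⟩, 0⟩ 0 0))) (.pos 38 .mp ⟨126909561, 0, 0, 0, 0, 236155392, 0, 0, 0, ⟨0, 0⟩, 0⟩ 0 0)) (.cut .v 16908288 (.cut .d (-32768) (.cut .l 750040 (.pos 37 .mp ⟨72447235, 0, 0, 0, 0, 331860489, 0, 0, 0, ⟨0, 0⟩, 0⟩ 0 0) (.pos 37 .mp ⟨63398222, 0, 0, 0, 0, 339822022, 0, 0, 0, ⟨0, 0⟩, 0⟩ 0 0)) (.cut .s 11706368 (.pos 37 .mp ⟨82095233, 0, 0, 0, 0, 304555626, 0, 0, 0, ⟨0, 0⟩, 0⟩ 0 0) (.pos 37 .mp ⟨82618216, 0, 0, 0, 0, 308654258, 0, 0, 0,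 ⟨0, 0⟩, 0⟩ 0 0))) (.pos 38 .mp ⟨132885160, 0, 0, 0, 0, 237262995, 0, 0, 0, ⟨0, 0⟩, 0⟩ 0 0))))) (.pos 36 .mp ⟨275174442, 0, 0, 0, 0, 0, 0, 0, 0, ⟨0, 0⟩, 0⟩ 0 0))) (.pos 34 .mp ⟨298928646, 0, 0, 0, 0, 0, 0, 0, 0, ⟨0, 0⟩, 0⟩ 0 0)) (.pos 32 .mp ⟨316852950, 0, 0, 0, 0, 0, 0, 0, 0, ⟨0, 0⟩, 0⟩ 0 0)) (.void 30 ⟨100000, 0, 0, 0, 0, 0, 0, 0, 0, ⟨0, 0⟩, 0⟩ 0 0))))))) (.void 28 ⟨100000, 0, 0, 0, 0, 0, 0, 0, 0, ⟨0, 0⟩, 0⟩ 0 0))) (.void 26 ⟨100000, 0, 0, 0, 0, 0, 0, 0, 0, ⟨0, 0⟩, 0⟩ 0 0))) (.void 73 ⟨100000, 0, 0, 0, 0, 0, 0, 0, 0, ⟨0, 0⟩, 0⟩ 0 0)) (.void 84 ⟨100000, 0, 0, 0, 0, 0, 0, 0, 0, ⟨0, 0⟩, 0⟩ 0 0)) (.void 103 ⟨96284, 0, 0, 3716, 0, 0, 0, 0, 0, ⟨0, 0⟩, 0⟩ 0 0)))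 (.cut .v 16777216 (.cut .v 8388608 (.cut .v 4194304 (.cut .v 2097152 (.cut .v 1048576 (.pos 108 .pm ⟨0, 0, 15871918, 0, 0, 0, 0, 0, 0, ⟨0, 0⟩, 0⟩ 0 0) (.pos 109 .pm ⟨0, 0, 3748937, 0, 0, 0, 0, 0, 0, ⟨0, 0⟩, 0⟩ 0 0)) (.cut .d 4024593 (.pos 7 .pm ⟨0, 0, 38535162, 0, 0, 0, 0, 0, 0, ⟨0, 0⟩, 0⟩ 0 0) (.pos 7 .pm ⟨0, 47701016, 0, 0, 0, 0, 0, 0, 0, ⟨0, 0⟩, 0⟩ 0 0))) (.cut .d 4024593 (.pos 5 .pm ⟨0, 0, 0, 0, 0, 0, 0, 0, 0, ⟨0, 0⟩, 0⟩ 0 0) (.cut .d 6036890 (.pos 5 .pm ⟨0, 0, 0, 0, 0, 0, 0, 0, 0, ⟨0, 0⟩, 0⟩ 0 0) (.cut .d 7043038 (.pos 5 .pm ⟨0, 83681093, 0, 0, 0, 0, 0, 0, 0, ⟨0, 0⟩, 0⟩ 0 0) (.pos 5 .pm ⟨0, 148287385, 0, 0, 0, 0, 0, 0, 0, ⟨0, 0⟩, 0⟩ 0 0))))) (.cut .d 4024593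 (.pos 3 .pm ⟨0, 0, 0, 0, 0, 0, 0, 0, 0, ⟨0, 0⟩, 0⟩ 0 0) (.cut .d 6036890 (.pos 3 .pm ⟨0, 0, 0, 0, 0, 0, 0, 0, 0, ⟨0, 0⟩, 0⟩ 0 0) (.cut .d 7043038 (.pos 3 .pm ⟨0, 117391645, 0, 0, 0, 0, 0, 0, 0, ⟨0, 0⟩, 0⟩ 0 0) (.pos 3 .pm ⟨0, 193756258, 0, 0, 0, 0, 0, 0, 0, ⟨0, 0⟩, 0⟩ 0 0))))) (.cut .v 268435456 (.cut .d 4024593 (.cut .v 67108864 (.cut .d 2012296 (.cut .v 33554432 (.cut .v 25165824 (.pos 25 .pp ⟨178757542, 0, 0, 0, 0, 0, 0, 0, 0, ⟨0, 0⟩, 0⟩ 0 0) (.pos 26 .pp ⟨381538689, 0, 0, 0, 0, 0, 0, 0, 0, ⟨0, 0⟩, 0⟩ 0 0)) (.cut .d 1006148 (.cut .v 50331648 (.pos 74 .pp ⟨997153492, 0, 0, 0, 0, 0, 0, 0, 0, ⟨0, 0⟩, 0⟩ 0 0) (.void 75 ⟨100000, 0, 0, 0, 0, 0, 0, 0, 0, ⟨0, 0⟩,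 0⟩ 0 0)) (.pos 73 .pp ⟨618537340, 0, 0, 0, 0, 0, 0, 0, 0, ⟨0, 0⟩, 0⟩ 0 0))) (.pos 72 .pp ⟨0, 0, 0, 0, 0, 0, 0, 0, 0, ⟨0, 0⟩, 0⟩ 0 0)) (.cut .v 134217728 (.cut .d 2012296 (.cut .v 100663296 (.cut .d 1006148 (.void 91 ⟨100000, 0, 0, 0, 0, 0, 0, 0, 0, ⟨0, 0⟩, 0⟩ 0 0) (.cut .d 1509222 (.pos 91 .pp ⟨3403002852, 0, 0, 0, 0, 0, 0, 0, 0, ⟨0, 0⟩, 0⟩ 0 0) (.pos 91 .pp ⟨2171770798, 0, 0, 0, 0, 0, 0, 0, 0, ⟨0, 0⟩, 0⟩ 0 0))) (.pos 92 .pp ⟨6802738655, 4013695536, 0, 0, 0, 0, 0, 0, 0, ⟨0, 0⟩, 0⟩ 0 0)) (.pos 89 .pp ⟨0, 596008834, 0, 0, 0, 0, 0, 0, 0, ⟨0, 0⟩, 0⟩ 0 0)) (.void 90 ⟨38969, 61031, 0, 0, 0, 0, 0, 0, 0, ⟨0, 0⟩, 0⟩ 0 0))) (.pos 83 .pp ⟨0, 167780338, 0, 0, 0, 0, 0,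 0, 0, ⟨0, 0⟩, 0⟩ 0 0)) (.void 103 ⟨0, 0, 0, 100000, 0, 0, 0, 0, 0, ⟨0, 0⟩, 0⟩ 0 0)))),
    by decide +kernel⟩

def covers17 : cell.Covers table row17.1 :=
  ⟨(.cut .d 0 (.cut .v 16777216 (.cut .d (-8388608) (.void 1 ⟨0, 0, 0, 0, 0, 100000, 0, 0, 0, ⟨0, 0⟩, 0⟩ 0 0) (.cut .d (-4194304) (.void 1 ⟨0, 0, 0, 0, 0, 100000, 0, 0, 0, ⟨0, 0⟩, 0⟩ 0 0) (.cut .d (-2097152) (.void 1 ⟨0, 0, 0, 0, 0, 100000, 0, 0, 0, ⟨0, 0⟩, 0⟩ 0 0) (.cut .d (-1048576) (.void 1 ⟨0, 0, 0, 0, 0, 100000, 0, 0, 0, ⟨0, 0⟩, 0⟩ 0 0) (.cut .d (-524288) (.void 1 ⟨0, 0, 0, 0, 0, 100000, 0, 0, 0, ⟨0, 0⟩, 0⟩ 0 0) (.cut .d (-262144) (.void 1 ⟨0, 0, 0, 0, 0, 100000, 0, 0, 0, ⟨0, 0⟩, 0⟩ 0 0) (.cut .d (-131072)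 (.void 1 ⟨0, 0, 0, 0, 0, 100000, 0, 0, 0, ⟨0, 0⟩, 0⟩ 0 0) (.cut .v 8388608 (.cut .v 4194304 (.void 4 ⟨0, 0, 100000, 0, 0, 0, 0, 0, 0, ⟨0, 0⟩, 0⟩ 0 0) (.pos 5 .mm ⟨0, 0, 1562672, 0, 0, 239973854, 0, 0, 0, ⟨0, 0⟩, 0⟩ 0 0)) (.cut .d (-65536) (.pos 3 .mm ⟨0, 0, 0, 0, 0, 557121676, 0, 0, 0, ⟨0, 0⟩, 0⟩ 0 0) (.cut .v 12582912 (.pos 8 .mm ⟨0, 0, 0, 0, 0, 358220077, 0, 0, 0, ⟨0, 0⟩, 0⟩ 0 0) (.cut .v 14680064 (.pos 12 .mm ⟨0, 0, 0, 0, 0, 426311395, 0, 0, 0, ⟨0, 0⟩, 0⟩ 0 0) (.cut .v 15728640 (.pos 16 .mm ⟨0, 0, 0, 0, 0, 456981968, 0, 0, 0, ⟨0, 0⟩, 0⟩ 0 0) (.cut .v 16252928 (.pos 20 .mm ⟨0, 0, 0, 0, 0, 473247197, 0, 0, 0, ⟨0, 0⟩, 0⟩ 0 0) (.cut .s 11993088 (.cut .v 16515072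 (.pos 22 .mm ⟨0, 0, 0, 0, 0, 454064916, 0, 0, 0, ⟨0, 0⟩, 0⟩ 0 0) (.cut .s 11862016 (.cut .s 11796480 (.pos 23 .mm ⟨0, 0, 0, 0, 0, 439800576, 0, 0, 0, ⟨0, 0⟩, 0⟩ 0 0) (.pos 23 .mm ⟨0, 0, 0, 0, 0, 454006302, 0, 0, 0, ⟨0, 0⟩, 0⟩ 0 0)) (.cut .s 11927552 (.pos 23 .mm ⟨0, 0, 0, 0, 0, 468660899, 0, 0, 0, ⟨0, 0⟩, 0⟩ 0 0) (.pos 23 .mm ⟨0, 0, 0, 0, 0, 483757049, 0, 0, 0, ⟨0, 0⟩, 0⟩ 0 0)))) (.cut .v 16515072 (.pos 22 .mm ⟨0, 0, 0, 0, 0, 513863464, 0, 0, 0, ⟨0, 0⟩, 0⟩ 0 0) (.cut .s 12124160 (.cut .s 12058624 (.pos 23 .mm ⟨0, 0, 0, 0, 0, 499287589, 0, 0, 0, ⟨0, 0⟩, 0⟩ 0 0) (.pos 23 .mm ⟨0, 0, 0, 0, 0, 515245511, 0, 0, 0, ⟨0, 0⟩, 0⟩ 0 0)) (.cut .s 12189696 (.pos 23 .mm ⟨0,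 0, 0, 0, 0, 531623959, 0, 0, 0, ⟨0, 0⟩, 0⟩ 0 0) (.pos 23 .mm ⟨0, 0, 0, 0, 0, 548416219, 0, 0, 0, ⟨0, 0⟩, 0⟩ 0 0)))))))))))))))))) (.cut .v 268435456 (.cut .v 67108864 (.cut .v 33554432 (.cut .d (-8388608) (.void 24 ⟨100000, 0, 0, 0, 0, 0, 0, 0, 0, ⟨0, 0⟩, 0⟩ 0 0) (.cut .v 25165824 (.cut .d (-4194304) (.void 25 ⟨100000, 0, 0, 0, 0, 0, 0, 0, 0, ⟨0, 0⟩, 0⟩ 0 0) (.cut .v 20971520 (.cut .d (-2097152) (.void 27 ⟨100000, 0, 0, 0, 0, 0, 0, 0, 0, ⟨0, 0⟩, 0⟩ 0 0) (.cut .d (-1048576) (.void 27 ⟨100000, 0, 0, 0, 0, 0, 0, 0, 0, ⟨0, 0⟩, 0⟩ 0 0) (.cut .d (-524288) (.void 27 ⟨100000, 0, 0, 0, 0, 0, 0, 0, 0, ⟨0, 0⟩, 0⟩ 0 0) (.cut .d (-262144) (.void 27 ⟨100000, 0, 0, 0, 0,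 0, 0, 0, 0, ⟨0, 0⟩, 0⟩ 0 0) (.cut .d (-131072) (.void 27 ⟨100000, 0, 0, 0, 0, 0, 0, 0, 0, ⟨0, 0⟩, 0⟩ 0 0) (.cut .v 18874368 (.cut .v 17825792 (.cut .v 17301504 (.cut .d (-65536) (.cut .v 17039360 (.cut .d (-98304) (.void 35 ⟨0, 0, 0, 0, 0, 100000, 0, 0, 0, ⟨0, 0⟩, 0⟩ 0 0) (.cut .l 750040 (.void 35 ⟨100000, 0, 0, 0, 0, 0, 0, 0, 0, ⟨0, 0⟩, 0⟩ 0 0) (.cut .d (-81920) (.void 35 ⟨0, 0, 0, 0, 0, 100000, 0, 0, 0, ⟨0, 0⟩, 0⟩ 0 0) (.cut .l 1016502 (.void 35 ⟨0, 0, 0, 0, 0, 100000, 0, 0, 0, ⟨0, 0⟩, 0⟩ 0 0) (.cut .s 11993088 (.cut .d (-73728) (.pos 35 .mp ⟨80316980, 0, 0, 0, 0, 450075374, 0, 0, 0, ⟨0, 0⟩, 0⟩ 0 0) (.cut .v 16908288 (.pos 37 .mp ⟨0, 0, 0, 0, 0, 489905419,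 0, 0, 0, ⟨0, 0⟩, 0⟩ 0 0) (.cut .s 11862016 (.pos 38 .mp ⟨89167244, 0, 0, 0, 0, 334639176, 0, 0, 0, ⟨0, 0⟩, 0⟩ 0 0) (.cut .l 1149733 (.void 38 ⟨0, 0, 0, 0, 0, 100000, 0, 0, 0, ⟨0, 0⟩, 0⟩ 0 0) (.cut .s 11927552 (.cut .s 11894784 (.pos 38 .mp ⟨87334300, 0, 0, 0, 0, 345760307, 0, 0, 0, ⟨0, 0⟩, 0⟩ 0 0) (.pos 38 .mp ⟨89069263, 0, 0, 0, 0, 349060135, 0, 0, 0, ⟨0, 0⟩, 0⟩ 0 0)) (.pos 38 .mp ⟨91031218, 0, 0, 0, 0, 355848967, 0, 0, 0, ⟨0, 0⟩, 0⟩ 0 0)))))) (.pos 35 .mp ⟨83284828, 0, 0, 0, 0, 417133921, 0, 0, 0, ⟨0, 0⟩, 0⟩ 0 0)))))) (.pos 36 .mp ⟨378667615, 0, 0, 0, 0, 0, 0, 0, 0, ⟨0, 0⟩, 0⟩ 0 0)) (.cut .v 17039360 (.cut .s 11993088 (.cut .s 11862016 (.cut .s 11796480 (.cut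 .v 16908288 (.cut .d (-32768) (.cut .s 11763712 (.pos 37 .mp ⟨64056621, 0, 0, 0, 0, 351516919, 0, 0, 0, ⟨0, 0⟩, 0⟩ 0 0) (.cut .s 11780096 (.pos 37 .mp ⟨66733101, 0, 0, 0, 0, 351300406, 0, 0, 0, ⟨0, 0⟩, 0⟩ 0 0) (.pos 37 .mp ⟨65657405, 0, 0, 0, 0, 356269527, 0, 0, 0, ⟨0, 0⟩, 0⟩ 0 0))) (.cut .d (-16384) (.cut .s 11763712 (.pos 37 .mp ⟨83346020, 0, 0, 0, 0, 315839730, 0, 0, 0, ⟨0, 0⟩, 0⟩ 0 0) (.cut .s 11780096 (.pos 37 .mp ⟨83654804, 0, 0, 0, 0, 320254300, 0, 0, 0, ⟨0, 0⟩, 0⟩ 0 0) (.pos 37 .mp ⟨84044218, 0, 0, 0, 0, 322670012, 0, 0, 0, ⟨0, 0⟩, 0⟩ 0 0))) (.pos 37 .mp ⟨77770182, 0, 0, 0, 0, 321545525, 0, 0, 0, ⟨0, 0⟩, 0⟩ 0 0))) (.pos 38 .mp ⟨152138581, 0, 0, 0, 0,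 220718076, 0, 0, 0, ⟨0, 0⟩, 0⟩ 0 0)) (.cut .v 16908288 (.cut .d (-32768) (.cut .l 750040 (.pos 37 .mp ⟨74509456, 0, 0, 0, 0, 356223802, 0, 0, 0, ⟨0, 0⟩, 0⟩ 0 0) (.cut .v 16842752 (.pos 80 .mp ⟨0, 0, 0, 0, 0, 457856751, 0, 0, 0, ⟨0, 0⟩, 0⟩ 0 0) (.cut .d (-49152) (.cut .s 11829248 (.pos 81 .mp ⟨71947652, 0, 0, 0, 0, 352394224, 0, 0, 0, ⟨0, 0⟩, 0⟩ 0 0) (.pos 81 .mp ⟨72564332, 0, 0, 0, 0, 357997706, 0, 0, 0, ⟨0, 0⟩, 0⟩ 0 0)) (.pos 81 .mp ⟨82899657, 0, 0, 0, 0, 331992401, 0, 0, 0, ⟨0, 0⟩, 0⟩ 0 0)))) (.cut .l 750040 (.cut .l 483578 (.cut .v 16842752 (.cut .d (-16384) (.cut .s 11829248 (.pos 80 .mp ⟨72361473, 0, 0, 0, 0, 348452960, 0, 0, 0, ⟨0, 0⟩, 0⟩ 0 0) (.pos 80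 .mp ⟨72831101, 0, 0, 0, 0, 354408786, 0, 0, 0, ⟨0, 0⟩, 0⟩ 0 0)) (.cut .s 11829248 (.pos 80 .mp ⟨77640765, 0, 0, 0, 0, 332355440, 0, 0, 0, ⟨0, 0⟩, 0⟩ 0 0) (.pos 80 .mp ⟨78149994, 0, 0, 0, 0, 338315820, 0, 0, 0, ⟨0, 0⟩, 0⟩ 0 0))) (.pos 81 .mp ⟨316887157, 0, 0, 0, 0, 0, 0, 0, 0, ⟨0, 0⟩, 0⟩ 0 0)) (.pos 37 .mp ⟨80506677, 0, 0, 0, 0, 330251470, 0, 0, 0, ⟨0, 0⟩, 0⟩ 0 0)) (.pos 37 .mp ⟨0, 0, 0, 0, 0, 0, 0, 0, 0, ⟨0, 0⟩, 0⟩ 0 0))) (.cut .s 11829248 (.pos 38 .mp ⟨119647117, 0, 0, 0, 0, 278590371, 0, 0, 0, ⟨0, 0⟩, 0⟩ 0 0) (.cut .s 11845632 (.pos 38 .mp ⟨101025513, 0, 0, 0, 0, 311516534, 0, 0, 0, ⟨0, 0⟩, 0⟩ 0 0) (.pos 38 .mp ⟨100918659, 0, 0, 0, 0, 315124481, 0, 0, 0,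 ⟨0, 0⟩, 0⟩ 0 0))))) (.cut .s 11927552 (.cut .v 16908288 (.cut .d (-32768) (.cut .l 750040 (.cut .s 11894784 (.pos 37 .mp ⟨75631792, 0, 0, 0, 0, 362221071, 0, 0, 0, ⟨0, 0⟩, 0⟩ 0 0) (.pos 37 .mp ⟨76162863, 0, 0, 0, 0, 368678007, 0, 0, 0, ⟨0, 0⟩, 0⟩ 0 0)) (.cut .v 16842752 (.pos 80 .mp ⟨0, 0, 0, 0, 0, 471859615, 0, 0, 0, ⟨0, 0⟩, 0⟩ 0 0) (.cut .s 11894784 (.cut .s 11878400 (.pos 81 .mp ⟨66591260, 0, 0, 0, 0, 370979256, 0, 0, 0, ⟨0, 0⟩, 0⟩ 0 0) (.pos 81 .mp ⟨66801714, 0, 0, 0, 0, 374215766, 0, 0, 0, ⟨0, 0⟩, 0⟩ 0 0)) (.cut .s 11911168 (.pos 81 .mp ⟨67005421, 0, 0, 0, 0, 377520468, 0, 0, 0, ⟨0, 0⟩, 0⟩ 0 0) (.pos 81 .mp ⟨67202327, 0, 0, 0, 0, 380893650, 0, 0, 0, ⟨0,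 0⟩, 0⟩ 0 0))))) (.cut .l 750040 (.cut .d (-16384) (.cut .l 483578 (.cut .s 11894784 (.pos 37 .mp ⟨73943084, 0, 0, 0, 0, 361847497, 0, 0, 0, ⟨0, 0⟩, 0⟩ 0 0) (.pos 37 .mp ⟨74380939, 0, 0, 0, 0, 368335151, 0, 0, 0, ⟨0, 0⟩, 0⟩ 0 0)) (.pos 37 .mp ⟨81678593, 0, 0, 0, 0, 343835619, 0, 0, 0, ⟨0, 0⟩, 0⟩ 0 0)) (.cut .s 11894784 (.pos 37 .mp ⟨79325554, 0, 0, 0, 0, 343439332, 0, 0, 0, ⟨0, 0⟩, 0⟩ 0 0) (.pos 37 .mp ⟨79809212, 0, 0, 0, 0, 349645734, 0, 0, 0, ⟨0, 0⟩, 0⟩ 0 0))) (.pos 37 .mp ⟨0, 0, 0, 0, 0, 0, 0, 0, 0, ⟨0, 0⟩, 0⟩ 0 0))) (.cut .d (-32768) (.cut .d (-49152) (.cut .l 750040 (.void 38 ⟨100000, 0, 0, 0, 0, 0, 0, 0, 0, ⟨0, 0⟩, 0⟩ 0 0) (.cut .s 11894784 (.pos 38 .mp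 ⟨98067751, 0, 0, 0, 0, 325754609, 0, 0, 0, ⟨0, 0⟩, 0⟩ 0 0) (.pos 38 .mp ⟨96959539, 0, 0, 0, 0, 334460815, 0, 0, 0, ⟨0, 0⟩, 0⟩ 0 0))) (.pos 38 .mp ⟨303640255, 0, 0, 0, 0, 0, 0, 0, 0, ⟨0, 0⟩, 0⟩ 0 0)) (.pos 38 .mp ⟨301413262, 0, 0, 0, 0, 0, 0, 0, 0, ⟨0, 0⟩, 0⟩ 0 0))) (.cut .v 16908288 (.cut .d (-32768) (.cut .v 16842752 (.pos 80 .mp ⟨0, 0, 0, 0, 0, 494996329, 0, 0, 0, ⟨0, 0⟩, 0⟩ 0 0) (.cut .l 750040 (.cut .s 11960320 (.pos 81 .mp ⟨77367171, 0, 0, 0, 0, 374352244, 0, 0, 0, ⟨0, 0⟩, 0⟩ 0 0) (.pos 81 .mp ⟨77866486, 0, 0, 0, 0, 381321437, 0, 0, 0, ⟨0, 0⟩, 0⟩ 0 0)) (.cut .d (-49152) (.cut .s 11960320 (.pos 81 .mp ⟨74277195, 0, 0, 0, 0, 376637517, 0, 0, 0, ⟨0, 0⟩, 0⟩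 0 0) (.pos 81 .mp ⟨74801226, 0, 0, 0, 0, 383473438, 0, 0, 0, ⟨0, 0⟩, 0⟩ 0 0)) (.pos 81 .mp ⟨85591600, 0, 0, 0, 0, 354551697, 0, 0, 0, ⟨0, 0⟩, 0⟩ 0 0)))) (.cut .l 750040 (.cut .l 483578 (.cut .v 16842752 (.cut .d (-16384) (.cut .s 11960320 (.pos 80 .mp ⟨74116845, 0, 0, 0, 0, 373830820, 0, 0, 0, ⟨0, 0⟩, 0⟩ 0 0) (.pos 80 .mp ⟨74503292, 0, 0, 0, 0, 380829926, 0, 0, 0, ⟨0, 0⟩, 0⟩ 0 0)) (.cut .s 11960320 (.pos 80 .mp ⟨79572721, 0, 0, 0, 0, 356982493, 0, 0, 0, ⟨0, 0⟩, 0⟩ 0 0) (.pos 80 .mp ⟨80011060, 0, 0, 0, 0, 363465585, 0, 0, 0, ⟨0, 0⟩, 0⟩ 0 0))) (.pos 81 .mp ⟨333192788, 0, 0, 0, 0, 0, 0, 0, 0, ⟨0, 0⟩, 0⟩ 0 0)) (.pos 37 .mp ⟨82781032, 0, 0, 0, 0, 353842219, 0, 0,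 0, ⟨0, 0⟩, 0⟩ 0 0)) (.pos 37 .mp ⟨0, 0, 0, 0, 0, 0, 0, 0, 0, ⟨0, 0⟩, 0⟩ 0 0))) (.cut .s 11960320 (.cut .s 11943936 (.pos 38 .mp ⟨102906513, 0, 0, 0, 0, 330013905, 0, 0, 0, ⟨0, 0⟩, 0⟩ 0 0) (.pos 38 .mp ⟨103828740, 0, 0, 0, 0, 332325286, 0, 0, 0, ⟨0, 0⟩, 0⟩ 0 0)) (.pos 38 .mp ⟨123176914, 0, 0, 0, 0, 308440646, 0, 0, 0, ⟨0, 0⟩, 0⟩ 0 0))))) (.cut .s 12124160 (.cut .s 12058624 (.cut .v 16908288 (.cut .d (-32768) (.cut .s 12025856 (.cut .s 12009472 (.pos 37 .mp ⟨67394727, 0, 0, 0, 0, 401119211, 0, 0, 0, ⟨0, 0⟩, 0⟩ 0 0) (.pos 37 .mp ⟨67545069, 0, 0, 0, 0, 405029251, 0, 0, 0, ⟨0, 0⟩, 0⟩ 0 0)) (.pos 37 .mp ⟨67688212, 0, 0, 0, 0, 411327489, 0, 0, 0, ⟨0, 0⟩, 0⟩ 0 0))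 (.cut .d (-16384) (.cut .s 12025856 (.cut .s 12009472 (.pos 37 .mp ⟨88253547, 0, 0, 0, 0, 362366283, 0, 0, 0, ⟨0, 0⟩, 0⟩ 0 0) (.pos 37 .mp ⟨88552791, 0, 0, 0, 0, 366009653, 0, 0, 0, ⟨0, 0⟩, 0⟩ 0 0)) (.pos 37 .mp ⟨89140329, 0, 0, 0, 0, 370301520, 0, 0, 0, ⟨0, 0⟩, 0⟩ 0 0)) (.pos 37 .mp ⟨81562455, 0, 0, 0, 0, 370031805, 0, 0, 0, ⟨0, 0⟩, 0⟩ 0 0))) (.cut .s 12025856 (.pos 38 .mp ⟨128119070, 0, 0, 0, 0, 308691217, 0, 0, 0, ⟨0, 0⟩, 0⟩ 0 0) (.pos 38 .mp ⟨134631356, 0, 0, 0, 0, 306765906, 0, 0, 0, ⟨0, 0⟩, 0⟩ 0 0))) (.cut .v 16908288 (.cut .d (-32768) (.cut .s 12091392 (.pos 37 .mp ⟨67952662, 0, 0, 0, 0, 419600936, 0, 0, 0, ⟨0, 0⟩, 0⟩ 0 0) (.pos 37 .mp ⟨68187580, 0,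 0, 0, 0, 428450650, 0, 0, 0, ⟨0, 0⟩, 0⟩ 0 0)) (.cut .s 12091392 (.cut .d (-16384) (.pos 37 .mp ⟨89713078, 0, 0, 0, 0, 378047308, 0, 0, 0, ⟨0, 0⟩, 0⟩ 0 0) (.pos 37 .mp ⟨81953942, 0, 0, 0, 0, 382629344, 0, 0, 0, ⟨0, 0⟩, 0⟩ 0 0)) (.pos 37 .mp ⟨90270806, 0, 0, 0, 0, 382570912, 0, 0, 0, ⟨0, 0⟩, 0⟩ 0 0))) (.pos 38 .mp ⟨181157482, 0, 0, 0, 0, 247490559, 0, 0, 0, ⟨0, 0⟩, 0⟩ 0 0))) (.cut .v 16908288 (.cut .s 12189696 (.cut .d (-32768) (.pos 37 .mp ⟨68392456, 0, 0, 0, 0, 442013992, 0, 0, 0, ⟨0, 0⟩, 0⟩ 0 0) (.cut .s 12156928 (.pos 37 .mp ⟨90813271, 0, 0, 0, 0, 389512101, 0, 0, 0, ⟨0, 0⟩, 0⟩ 0 0) (.pos 37 .mp ⟨91340226, 0, 0, 0, 0, 396574613, 0, 0, 0, ⟨0, 0⟩, 0⟩ 0 0)))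 (.cut .s 12222464 (.pos 37 .mp ⟨74712061, 0, 0, 0, 0, 438586375, 0, 0, 0, ⟨0, 0⟩, 0⟩ 0 0) (.pos 37 .mp ⟨74826048, 0, 0, 0, 0, 446705039, 0, 0, 0, ⟨0, 0⟩, 0⟩ 0 0))) (.pos 38 .mp ⟨280626393, 0, 0, 0, 0, 118916951, 0, 0, 0, ⟨0, 0⟩, 0⟩ 0 0)))) (.pos 36 .mp ⟨333164673, 0, 0, 0, 0, 0, 0, 0, 0, ⟨0, 0⟩, 0⟩ 0 0))) (.pos 34 .mp ⟨363190311, 0, 0, 0, 0, 0, 0, 0, 0, ⟨0, 0⟩, 0⟩ 0 0)) (.pos 32 .mp ⟨382332323, 0, 0, 0, 0, 0, 0, 0, 0, ⟨0, 0⟩, 0⟩ 0 0)) (.void 30 ⟨100000, 0, 0, 0, 0, 0, 0, 0, 0, ⟨0, 0⟩, 0⟩ 0 0))))))) (.void 28 ⟨100000, 0, 0, 0, 0, 0, 0, 0, 0, ⟨0, 0⟩, 0⟩ 0 0))) (.void 26 ⟨100000, 0, 0, 0, 0, 0, 0, 0, 0, ⟨0, 0⟩, 0⟩ 0 0))) (.void 73 ⟨100000, 0, 0, 0, 0, 0, 0, 0,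 0, ⟨0, 0⟩, 0⟩ 0 0)) (.void 84 ⟨100000, 0, 0, 0, 0, 0, 0, 0, 0, ⟨0, 0⟩, 0⟩ 0 0)) (.void 103 ⟨96122, 0, 0, 3878, 0, 0, 0, 0, 0, ⟨0, 0⟩, 0⟩ 0 0))) (.cut .v 16777216 (.cut .v 8388608 (.cut .v 4194304 (.cut .v 2097152 (.cut .v 1048576 (.pos 108 .pm ⟨0, 0, 13711098, 0, 0, 0, 0, 0, 0, ⟨0, 0⟩, 0⟩ 0 0) (.pos 109 .pm ⟨0, 1902032, 0, 0, 0, 0, 0, 0, 0, ⟨0, 0⟩, 0⟩ 0 0)) (.cut .d 3608508 (.pos 7 .pm ⟨0, 0, 46148746, 0, 0, 0, 0, 0, 0, ⟨0, 0⟩, 0⟩ 0 0) (.cut .d 5412762 (.pos 7 .pm ⟨0, 0, 0, 0, 0, 0, 0, 0, 0, ⟨0, 0⟩, 0⟩ 0 0) (.pos 7 .pm ⟨0, 100244184, 0, 0, 0, 0, 0, 0, 0, ⟨0, 0⟩, 0⟩ 0 0)))) (.cut .d 3608508 (.pos 5 .pm ⟨0, 0, 526513, 0, 0, 0, 0, 0, 0, ⟨0, 0⟩, 0⟩ 0 0) (.cut .d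 5412762 (.pos 5 .pm ⟨0, 0, 0, 0, 0, 0, 0, 0, 0, ⟨0, 0⟩, 0⟩ 0 0) (.cut .d 6314889 (.pos 5 .pm ⟨0, 108185720, 0, 0, 0, 0, 0, 0, 0, ⟨0, 0⟩, 0⟩ 0 0) (.cut .s 11993088 (.pos 5 .pm ⟨0, 147396424, 0, 0, 0, 0, 0, 0, 0, ⟨0, 0⟩, 0⟩ 0 0) (.pos 5 .pm ⟨0, 218320821, 0, 0, 0, 0, 0, 0, 0, ⟨0, 0⟩, 0⟩ 0 0)))))) (.cut .d 3608508 (.pos 3 .pm ⟨0, 0, 0, 0, 0, 0, 0, 0, 0, ⟨0, 0⟩, 0⟩ 0 0) (.cut .d 5412762 (.pos 3 .pm ⟨0, 0, 0, 0, 0, 0, 0, 0, 0, ⟨0, 0⟩, 0⟩ 0 0) (.cut .d 6314889 (.pos 3 .pm ⟨0, 152712026, 0, 0, 0, 0, 0, 0, 0, ⟨0, 0⟩, 0⟩ 0 0) (.pos 3 .pm ⟨0, 252439664, 0, 0, 0, 0, 0, 0, 0, ⟨0, 0⟩, 0⟩ 0 0))))) (.cut .v 268435456 (.cut .d 3608508 (.cut .v 67108864 (.cut .d 1804254 (.cut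 .v 33554432 (.cut .v 25165824 (.pos 25 .pp ⟨206620195, 0, 0, 0, 0, 0, 0, 0, 0, ⟨0, 0⟩, 0⟩ 0 0) (.pos 26 .pp ⟨451305405, 0, 0, 0, 0, 0, 0, 0, 0, ⟨0, 0⟩, 0⟩ 0 0)) (.cut .d 902127 (.cut .v 50331648 (.pos 74 .pp ⟨1186041408, 0, 0, 0, 0, 0, 0, 0, 0, ⟨0, 0⟩, 0⟩ 0 0) (.pos 75 .pp ⟨2424290029, 0, 0, 0, 0, 0, 0, 0, 0, ⟨0, 0⟩, 0⟩ 0 0)) (.pos 73 .pp ⟨722960061, 0, 0, 0, 0, 0, 0, 0, 0, ⟨0, 0⟩, 0⟩ 0 0))) (.pos 72 .pp ⟨0, 0, 0, 0, 0, 0, 0, 0, 0, ⟨0, 0⟩, 0⟩ 0 0)) (.cut .v 134217728 (.cut .d 1804254 (.cut .d 902127 (.void 89 ⟨100000, 0, 0, 0, 0, 0, 0, 0, 0, ⟨0, 0⟩, 0⟩ 0 0) (.cut .v 100663296 (.cut .d 1353190 (.pos 91 .pp ⟨3892949750, 0, 0, 0, 0, 0, 0, 0, 0, ⟨0, 0⟩, 0⟩ 0 0)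 (.pos 91 .pp ⟨2520262979, 0, 0, 0, 0, 0, 0, 0, 0, ⟨0, 0⟩, 0⟩ 0 0)) (.pos 92 .pp ⟨5914588135, 2366890225, 0, 0, 0, 0, 0, 0, 0, ⟨0, 0⟩, 0⟩ 0 0))) (.pos 89 .pp ⟨0, 713917635, 0, 0, 0, 0, 0, 0, 0, ⟨0, 0⟩, 0⟩ 0 0)) (.void 90 ⟨38196, 61804, 0, 0, 0, 0, 0, 0, 0, ⟨0, 0⟩, 0⟩ 0 0))) (.pos 83 .pp ⟨0, 220630681, 0, 0, 0, 0, 0, 0, 0, ⟨0, 0⟩, 0⟩ 0 0)) (.void 103 ⟨0, 0, 0, 100000, 0, 0, 0, 0, 0, ⟨0, 0⟩, 0⟩ 0 0)))),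
    by decide +kernel⟩

def covers18 : cell.Covers table row18.1 :=
  ⟨(.cut .d 0 (.cut .v 16777216 (.cut .d (-8388608) (.void 1 ⟨0, 0, 780, 0, 0, 47754, 0, 52285, 0, ⟨(-1), 11943790⟩, 0⟩ 0 97) (.cut .d (-4194304) (.void 1 ⟨0, 0, 0, 0, 0, 100000, 0, 0, 0, ⟨0, 0⟩, 0⟩ 0 0) (.cut .d (-2097152) (.void 1 ⟨0, 0, 0, 0, 0, 100000, 0, 0, 0, ⟨0, 0⟩, 0⟩ 0 0) (.cut .d (-1048576) (.void 1 ⟨0, 0, 0, 0, 0, 100000, 0, 0, 0, ⟨0, 0⟩, 0⟩ 0 0) (.cut .d (-524288) (.void 1 ⟨0, 0, 0, 0, 0, 100000, 0, 0, 0, ⟨0, 0⟩, 0⟩ 0 0) (.cut .d (-262144) (.void 1 ⟨0, 0, 0, 0, 0, 100000, 0, 0, 0, ⟨0, 0⟩, 0⟩ 0 0) (.cut .d (-131072) (.void 1 ⟨0, 0, 0, 0, 0, 100000, 0, 0, 0, ⟨0, 0⟩, 0⟩ 0 0) (.cut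 .d (-65536) (.void 1 ⟨0, 0, 0, 0, 0, 100000, 0, 0, 0, ⟨0, 0⟩, 0⟩ 0 0) (.cut .v 8388608 (.cut .v 4194304 (.void 4 ⟨0, 0, 100000, 0, 0, 0, 0, 0, 0, ⟨0, 0⟩, 0⟩ 0 0) (.pos 5 .mm ⟨0, 0, 4430361, 0, 0, 294417659, 0, 0, 0, ⟨0, 0⟩, 0⟩ 0 0)) (.cut .v 12582912 (.pos 8 .mm ⟨0, 0, 0, 0, 0, 399422922, 0, 0, 0, ⟨0, 0⟩, 0⟩ 0 0) (.cut .v 14680064 (.pos 12 .mm ⟨0, 0, 0, 0, 0, 557081989, 0, 0, 0, ⟨0, 0⟩, 0⟩ 0 0) (.cut .v 15728640 (.pos 16 .mm ⟨0, 0, 0, 0, 0, 594503595, 0, 0, 0, ⟨0, 0⟩, 0⟩ 0 0) (.cut .v 16252928 (.pos 20 .mm ⟨0, 0, 0, 0, 0, 614019024, 0, 0, 0, ⟨0, 0⟩, 0⟩ 0 0) (.cut .s 12484608 (.cut .s 12369920 (.pos 21 .mm ⟨0, 0, 0, 0, 0, 580173340, 0, 0, 0, ⟨0, 0⟩, 0⟩ 0 0)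 (.cut .s 12427264 (.pos 21 .mm ⟨0, 0, 0, 0, 0, 597438521, 0, 0, 0, ⟨0, 0⟩, 0⟩ 0 0) (.pos 21 .mm ⟨0, 0, 0, 0, 0, 613799570, 0, 0, 0, ⟨0, 0⟩, 0⟩ 0 0))) (.cut .v 16515072 (.pos 22 .mm ⟨0, 0, 0, 0, 0, 647246560, 0, 0, 0, ⟨0, 0⟩, 0⟩ 0 0) (.cut .s 12599296 (.cut .s 12541952 (.pos 23 .mm ⟨0, 0, 0, 0, 0, 630583335, 0, 0, 0, ⟨0, 0⟩, 0⟩ 0 0) (.pos 23 .mm ⟨0, 0, 0, 0, 0, 647784068, 0, 0, 0, ⟨0, 0⟩, 0⟩ 0 0)) (.cut .s 12656640 (.pos 23 .mm ⟨0, 0, 0, 0, 0, 665396124, 0, 0, 0, ⟨0, 0⟩, 0⟩ 0 0) (.pos 23 .mm ⟨0, 0, 0, 0, 0, 683413962, 0, 0, 0, ⟨0, 0⟩, 0⟩ 0 0)))))))))))))))))) (.cut .v 268435456 (.cut .v 67108864 (.cut .v 33554432 (.cut .d (-8388608) (.void 24 ⟨100000, 0, 0,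 0, 0, 0, 0, 0, 0, ⟨0, 0⟩, 0⟩ 0 0) (.cut .v 25165824 (.cut .d (-4194304) (.void 25 ⟨100000, 0, 0, 0, 0, 0, 0, 0, 0, ⟨0, 0⟩, 0⟩ 0 0) (.cut .v 20971520 (.cut .d (-2097152) (.void 27 ⟨100000, 0, 0, 0, 0, 0, 0, 0, 0, ⟨0, 0⟩, 0⟩ 0 0) (.cut .d (-1048576) (.void 27 ⟨100000, 0, 0, 0, 0, 0, 0, 0, 0, ⟨0, 0⟩, 0⟩ 0 0) (.cut .d (-524288) (.void 27 ⟨100000, 0, 0, 0, 0, 0, 0, 0, 0, ⟨0, 0⟩, 0⟩ 0 0) (.cut .d (-262144) (.void 27 ⟨100000, 0, 0, 0, 0, 0, 0, 0, 0, ⟨0, 0⟩, 0⟩ 0 0) (.cut .d (-131072) (.void 27 ⟨100000, 0, 0, 0, 0, 0, 0, 0, 0, ⟨0, 0⟩, 0⟩ 0 0) (.cut .d (-65536) (.void 27 ⟨0, 0, 0, 0, 0, 100000, 0, 0, 0, ⟨0, 0⟩, 0⟩ 0 0) (.cut .v 18874368 (.cut .v 17825792 (.cut .v 17301504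 (.cut .v 17039360 (.cut .s 12484608 (.cut .d (-32768) (.cut .s 12369920 (.pos 35 .mp ⟨74723630, 0, 0, 0, 0, 487781713, 0, 0, 0, ⟨0, 0⟩, 0⟩ 0 0) (.cut .d (-49152) (.pos 35 .mp ⟨82038057, 0, 0, 0, 0, 509956461, 0, 0, 0, ⟨0, 0⟩, 0⟩ 0 0) (.cut .l 750040 (.pos 35 .mp ⟨84774324, 0, 0, 0, 0, 503826682, 0, 0, 0, ⟨0, 0⟩, 0⟩ 0 0) (.cut .d (-40960) (.cut .v 16908288 (.pos 37 .mp ⟨74767211, 0, 0, 0, 0, 507475243, 0, 0, 0, ⟨0, 0⟩, 0⟩ 0 0) (.pos 38 .mp ⟨382711139, 0, 0, 0, 0, 0, 0, 0, 0, ⟨0, 0⟩, 0⟩ 0 0)) (.pos 35 .mp ⟨89957668, 0, 0, 0, 0, 469733982, 0, 0, 0, ⟨0, 0⟩, 0⟩ 0 0))))) (.cut .l 750040 (.cut .v 16908288 (.cut .s 12369920 (.cut .s 12312576 (.pos 37 .mp ⟨93255741,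 0, 0, 0, 0, 425362964, 0, 0, 0, ⟨0, 0⟩, 0⟩ 0 0) (.pos 37 .mp ⟨94094011, 0, 0, 0, 0, 438657807, 0, 0, 0, ⟨0, 0⟩, 0⟩ 0 0)) (.cut .d (-16384) (.cut .s 12427264 (.pos 37 .mp ⟨74732206, 0, 0, 0, 0, 493163676, 0, 0, 0, ⟨0, 0⟩, 0⟩ 0 0) (.cut .s 12455936 (.pos 37 .mp ⟨76389495, 0, 0, 0, 0, 498730354, 0, 0, 0, ⟨0, 0⟩, 0⟩ 0 0) (.pos 37 .mp ⟨73540700, 0, 0, 0, 0, 511088497, 0, 0, 0, ⟨0, 0⟩, 0⟩ 0 0))) (.cut .s 12427264 (.pos 37 .mp ⟨84962711, 0, 0, 0, 0, 462257129, 0, 0, 0, ⟨0, 0⟩, 0⟩ 0 0) (.cut .s 12455936 (.pos 37 .mp ⟨85103677, 0, 0, 0, 0, 472925840, 0, 0, 0, ⟨0, 0⟩, 0⟩ 0 0) (.pos 37 .mp ⟨85219402, 0, 0, 0, 0, 480493140, 0, 0, 0, ⟨0, 0⟩, 0⟩ 0 0))))) (.pos 38 .mp ⟨392065006,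 0, 0, 0, 0, 0, 0, 0, 0, ⟨0, 0⟩, 0⟩ 0 0)) (.pos 35 .mp ⟨84774324, 0, 0, 0, 0, 0, 0, 0, 0, ⟨0, 0⟩, 0⟩ 0 0))) (.cut .d (-32768) (.cut .l 750040 (.pos 35 .mp ⟨85668310, 0, 0, 0, 0, 574356915, 0, 0, 0, ⟨0, 0⟩, 0⟩ 0 0) (.cut .d (-49152) (.cut .d (-57344) (.pos 35 .mp ⟨87849736, 0, 0, 0, 0, 604525603, 0, 0, 0, ⟨0, 0⟩, 0⟩ 0 0) (.cut .l 1016502 (.void 35 ⟨0, 0, 0, 0, 0, 100000, 0, 0, 0, ⟨0, 0⟩, 0⟩ 0 0) (.cut .l 1149733 (.cut .s 12599296 (.pos 35 .mp ⟨86480972, 0, 0, 0, 0, 533144541, 0, 0, 0, ⟨0, 0⟩, 0⟩ 0 0) (.pos 35 .mp ⟨86929215, 0, 0, 0, 0, 557112460, 0, 0, 0, ⟨0, 0⟩, 0⟩ 0 0)) (.cut .s 12599296 (.cut .v 16908288 (.pos 37 .mp ⟨0, 0, 0, 0, 0, 652319592, 0, 0, 0, ⟨0,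 0⟩, 0⟩ 0 0) (.cut .s 12541952 (.pos 38 .mp ⟨93615892, 0, 0, 0, 0, 497152854, 0, 0, 0, ⟨0, 0⟩, 0⟩ 0 0) (.cut .s 12570624 (.pos 38 .mp ⟨93461435, 0, 0, 0, 0, 506468432, 0, 0, 0, ⟨0, 0⟩, 0⟩ 0 0) (.pos 38 .mp ⟨94438340, 0, 0, 0, 0, 512063744, 0, 0, 0, ⟨0, 0⟩, 0⟩ 0 0)))) (.cut .v 16908288 (.pos 37 .mp ⟨0, 0, 0, 0, 0, 674368237, 0, 0, 0, ⟨0, 0⟩, 0⟩ 0 0) (.cut .s 12656640 (.pos 38 .mp ⟨95108866, 0, 0, 0, 0, 521258219, 0, 0, 0, ⟨0, 0⟩, 0⟩ 0 0) (.pos 38 .mp ⟨95394386, 0, 0, 0, 0, 535570372, 0, 0, 0, ⟨0, 0⟩, 0⟩ 0 0))))))) (.cut .s 12599296 (.cut .v 16908288 (.cut .v 16842752 (.pos 80 .mp ⟨0, 0, 0, 0, 0, 644668025, 0, 0, 0, ⟨0, 0⟩, 0⟩ 0 0) (.cut .s 12541952 (.cut .s 12513280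 (.pos 81 .mp ⟨71493797, 0, 0, 0, 0, 522275085, 0, 0, 0, ⟨0, 0⟩, 0⟩ 0 0) (.pos 81 .mp ⟨71568829, 0, 0, 0, 0, 529744119, 0, 0, 0, ⟨0, 0⟩, 0⟩ 0 0)) (.cut .l 1016502 (.cut .s 12570624 (.pos 81 .mp ⟨77926274, 0, 0, 0, 0, 529154776, 0, 0, 0, ⟨0, 0⟩, 0⟩ 0 0) (.pos 81 .mp ⟨77995721, 0, 0, 0, 0, 537194284, 0, 0, 0, ⟨0, 0⟩, 0⟩ 0 0)) (.pos 81 .mp ⟨71607544, 0, 0, 0, 0, 537170246, 0, 0, 0, ⟨0, 0⟩, 0⟩ 0 0)))) (.pos 38 .mp ⟨397221765, 0, 0, 0, 0, 0, 0, 0, 0, ⟨0, 0⟩, 0⟩ 0 0)) (.cut .l 1016502 (.cut .d (-40960) (.pos 35 .mp ⟨84542743, 0, 0, 0, 0, 560308041, 0, 0, 0, ⟨0, 0⟩, 0⟩ 0 0) (.cut .s 12656640 (.cut .s 12627968 (.pos 35 .mp ⟨91258471, 0, 0, 0, 0, 516228806, 0, 0, 0,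 ⟨0, 0⟩, 0⟩ 0 0) (.pos 35 .mp ⟨91435686, 0, 0, 0, 0, 524384041, 0, 0, 0, ⟨0, 0⟩, 0⟩ 0 0)) (.pos 35 .mp ⟨91703227, 0, 0, 0, 0, 534700586, 0, 0, 0, ⟨0, 0⟩, 0⟩ 0 0))) (.cut .v 16908288 (.pos 37 .mp ⟨70712755, 0, 0, 0, 0, 554695152, 0, 0, 0, ⟨0, 0⟩, 0⟩ 0 0) (.pos 38 .mp ⟨100840475, 0, 0, 0, 0, 507252457, 0, 0, 0, ⟨0, 0⟩, 0⟩ 0 0)))))) (.cut .l 750040 (.cut .v 16908288 (.cut .s 12599296 (.cut .d (-16384) (.cut .l 483578 (.cut .s 12541952 (.pos 37 .mp ⟨78986035, 0, 0, 0, 0, 518461527, 0, 0, 0, ⟨0, 0⟩, 0⟩ 0 0) (.pos 37 .mp ⟨79015712, 0, 0, 0, 0, 534405728, 0, 0, 0, ⟨0, 0⟩, 0⟩ 0 0)) (.cut .d (-24576) (.cut .s 12541952 (.pos 37 .mp ⟨77908525, 0, 0, 0, 0, 517884680, 0,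 0, 0, ⟨0, 0⟩, 0⟩ 0 0) (.pos 37 .mp ⟨78033802, 0, 0, 0, 0, 532618127, 0, 0, 0, ⟨0, 0⟩, 0⟩ 0 0)) (.cut .s 12541952 (.pos 37 .mp ⟨84376884, 0, 0, 0, 0, 494850378, 0, 0, 0, ⟨0, 0⟩, 0⟩ 0 0) (.pos 37 .mp ⟨84514657, 0, 0, 0, 0, 509156197, 0, 0, 0, ⟨0, 0⟩, 0⟩ 0 0)))) (.cut .d (-8192) (.cut .v 16842752 (.cut .l 483578 (.cut .l 350347 (.cut .s 12541952 (.pos 80 .mp ⟨76134498, 0, 0, 0, 0, 513687968, 0, 0, 0, ⟨0, 0⟩, 0⟩ 0 0) (.cut .s 12570624 (.pos 80 .mp ⟨75991433, 0, 0, 0, 0, 525045695, 0, 0, 0, ⟨0, 0⟩, 0⟩ 0 0) (.pos 80 .mp ⟨75873815, 0, 0, 0, 0, 533372172, 0, 0, 0, ⟨0, 0⟩, 0⟩ 0 0))) (.pos 80 .mp ⟨81292470, 0, 0, 0, 0, 498694306, 0, 0, 0, ⟨0, 0⟩, 0⟩ 0 0)) (.pos 80 .mp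 ⟨0, 0, 0, 0, 0, 0, 0, 0, 0, ⟨0, 0⟩, 0⟩ 0 0)) (.pos 81 .mp ⟨387395879, 0, 0, 0, 0, 0, 0, 0, 0, ⟨0, 0⟩, 0⟩ 0 0)) (.pos 37 .mp ⟨79830550, 0, 0, 0, 0, 0, 0, 0, 0, ⟨0, 0⟩, 0⟩ 0 0))) (.cut .d (-16384) (.cut .s 12656640 (.cut .l 483578 (.pos 37 .mp ⟨78923778, 0, 0, 0, 0, 551515053, 0, 0, 0, ⟨0, 0⟩, 0⟩ 0 0) (.cut .s 12627968 (.pos 37 .mp ⟨90261729, 0, 0, 0, 0, 516871454, 0, 0, 0, ⟨0, 0⟩, 0⟩ 0 0) (.pos 37 .mp ⟨90379660, 0, 0, 0, 0, 525248414, 0, 0, 0, ⟨0, 0⟩, 0⟩ 0 0))) (.cut .s 12685312 (.pos 37 .mp ⟨72079413, 0, 0, 0, 0, 571907194, 0, 0, 0, ⟨0, 0⟩, 0⟩ 0 0) (.pos 37 .mp ⟨71838207, 0, 0, 0, 0, 581858864, 0, 0, 0, ⟨0, 0⟩, 0⟩ 0 0))) (.cut .d (-8192) (.cut .s 12656640 (.cut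 .s 12627968 (.pos 37 .mp ⟨85403940, 0, 0, 0, 0, 522943427, 0, 0, 0, ⟨0, 0⟩, 0⟩ 0 0) (.pos 37 .mp ⟨85358767, 0, 0, 0, 0, 531825145, 0, 0, 0, ⟨0, 0⟩, 0⟩ 0 0)) (.pos 37 .mp ⟨85182364, 0, 0, 0, 0, 543004601, 0, 0, 0, ⟨0, 0⟩, 0⟩ 0 0)) (.pos 37 .mp ⟨79101720, 0, 0, 0, 0, 0, 0, 0, 0, ⟨0, 0⟩, 0⟩ 0 0)))) (.pos 38 .mp ⟨418613195, 0, 0, 0, 0, 0, 0, 0, 0, ⟨0, 0⟩, 0⟩ 0 0)) (.pos 35 .mp ⟨85668310, 0, 0, 0, 0, 488761268, 0, 0, 0, ⟨0, 0⟩, 0⟩ 0 0)))) (.pos 36 .mp ⟨415597017, 0, 0, 0, 0, 0, 0, 0, 0, ⟨0, 0⟩, 0⟩ 0 0)) (.pos 34 .mp ⟨426706592, 0, 0, 0, 0, 0, 0, 0, 0, ⟨0, 0⟩, 0⟩ 0 0)) (.pos 32 .mp ⟨452561277, 0, 0, 0, 0, 0, 0, 0, 0, ⟨0, 0⟩, 0⟩ 0 0)) (.void 30 ⟨100000, 0, 0, 0, 0,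 0, 0, 0, 0, ⟨0, 0⟩, 0⟩ 0 0)))))))) (.void 28 ⟨100000, 0, 0, 0, 0, 0, 0, 0, 0, ⟨0, 0⟩, 0⟩ 0 0))) (.void 26 ⟨100000, 0, 0, 0, 0, 0, 0, 0, 0, ⟨0, 0⟩, 0⟩ 0 0))) (.void 73 ⟨100000, 0, 0, 0, 0, 0, 0, 0, 0, ⟨0, 0⟩, 0⟩ 0 0)) (.void 84 ⟨100000, 0, 0, 0, 0, 0, 0, 0, 0, ⟨0, 0⟩, 0⟩ 0 0)) (.void 103 ⟨95972, 0, 0, 4028, 0, 0, 0, 0, 0, ⟨0, 0⟩, 0⟩ 0 0))) (.cut .v 16777216 (.cut .v 8388608 (.cut .v 4194304 (.cut .v 2097152 (.cut .v 1048576 (.pos 108 .pm ⟨0, 0, 12309835, 0, 0, 0, 0, 0, 0, ⟨0, 0⟩, 0⟩ 0 0) (.pos 109 .pm ⟨0, 4223170, 0, 0, 0, 0, 0, 0, 0, ⟨0, 0⟩, 0⟩ 0 0)) (.cut .d 3095263 (.pos 7 .pm ⟨0, 0, 58554838, 0, 0, 0, 0, 0, 0, ⟨0, 0⟩, 0⟩ 0 0) (.cut .d 4642894 (.pos 7 .pm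 ⟨0, 0, 0, 0, 0, 0, 0, 0, 0, ⟨0, 0⟩, 0⟩ 0 0) (.cut .d 5416710 (.pos 7 .pm ⟨0, 91485929, 0, 0, 0, 0, 0, 0, 0, ⟨0, 0⟩, 0⟩ 0 0) (.pos 7 .pm ⟨0, 147406464, 0, 0, 0, 0, 0, 0, 0, ⟨0, 0⟩, 0⟩ 0 0))))) (.cut .d 3095263 (.pos 5 .pm ⟨0, 0, 3043808, 0, 0, 0, 0, 0, 0, ⟨0, 0⟩, 0⟩ 0 0) (.cut .d 4642894 (.pos 5 .pm ⟨0, 0, 0, 0, 0, 0, 0, 0, 0, ⟨0, 0⟩, 0⟩ 0 0) (.cut .d 5416710 (.pos 5 .pm ⟨0, 121838286, 0, 0, 0, 0, 0, 0, 0, ⟨0, 0⟩, 0⟩ 0 0) (.cut .s 12484608 (.pos 5 .pm ⟨0, 170968296, 0, 0, 0, 0, 0, 0, 0, ⟨0, 0⟩, 0⟩ 0 0) (.pos 5 .pm ⟨0, 238267904, 0, 0, 0, 0, 0, 0, 0, ⟨0, 0⟩, 0⟩ 0 0)))))) (.cut .d 3095263 (.pos 3 .pm ⟨0, 0, 0, 0, 0, 0, 0, 0, 0, ⟨0, 0⟩, 0⟩ 0 0) (.cut .d 4642894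 (.pos 3 .pm ⟨0, 0, 0, 0, 0, 0, 0, 0, 0, ⟨0, 0⟩, 0⟩ 0 0) (.pos 3 .pm ⟨0, 242954892, 0, 0, 0, 0, 0, 0, 0, ⟨0, 0⟩, 0⟩ 0 0)))) (.cut .v 268435456 (.cut .d 3095263 (.cut .v 67108864 (.cut .d 1547631 (.cut .v 33554432 (.cut .v 25165824 (.pos 25 .pp ⟨227526176, 0, 0, 0, 0, 0, 0, 0, 0, ⟨0, 0⟩, 0⟩ 0 0) (.pos 26 .pp ⟨547211696, 0, 0, 0, 0, 0, 0, 0, 0, ⟨0, 0⟩, 0⟩ 0 0)) (.cut .d 773815 (.cut .v 50331648 (.pos 74 .pp ⟨1396249500, 0, 0, 0, 0, 0, 0, 0, 0, ⟨0, 0⟩, 0⟩ 0 0) (.pos 75 .pp ⟨2841750038, 0, 0, 0, 0, 0, 0, 0, 0, ⟨0, 0⟩, 0⟩ 0 0)) (.pos 73 .pp ⟨874863773, 0, 0, 0, 0, 0, 0, 0, 0, ⟨0, 0⟩, 0⟩ 0 0))) (.pos 72 .pp ⟨0, 0, 0, 0, 0, 0, 0, 0, 0, ⟨0, 0⟩, 0⟩ 0 0)) (.cut .v 134217728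 (.cut .d 1547631 (.cut .d 773815 (.void 89 ⟨100000, 0, 0, 0, 0, 0, 0, 0, 0, ⟨0, 0⟩, 0⟩ 0 0) (.cut .v 100663296 (.cut .d 1160723 (.pos 91 .pp ⟨4597320089, 0, 0, 0, 0, 0, 0, 0, 0, ⟨0, 0⟩, 0⟩ 0 0) (.pos 91 .pp ⟨3037092232, 0, 0, 0, 0, 0, 0, 0, 0, ⟨0, 0⟩, 0⟩ 0 0)) (.cut .d 1160723 (.pos 92 .pp ⟨12564615868, 0, 0, 0, 0, 0, 0, 0, 0, ⟨0, 0⟩, 0⟩ 0 0) (.pos 92 .pp ⟨5681554475, 1535584907, 0, 0, 0, 0, 0, 0, 0, ⟨0, 0⟩, 0⟩ 0 0)))) (.pos 89 .pp ⟨0, 899529307, 0, 0, 0, 0, 0, 0, 0, ⟨0, 0⟩, 0⟩ 0 0)) (.void 90 ⟨37659, 62341, 0, 0, 0, 0, 0, 0, 0, ⟨0, 0⟩, 0⟩ 0 0))) (.pos 83 .pp ⟨0, 259082898, 0, 0, 0, 0, 0, 0, 0, ⟨0, 0⟩, 0⟩ 0 0)) (.void 103 ⟨0, 0, 0, 100000, 0, 0, 0, 0, 0, ⟨0,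 0⟩, 0⟩ 0 0)))),
    by decide +kernel⟩

def covers19 : cell.Covers table row19.1 :=
  ⟨(.cut .d 0 (.cut .v 16777216 (.cut .d (-8388608) (.void 1 ⟨0, 0, 0, 0, 0, 100000, 0, 0, 0, ⟨0, 0⟩, 0⟩ 0 0) (.cut .d (-4194304) (.void 1 ⟨0, 0, 0, 0, 0, 100000, 0, 0, 0, ⟨0, 0⟩, 0⟩ 0 0) (.cut .d (-2097152) (.void 1 ⟨0, 0, 0, 0, 0, 100000, 0, 0, 0, ⟨0, 0⟩, 0⟩ 0 0) (.cut .d (-1048576) (.void 1 ⟨0, 0, 0, 0, 0, 100000, 0, 0, 0, ⟨0, 0⟩, 0⟩ 0 0) (.cut .d (-524288) (.void 1 ⟨0, 0, 0, 0, 0, 100000, 0, 0, 0, ⟨0, 0⟩, 0⟩ 0 0) (.cut .d (-262144) (.void 1 ⟨0, 0, 0, 0, 0, 100000, 0, 0, 0, ⟨0, 0⟩, 0⟩ 0 0) (.cut .d (-131072) (.void 1 ⟨0, 0, 0, 0, 0, 100000, 0, 0, 0, ⟨0, 0⟩, 0⟩ 0 0) (.cut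 .d (-65536) (.void 1 ⟨0, 0, 0, 0, 0, 100000, 0, 0, 0, ⟨0, 0⟩, 0⟩ 0 0) (.cut .v 8388608 (.cut .v 4194304 (.void 4 ⟨0, 0, 100000, 0, 0, 0, 0, 0, 0, ⟨0, 0⟩, 0⟩ 0 0) (.cut .v 6291456 (.void 99 ⟨0, 0, 100000, 0, 0, 0, 0, 0, 0, ⟨0, 0⟩, 0⟩ 0 0) (.cut .v 7340032 (.void 116 ⟨0, 0, 100000, 0, 0, 0, 0, 0, 0, ⟨0, 0⟩, 0⟩ 0 0) (.cut .s 12976128 (.pos 117 .mm ⟨0, 0, 3751538, 0, 0, 335592246, 0, 0, 0, ⟨0, 0⟩, 0⟩ 0 0) (.cut .s 13107200 (.pos 117 .mm ⟨0, 0, 6069986, 0, 0, 355594665, 0, 0, 0, ⟨0, 0⟩, 0⟩ 0 0) (.cut .s 13172736 (.pos 117 .mm ⟨0, 0, 7134961, 0, 0, 366198016, 0, 0, 0, ⟨0, 0⟩, 0⟩ 0 0) (.cut .s 13205504 (.pos 117 .mm ⟨0, 0, 7641209, 0, 0, 371650699, 0, 0, 0, ⟨0, 0⟩,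 0⟩ 0 0) (.cut .v 7864320 (.void 118 ⟨0, 0, 100000, 0, 0, 0, 0, 0, 0, ⟨0, 0⟩, 0⟩ 0 0) (.cut .v 8126464 (.cut .d (-32768) (.pos 120 .mm ⟨0, 0, 8400861, 0, 0, 366072636, 0, 0, 0, ⟨0, 0⟩, 0⟩ 0 0) (.pos 120 .mm ⟨0, 0, 6854426, 0, 0, 362407242, 0, 0, 0, ⟨0, 0⟩, 0⟩ 0 0)) (.pos 121 .mm ⟨0, 0, 497374, 0, 0, 371370208, 0, 0, 0, ⟨0, 0⟩, 0⟩ 0 0)))))))))) (.cut .v 12582912 (.cut .v 10485760 (.pos 10 .mm ⟨0, 0, 0, 0, 0, 388748570, 0, 0, 0, ⟨0, 0⟩, 0⟩ 0 0) (.pos 11 .mm ⟨0, 0, 0, 0, 0, 502667575, 0, 0, 0, ⟨0, 0⟩, 0⟩ 0 0)) (.pos 9 .mm ⟨0, 0, 0, 0, 0, 688745087, 0, 0, 0, ⟨0, 0⟩, 0⟩ 0 0))))))))))) (.cut .v 268435456 (.cut .v 67108864 (.cut .v 33554432 (.cut .d (-8388608) (.void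 24 ⟨100000, 0, 0, 0, 0, 0, 0, 0, 0, ⟨0, 0⟩, 0⟩ 0 0) (.cut .v 25165824 (.cut .d (-4194304) (.void 25 ⟨100000, 0, 0, 0, 0, 0, 0, 0, 0, ⟨0, 0⟩, 0⟩ 0 0) (.cut .d (-2097152) (.void 25 ⟨100000, 0, 0, 0, 0, 0, 0, 0, 0, ⟨0, 0⟩, 0⟩ 0 0) (.cut .d (-1048576) (.void 25 ⟨100000, 0, 0, 0, 0, 0, 0, 0, 0, ⟨0, 0⟩, 0⟩ 0 0) (.cut .d (-524288) (.void 25 ⟨100000, 0, 0, 0, 0, 0, 0, 0, 0, ⟨0, 0⟩, 0⟩ 0 0) (.cut .d (-262144) (.void 25 ⟨100000, 0, 0, 0, 0, 0, 0, 0, 0, ⟨0, 0⟩, 0⟩ 0 0) (.cut .d (-131072) (.void 25 ⟨100000, 0, 0, 0, 0, 0, 0, 0, 0, ⟨0, 0⟩, 0⟩ 0 0) (.cut .d (-65536) (.void 25 ⟨0, 0, 0, 0, 0, 100000, 0, 0, 0, ⟨0, 0⟩, 0⟩ 0 0) (.cut .v 20971520 (.cut .v 18874368 (.cut .v 17825792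 (.cut .v 17301504 (.cut .d (-32768) (.cut .v 17039360 (.pos 35 .mp ⟨71976878, 0, 0, 0, 0, 595229879, 0, 0, 0, ⟨0, 0⟩, 0⟩ 0 0) (.pos 36 .mp ⟨465691182, 0, 0, 0, 0, 0, 0, 0, 0, ⟨0, 0⟩, 0⟩ 0 0)) (.pos 33 .mp ⟨103248954, 0, 0, 0, 0, 526329661, 0, 0, 0, ⟨0, 0⟩, 0⟩ 0 0)) (.pos 34 .mp ⟨474906656, 0, 0, 0, 0, 0, 0, 0, 0, ⟨0, 0⟩, 0⟩ 0 0)) (.pos 32 .mp ⟨500776008, 0, 0, 0, 0, 0, 0, 0, 0, ⟨0, 0⟩, 0⟩ 0 0)) (.void 30 ⟨100000, 0, 0, 0, 0, 0, 0, 0, 0, ⟨0, 0⟩, 0⟩ 0 0)) (.void 28 ⟨100000, 0, 0, 0, 0, 0, 0, 0, 0, ⟨0, 0⟩, 0⟩ 0 0))))))))) (.void 26 ⟨100000, 0, 0, 0, 0, 0, 0, 0, 0, ⟨0, 0⟩, 0⟩ 0 0))) (.void 73 ⟨100000, 0, 0, 0, 0, 0, 0, 0, 0, ⟨0, 0⟩, 0⟩ 0 0)) (.void 84 ⟨100000,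 0, 0, 0, 0, 0, 0, 0, 0, ⟨0, 0⟩, 0⟩ 0 0)) (.void 103 ⟨95805, 0, 0, 4195, 0, 0, 0, 0, 0, ⟨0, 0⟩, 0⟩ 0 0))) (.cut .v 16777216 (.cut .v 8388608 (.cut .v 4194304 (.cut .v 2097152 (.cut .d 2680896 (.void 6 ⟨0, 0, 100000, 0, 0, 0, 0, 0, 0, ⟨0, 0⟩, 0⟩ 0 0) (.cut .v 1048576 (.cut .v 524288 (.pos 124 .pm ⟨0, 0, 10482189, 0, 0, 0, 0, 0, 0, ⟨0, 0⟩, 0⟩ 0 0) (.pos 125 .pm ⟨0, 19202707, 0, 0, 0, 0, 0, 0, 0, ⟨0, 0⟩, 0⟩ 0 0)) (.pos 109 .pm ⟨0, 50745174, 0, 0, 0, 0, 0, 0, 0, ⟨0, 0⟩, 0⟩ 0 0))) (.cut .d 2680896 (.pos 7 .pm ⟨0, 0, 73231125, 0, 0, 0, 0, 0, 0, ⟨0, 0⟩, 0⟩ 0 0) (.cut .d 4021344 (.pos 7 .pm ⟨0, 0, 0, 0, 0, 0, 0, 0, 0, ⟨0, 0⟩, 0⟩ 0 0) (.cut .d 4691568 (.pos 7 .pm ⟨0,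 108710504, 0, 0, 0, 0, 0, 0, 0, ⟨0, 0⟩, 0⟩ 0 0) (.pos 7 .pm ⟨0, 180431004, 0, 0, 0, 0, 0, 0, 0, ⟨0, 0⟩, 0⟩ 0 0))))) (.cut .d 2680896 (.pos 5 .pm ⟨0, 0, 8198306, 0, 0, 0, 0, 0, 0, ⟨0, 0⟩, 0⟩ 0 0) (.cut .d 4021344 (.pos 5 .pm ⟨0, 0, 0, 0, 0, 0, 0, 0, 0, ⟨0, 0⟩, 0⟩ 0 0) (.cut .d 4691568 (.cut .v 6291456 (.pos 99 .pm ⟨0, 135293532, 0, 0, 0, 0, 0, 0, 0, ⟨0, 0⟩, 0⟩ 0 0) (.pos 100 .pm ⟨0, 177369292, 0, 0, 0, 0, 0, 0, 0, ⟨0, 0⟩, 0⟩ 0 0)) (.cut .s 12976128 (.pos 5 .pm ⟨0, 196089557, 0, 0, 0, 0, 0, 0, 0, ⟨0, 0⟩, 0⟩ 0 0) (.pos 5 .pm ⟨0, 298386514, 0, 0, 0, 0, 0, 0, 0, ⟨0, 0⟩, 0⟩ 0 0)))))) (.cut .d 2680896 (.pos 3 .pm ⟨0, 0, 0, 0, 0, 0, 0, 0, 0, ⟨0, 0⟩, 0⟩ 0 0) (.cut .d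 4021344 (.pos 3 .pm ⟨0, 0, 0, 0, 0, 0, 0, 0, 0, ⟨0, 0⟩, 0⟩ 0 0) (.pos 3 .pm ⟨0, 300108533, 0, 0, 0, 0, 0, 0, 0, ⟨0, 0⟩, 0⟩ 0 0)))) (.cut .v 268435456 (.cut .d 2680896 (.cut .v 67108864 (.cut .d 1340448 (.cut .v 33554432 (.cut .v 25165824 (.pos 25 .pp ⟨229033160, 0, 0, 0, 0, 0, 0, 0, 0, ⟨0, 0⟩, 0⟩ 0 0) (.pos 26 .pp ⟨638045159, 0, 0, 0, 0, 0, 0, 0, 0, ⟨0, 0⟩, 0⟩ 0 0)) (.cut .d 670224 (.cut .v 50331648 (.pos 74 .pp ⟨1619004921, 0, 0, 0, 0, 0, 0, 0, 0, ⟨0, 0⟩, 0⟩ 0 0) (.pos 75 .pp ⟨3334592650, 0, 0, 0, 0, 0, 0, 0, 0, ⟨0, 0⟩, 0⟩ 0 0)) (.pos 73 .pp ⟨1017594647, 0, 0, 0, 0, 0, 0, 0, 0, ⟨0, 0⟩, 0⟩ 0 0))) (.pos 72 .pp ⟨0, 0, 0, 0, 0, 0, 0, 0, 0, ⟨0, 0⟩, 0⟩ 0 0)) (.cut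 .v 134217728 (.cut .d 1340448 (.cut .d 670224 (.void 89 ⟨100000, 0, 0, 0, 0, 0, 0, 0, 0, ⟨0, 0⟩, 0⟩ 0 0) (.cut .v 100663296 (.cut .d 1005336 (.pos 91 .pp ⟨5237597295, 0, 0, 0, 0, 0, 0, 0, 0, ⟨0, 0⟩, 0⟩ 0 0) (.pos 91 .pp ⟨3553969618, 0, 0, 0, 0, 0, 0, 0, 0, ⟨0, 0⟩, 0⟩ 0 0)) (.cut .d 1005336 (.pos 92 .pp ⟨11229455660, 593640078, 0, 0, 0, 0, 0, 0, 0, ⟨0, 0⟩, 0⟩ 0 0) (.pos 92 .pp ⟨6651856657, 1837471219, 0, 0, 0, 0, 0, 0, 0, ⟨0, 0⟩, 0⟩ 0 0)))) (.pos 89 .pp ⟨0, 1098034100, 0, 0, 0, 0, 0, 0, 0, ⟨0, 0⟩, 0⟩ 0 0)) (.void 90 ⟨36979, 63021, 0, 0, 0, 0, 0, 0, 0, ⟨0, 0⟩, 0⟩ 0 0))) (.pos 83 .pp ⟨0, 324490681, 0, 0, 0, 0, 0, 0, 0, ⟨0, 0⟩, 0⟩ 0 0)) (.void 103 ⟨0, 0, 0, 100000,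 0, 0, 0, 0, 0, ⟨0, 0⟩, 0⟩ 0 0)))),
    by decide +kernel⟩

def covers20 : cell.Covers table row20.1 :=
  ⟨(.cut .d 0 (.cut .v 16777216 (.cut .d (-8388608) (.void 1 ⟨0, 0, 0, 0, 0, 100000, 0, 0, 0, ⟨0, 0⟩, 0⟩ 0 0) (.cut .d (-4194304) (.pos 1 .mm ⟨0, 0, 0, 0, 0, 167772160000, 0, 0, 0, ⟨0, 0⟩, 0⟩ 0 0) (.cut .d (-2097152) (.void 1 ⟨0, 0, 0, 0, 0, 100000, 0, 0, 0, ⟨0, 0⟩, 0⟩ 0 0) (.cut .d (-1048576) (.void 1 ⟨0, 0, 0, 0, 0, 100000, 0, 0, 0, ⟨0, 0⟩, 0⟩ 0 0) (.cut .d (-524288) (.void 1 ⟨0, 0, 0, 0, 0, 100000, 0, 0, 0, ⟨0, 0⟩, 0⟩ 0 0) (.cut .d (-262144) (.void 1 ⟨0, 0, 0, 0, 0, 100000, 0, 0, 0, ⟨0, 0⟩, 0⟩ 0 0) (.cut .d (-131072) (.void 1 ⟨0, 0, 0, 0, 0, 100000, 0,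 0, 0, ⟨0, 0⟩, 0⟩ 0 0) (.cut .d (-65536) (.void 1 ⟨0, 0, 0, 0, 0, 100000, 0, 0, 0, ⟨0, 0⟩, 0⟩ 0 0) (.cut .v 8388608 (.cut .v 4194304 (.void 4 ⟨0, 0, 100000, 0, 0, 0, 0, 0, 0, ⟨0, 0⟩, 0⟩ 0 0) (.cut .v 6291456 (.void 99 ⟨0, 0, 100000, 0, 0, 0, 0, 0, 0, ⟨0, 0⟩, 0⟩ 0 0) (.cut .v 7340032 (.void 116 ⟨0, 0, 100000, 0, 0, 0, 0, 0, 0, ⟨0, 0⟩, 0⟩ 0 0) (.cut .v 7864320 (.void 118 ⟨0, 0, 100000, 0, 0, 0, 0, 0, 0, ⟨0, 0⟩, 0⟩ 0 0) (.cut .s 13500416 (.cut .d (-32768) (.cut .d (-49152) (.void 119 ⟨0, 0, 0, 0, 0, 100000, 0, 0, 0, ⟨0, 0⟩, 0⟩ 0 0) (.cut .s 13369344 (.cut .s 13303808 (.cut .v 8126464 (.pos 120 .mm ⟨0, 0, 4990426, 0, 0, 370709335, 0, 0, 0, ⟨0, 0⟩, 0⟩ 0 0) (.pos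 121 .mm ⟨0, 0, 2469661, 0, 0, 374509228, 0, 0, 0, ⟨0, 0⟩, 0⟩ 0 0)) (.pos 119 .mm ⟨0, 0, 5675790, 0, 0, 387796072, 0, 0, 0, ⟨0, 0⟩, 0⟩ 0 0)) (.pos 119 .mm ⟨0, 0, 7065575, 0, 0, 407107797, 0, 0, 0, ⟨0, 0⟩, 0⟩ 0 0))) (.cut .s 13369344 (.cut .v 8126464 (.cut .d (-16384) (.pos 120 .mm ⟨0, 0, 6490587, 0, 0, 367474625, 0, 0, 0, ⟨0, 0⟩, 0⟩ 0 0) (.pos 120 .mm ⟨0, 0, 3730458, 0, 0, 354216865, 0, 0, 0, ⟨0, 0⟩, 0⟩ 0 0)) (.pos 121 .mm ⟨0, 0, 0, 0, 0, 370949595, 0, 0, 0, ⟨0, 0⟩, 0⟩ 0 0)) (.cut .v 8126464 (.pos 120 .mm ⟨0, 0, 22435012, 0, 0, 377866853, 0, 0, 0, ⟨0, 0⟩, 0⟩ 0 0) (.pos 121 .mm ⟨0, 0, 5906214, 0, 0, 390159034, 0, 0, 0, ⟨0, 0⟩, 0⟩ 0 0)))) (.cut .v 8126464 (.pos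 120 .mm ⟨0, 0, 422858439, 0, 0, 0, 0, 0, 0, ⟨0, 0⟩, 0⟩ 0 0) (.cut .d (-32768) (.cut .s 13631488 (.pos 121 .mm ⟨0, 0, 9130690, 0, 0, 444779028, 0, 0, 0, ⟨0, 0⟩, 0⟩ 0 0) (.pos 121 .mm ⟨0, 0, 11922471, 0, 0, 482278418, 0, 0, 0, ⟨0, 0⟩, 0⟩ 0 0)) (.cut .s 13631488 (.pos 121 .mm ⟨0, 0, 8433682, 0, 0, 418450006, 0, 0, 0, ⟨0, 0⟩, 0⟩ 0 0) (.cut .s 13697024 (.pos 121 .mm ⟨0, 0, 9653200, 0, 0, 444132691, 0, 0, 0, ⟨0, 0⟩, 0⟩ 0 0) (.pos 121 .mm ⟨0, 0, 10935804, 0, 0, 462703237, 0, 0, 0, ⟨0, 0⟩, 0⟩ 0 0)))))))))) (.cut .v 12582912 (.cut .v 10485760 (.cut .v 9437184 (.cut .v 8912896 (.cut .s 13500416 (.cut .s 13369344 (.pos 130 .mm ⟨0, 0, 0, 0, 0, 391049839, 0, 0, 0, ⟨0, 0⟩,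 0⟩ 0 0) (.pos 130 .mm ⟨0, 0, 0, 0, 0, 418048009, 0, 0, 0, ⟨0, 0⟩, 0⟩ 0 0)) (.cut .s 13631488 (.pos 130 .mm ⟨0, 0, 0, 0, 0, 447097758, 0, 0, 0, ⟨0, 0⟩, 0⟩ 0 0) (.pos 130 .mm ⟨0, 0, 0, 0, 0, 482696488, 0, 0, 0, ⟨0, 0⟩, 0⟩ 0 0))) (.pos 131 .mm ⟨0, 0, 0, 0, 0, 449981644, 0, 0, 0, ⟨0, 0⟩, 0⟩ 0 0)) (.pos 129 .mm ⟨0, 0, 0, 0, 0, 458605058, 0, 0, 0, ⟨0, 0⟩, 0⟩ 0 0)) (.pos 11 .mm ⟨0, 0, 0, 0, 0, 502637833, 0, 0, 0, ⟨0, 0⟩, 0⟩ 0 0)) (.pos 9 .mm ⟨0, 0, 0, 0, 0, 767094954, 0, 0, 0, ⟨0, 0⟩, 0⟩ 0 0))))))))))) (.cut .v 268435456 (.cut .v 67108864 (.cut .v 33554432 (.cut .d (-8388608) (.void 24 ⟨100000, 0, 0, 0, 0, 0, 0, 0, 0, ⟨0, 0⟩, 0⟩ 0 0) (.cut .d (-4194304) (.void 24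 ⟨100000, 0, 0, 0, 0, 0, 0, 0, 0, ⟨0, 0⟩, 0⟩ 0 0) (.cut .v 25165824 (.cut .d (-2097152) (.void 25 ⟨100000, 0, 0, 0, 0, 0, 0, 0, 0, ⟨0, 0⟩, 0⟩ 0 0) (.cut .d (-1048576) (.void 25 ⟨100000, 0, 0, 0, 0, 0, 0, 0, 0, ⟨0, 0⟩, 0⟩ 0 0) (.cut .d (-524288) (.void 25 ⟨100000, 0, 0, 0, 0, 0, 0, 0, 0, ⟨0, 0⟩, 0⟩ 0 0) (.cut .d (-262144) (.void 25 ⟨100000, 0, 0, 0, 0, 0, 0, 0, 0, ⟨0, 0⟩, 0⟩ 0 0) (.cut .d (-131072) (.void 25 ⟨100000, 0, 0, 0, 0, 0, 0, 0, 0, ⟨0, 0⟩, 0⟩ 0 0) (.pos 25 .mp ⟨409995633, 0, 0, 0, 0, 244532573, 0, 0, 0, ⟨0, 0⟩, 0⟩ 0 0)))))) (.void 26 ⟨100000, 0, 0, 0, 0, 0, 0, 0, 0, ⟨0, 0⟩, 0⟩ 0 0)))) (.void 73 ⟨100000, 0, 0, 0, 0, 0, 0, 0, 0, ⟨0, 0⟩, 0⟩ 0 0)) (.void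 84 ⟨100000, 0, 0, 0, 0, 0, 0, 0, 0, ⟨0, 0⟩, 0⟩ 0 0)) (.void 103 ⟨95641, 0, 0, 4359, 0, 0, 0, 0, 0, ⟨0, 0⟩, 0⟩ 0 0))) (.cut .v 16777216 (.cut .v 8388608 (.cut .v 4194304 (.cut .v 2097152 (.cut .d 2242500 (.void 6 ⟨0, 0, 100000, 0, 0, 0, 0, 0, 0, ⟨0, 0⟩, 0⟩ 0 0) (.cut .v 1048576 (.cut .v 524288 (.pos 124 .pm ⟨0, 0, 6160320, 0, 0, 0, 0, 0, 0, ⟨0, 0⟩, 0⟩ 0 0) (.pos 125 .pm ⟨0, 27691261, 0, 0, 0, 0, 0, 0, 0, ⟨0, 0⟩, 0⟩ 0 0)) (.pos 109 .pm ⟨0, 61930895, 0, 0, 0, 0, 0, 0, 0, ⟨0, 0⟩, 0⟩ 0 0))) (.cut .d 2242500 (.pos 7 .pm ⟨0, 0, 95109050, 0, 0, 0, 0, 0, 0, ⟨0, 0⟩, 0⟩ 0 0) (.cut .d 3363750 (.pos 7 .pm ⟨0, 0, 0, 0, 0, 0, 0, 0, 0, ⟨0, 0⟩, 0⟩ 0 0) (.cut .d 3924375 (.pos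 7 .pm ⟨0, 116037310, 0, 0, 0, 0, 0, 0, 0, ⟨0, 0⟩, 0⟩ 0 0) (.cut .s 13500416 (.pos 7 .pm ⟨0, 162788523, 0, 0, 0, 0, 0, 0, 0, ⟨0, 0⟩, 0⟩ 0 0) (.pos 7 .pm ⟨0, 240531228, 0, 0, 0, 0, 0, 0, 0, ⟨0, 0⟩, 0⟩ 0 0)))))) (.cut .d 2242500 (.pos 5 .pm ⟨0, 0, 17281384, 0, 0, 0, 0, 0, 0, ⟨0, 0⟩, 0⟩ 0 0) (.cut .d 3363750 (.pos 5 .pm ⟨0, 0, 0, 0, 0, 0, 0, 0, 0, ⟨0, 0⟩, 0⟩ 0 0) (.cut .d 3924375 (.pos 5 .pm ⟨0, 156453886, 0, 0, 0, 0, 0, 0, 0, ⟨0, 0⟩, 0⟩ 0 0) (.cut .s 13500416 (.pos 5 .pm ⟨0, 217057872, 0, 0, 0, 0, 0, 0, 0, ⟨0, 0⟩, 0⟩ 0 0) (.pos 5 .pm ⟨0, 328945269, 0, 0, 0, 0, 0, 0, 0, ⟨0, 0⟩, 0⟩ 0 0)))))) (.cut .d 2242500 (.pos 3 .pm ⟨0, 0, 0, 0, 0, 0, 0, 0, 0, ⟨0, 0⟩, 0⟩ 0 0)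 (.cut .d 3363750 (.pos 3 .pm ⟨0, 0, 0, 0, 0, 0, 0, 0, 0, ⟨0, 0⟩, 0⟩ 0 0) (.pos 3 .pm ⟨0, 343340054, 0, 0, 0, 0, 0, 0, 0, ⟨0, 0⟩, 0⟩ 0 0)))) (.cut .v 268435456 (.cut .d 2242500 (.cut .v 67108864 (.cut .d 1121250 (.cut .d 560625 (.cut .v 33554432 (.cut .v 25165824 (.pos 25 .pp ⟨225246813, 0, 0, 0, 0, 0, 0, 0, 0, ⟨0, 0⟩, 0⟩ 0 0) (.pos 26 .pp ⟨846979922, 0, 0, 0, 0, 0, 0, 0, 0, ⟨0, 0⟩, 0⟩ 0 0)) (.cut .v 50331648 (.pos 74 .pp ⟨1800631827, 0, 0, 0, 0, 0, 0, 0, 0, ⟨0, 0⟩, 0⟩ 0 0) (.pos 75 .pp ⟨3871112996, 0, 0, 0, 0, 0, 0, 0, 0, ⟨0, 0⟩, 0⟩ 0 0))) (.pos 72 .pp ⟨398988958, 0, 0, 0, 0, 0, 0, 0, 0, ⟨0, 0⟩, 0⟩ 0 0)) (.pos 72 .pp ⟨0, 0, 0, 0, 0, 0, 0, 0, 0, ⟨0, 0⟩, 0⟩ 0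 0)) (.cut .v 134217728 (.cut .d 1121250 (.cut .d 560625 (.void 89 ⟨100000, 0, 0, 0, 0, 0, 0, 0, 0, ⟨0, 0⟩, 0⟩ 0 0) (.cut .v 100663296 (.cut .d 840937 (.pos 91 .pp ⟨6203444042, 0, 0, 0, 0, 0, 0, 0, 0, ⟨0, 0⟩, 0⟩ 0 0) (.pos 91 .pp ⟨4215684372, 0, 0, 0, 0, 0, 0, 0, 0, ⟨0, 0⟩, 0⟩ 0 0)) (.cut .d 840937 (.pos 92 .pp ⟨13155651477, 641264088, 0, 0, 0, 0, 0, 0, 0, ⟨0, 0⟩, 0⟩ 0 0) (.pos 92 .pp ⟨7653906447, 2435668677, 0, 0, 0, 0, 0, 0, 0, ⟨0, 0⟩, 0⟩ 0 0)))) (.pos 89 .pp ⟨0, 1360614253, 0, 0, 0, 0, 0, 0, 0, ⟨0, 0⟩, 0⟩ 0 0)) (.void 90 ⟨36360, 63640, 0, 0, 0, 0, 0, 0, 0, ⟨0, 0⟩, 0⟩ 0 0))) (.pos 83 .pp ⟨0, 376780923, 0, 0, 0, 0, 0, 0, 0, ⟨0, 0⟩, 0⟩ 0 0)) (.void 103 ⟨0, 0,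 0, 100000, 0, 0, 0, 0, 0, ⟨0, 0⟩, 0⟩ 0 0)))),
    by decide +kernel⟩

def covers21 : cell.Covers table row21.1 :=
  ⟨(.cut .d 0 (.cut .v 16777216 (.cut .d (-8388608) (.void 1 ⟨0, 0, 0, 0, 0, 100000, 0, 0, 0, ⟨0, 0⟩, 0⟩ 0 0) (.cut .d (-4194304) (.pos 1 .mm ⟨0, 0, 0, 0, 0, 167772160000, 0, 0, 0, ⟨0, 0⟩, 0⟩ 0 0) (.cut .d (-2097152) (.void 1 ⟨0, 0, 0, 0, 0, 100000, 0, 0, 0, ⟨0, 0⟩, 0⟩ 0 0) (.cut .d (-1048576) (.void 1 ⟨0, 0, 0, 0, 0, 100000, 0, 0, 0, ⟨0, 0⟩, 0⟩ 0 0) (.cut .d (-524288) (.void 1 ⟨0, 0, 0, 0, 0, 100000, 0, 0, 0, ⟨0, 0⟩, 0⟩ 0 0) (.cut .d (-262144) (.void 1 ⟨0, 0, 0, 0, 0, 100000, 0, 0, 0, ⟨0, 0⟩, 0⟩ 0 0) (.cut .d (-131072) (.void 1 ⟨0, 0, 0, 0, 0,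 100000, 0, 0, 0, ⟨0, 0⟩, 0⟩ 0 0) (.cut .d (-65536) (.void 1 ⟨0, 0, 43, 0, 0, 99999, 0, 0, 0, ⟨0, 0⟩, 0⟩ 0 0) (.cut .v 8388608 (.cut .v 4194304 (.void 4 ⟨0, 0, 100000, 0, 0, 0, 0, 0, 0, ⟨0, 0⟩, 0⟩ 0 0) (.cut .s 13959168 (.cut .s 13860864 (.cut .v 6291456 (.void 99 ⟨0, 0, 100000, 0, 0, 0, 0, 0, 0, ⟨0, 0⟩, 0⟩ 0 0) (.cut .d (-32768) (.pos 100 .mm ⟨0, 0, 15116838, 0, 0, 501845405, 0, 0, 0, ⟨0, 0⟩, 0⟩ 0 0) (.pos 100 .mm ⟨0, 0, 19039920, 0, 0, 476019576, 0, 0, 0, ⟨0, 0⟩, 0⟩ 0 0))) (.pos 5 .mm ⟨0, 0, 24666343, 0, 0, 513933760, 0, 0, 0, ⟨0, 0⟩, 0⟩ 0 0)) (.pos 5 .mm ⟨0, 0, 31449549, 0, 0, 561626520, 0, 0, 0, ⟨0, 0⟩, 0⟩ 0 0))) (.cut .d (-32768) (.pos 3 .mm ⟨0, 0, 0, 0,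 0, 587570618, 0, 0, 0, ⟨0, 0⟩, 0⟩ 0 0) (.pos 3 .mm ⟨0, 0, 0, 0, 0, 524434413, 0, 0, 0, ⟨0, 0⟩, 0⟩ 0 0))))))))))) (.cut .v 268435456 (.cut .v 67108864 (.cut .v 33554432 (.cut .d (-8388608) (.void 24 ⟨100000, 0, 0, 0, 0, 0, 0, 0, 0, ⟨0, 0⟩, 0⟩ 0 0) (.cut .d (-4194304) (.void 24 ⟨100000, 0, 0, 0, 0, 0, 0, 0, 0, ⟨0, 0⟩, 0⟩ 0 0) (.cut .v 25165824 (.cut .d (-2097152) (.void 25 ⟨100000, 0, 0, 0, 0, 0, 0, 0, 0, ⟨0, 0⟩, 0⟩ 0 0) (.cut .d (-1048576) (.void 25 ⟨100000, 0, 0, 0, 0, 0, 0, 0, 0, ⟨0, 0⟩, 0⟩ 0 0) (.cut .d (-524288) (.void 25 ⟨100000, 0, 0, 0, 0, 0, 0, 0, 0, ⟨0, 0⟩, 0⟩ 0 0) (.pos 25 .mp ⟨1096494447, 0, 0, 0, 0, 0, 0, 0, 0, ⟨0, 0⟩, 0⟩ 0 0)))) (.void 26 ⟨100000,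 0, 0, 0, 0, 0, 0, 0, 0, ⟨0, 0⟩, 0⟩ 0 0)))) (.void 73 ⟨100000, 0, 0, 0, 0, 0, 0, 0, 0, ⟨0, 0⟩, 0⟩ 0 0)) (.void 84 ⟨100000, 0, 0, 0, 0, 0, 0, 0, 0, ⟨0, 0⟩, 0⟩ 0 0)) (.void 103 ⟨95522, 0, 0, 4478, 0, 0, 0, 0, 0, ⟨0, 0⟩, 0⟩ 0 0))) (.cut .v 16777216 (.cut .v 8388608 (.cut .v 4194304 (.cut .v 2097152 (.cut .d 1837506 (.void 6 ⟨0, 0, 100000, 0, 0, 0, 0, 0, 0, ⟨0, 0⟩, 0⟩ 0 0) (.cut .v 1048576 (.cut .v 524288 (.pos 124 .pm ⟨0, 0, 4388556, 0, 0, 0, 0, 0, 0, ⟨0, 0⟩, 0⟩ 0 0) (.pos 125 .pm ⟨0, 29737677, 0, 0, 0, 0, 0, 0, 0, ⟨0, 0⟩, 0⟩ 0 0)) (.pos 109 .pm ⟨0, 61746544, 0, 0, 0, 0, 0, 0, 0, ⟨0, 0⟩, 0⟩ 0 0))) (.cut .d 1837506 (.pos 7 .pm ⟨0, 0, 139017462, 0, 0, 0, 0, 0, 0,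 ⟨0, 0⟩, 0⟩ 0 0) (.cut .d 2756259 (.pos 7 .pm ⟨0, 0, 0, 0, 0, 0, 0, 0, 0, ⟨0, 0⟩, 0⟩ 0 0) (.cut .d 3215635 (.pos 7 .pm ⟨0, 98637251, 0, 0, 0, 0, 0, 0, 0, ⟨0, 0⟩, 0⟩ 0 0) (.pos 7 .pm ⟨0, 188375947, 0, 0, 0, 0, 0, 0, 0, ⟨0, 0⟩, 0⟩ 0 0))))) (.cut .d 1837506 (.pos 5 .pm ⟨0, 0, 29928873, 0, 0, 0, 0, 0, 0, ⟨0, 0⟩, 0⟩ 0 0) (.cut .d 2756259 (.pos 5 .pm ⟨0, 0, 0, 0, 0, 0, 0, 0, 0, ⟨0, 0⟩, 0⟩ 0 0) (.cut .d 3215635 (.pos 5 .pm ⟨0, 145993500, 0, 0, 0, 0, 0, 0, 0, ⟨0, 0⟩, 0⟩ 0 0) (.pos 5 .pm ⟨0, 253021922, 0, 0, 0, 0, 0, 0, 0, ⟨0, 0⟩, 0⟩ 0 0))))) (.cut .d 1837506 (.pos 3 .pm ⟨0, 0, 0, 0, 0, 0, 0, 0, 0, ⟨0, 0⟩, 0⟩ 0 0) (.pos 3 .pm ⟨0, 250207631, 0, 0, 0, 0, 0, 0, 0, ⟨0, 0⟩,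 0⟩ 0 0))) (.cut .v 268435456 (.cut .d 1837506 (.cut .v 67108864 (.cut .v 33554432 (.pos 24 .pp ⟨389758073, 0, 0, 0, 0, 0, 0, 0, 0, ⟨0, 0⟩, 0⟩ 0 0) (.cut .d 918753 (.cut .v 50331648 (.pos 74 .pp ⟨1688468955, 0, 0, 0, 0, 0, 0, 0, 0, ⟨0, 0⟩, 0⟩ 0 0) (.pos 75 .pp ⟨3419719140, 0, 0, 0, 0, 0, 0, 0, 0, ⟨0, 0⟩, 0⟩ 0 0)) (.pos 73 .pp ⟨0, 0, 0, 0, 0, 0, 0, 0, 0, ⟨0, 0⟩, 0⟩ 0 0))) (.cut .v 134217728 (.cut .d 918753 (.cut .d 459376 (.void 89 ⟨100000, 0, 0, 0, 0, 0, 0, 0, 0, ⟨0, 0⟩, 0⟩ 0 0) (.cut .v 100663296 (.pos 91 .pp ⟨5997091444, 0, 0, 0, 0, 0, 0, 0, 0, ⟨0, 0⟩, 0⟩ 0 0) (.cut .v 117440512 (.pos 114 .pp ⟨10058736866, 0, 0, 0, 0, 0, 0, 0, 0, ⟨0, 0⟩, 0⟩ 0 0) (.void 115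 ⟨36274, 63726, 0, 0, 0, 0, 0, 0, 0, ⟨0, 0⟩, 0⟩ 0 0)))) (.pos 89 .pp ⟨0, 1651653200, 0, 0, 0, 0, 0, 0, 0, ⟨0, 0⟩, 0⟩ 0 0)) (.void 90 ⟨35972, 64028, 0, 0, 0, 0, 0, 0, 0, ⟨0, 0⟩, 0⟩ 0 0))) (.pos 83 .pp ⟨0, 364568714, 0, 0, 0, 0, 0, 0, 0, ⟨0, 0⟩, 0⟩ 0 0)) (.void 103 ⟨0, 0, 0, 100000, 0, 0, 0, 0, 0, ⟨0, 0⟩, 0⟩ 0 0)))),
    by decide +kernel⟩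

def covers22 : cell.Covers table row22.1 :=
  ⟨(.cut .d 0 (.cut .v 16777216 (.cut .d (-8388608) (.void 1 ⟨0, 0, 0, 0, 0, 100000, 0, 0, 0, ⟨0, 0⟩, 0⟩ 0 0) (.cut .d (-4194304) (.void 1 ⟨0, 0, 0, 0, 0, 100000, 0, 0, 0, ⟨0, 0⟩, 0⟩ 0 0) (.cut .d (-2097152) (.void 1 ⟨0, 0, 3, 0, 0, 99995, 0, 0, 0, ⟨0, 0⟩, 0⟩ 0 0) (.cut .d (-1048576) (.void 1 ⟨0, 0, 0, 0, 0, 100000, 0, 0, 0, ⟨0, 0⟩, 0⟩ 0 0) (.cut .d (-524288) (.void 1 ⟨0, 0, 0, 0, 0, 100000, 0, 0, 0, ⟨0, 0⟩, 0⟩ 0 0) (.cut .d (-262144) (.void 1 ⟨0, 0, 0, 0, 0, 99996, 0, 0, 0, ⟨0, 0⟩, 0⟩ 0 0) (.cut .d (-131072) (.void 1 ⟨0, 0, 0, 0, 0, 100003, 0, 0, 0, ⟨0, 0⟩, 0⟩ 0 0) (.cut .v 8388608 (.cut .v 4194304 (.void 4 ⟨0,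 0, 100000, 0, 0, 0, 0, 0, 0, ⟨0, 0⟩, 0⟩ 0 0) (.pos 5 .mm ⟨0, 0, 46919324, 0, 0, 692874049, 0, 0, 0, ⟨0, 0⟩, 0⟩ 0 0)) (.pos 3 .mm ⟨0, 0, 0, 0, 0, 818711909, 0, 0, 0, ⟨0, 0⟩, 0⟩ 0 0))))))))) (.cut .v 268435456 (.cut .v 67108864 (.cut .v 33554432 (.cut .d (-8388608) (.void 24 ⟨100000, 0, 0, 0, 0, 0, 0, 0, 0, ⟨0, 0⟩, 0⟩ 0 0) (.pos 24 .mp ⟨370847788, 0, 0, 0, 0, 11095871532, 0, 0, 0, ⟨0, 0⟩, 0⟩ 0 0)) (.void 73 ⟨100000, 0, 0, 0, 0, 0, 0, 0, 0, ⟨0, 0⟩, 0⟩ 0 0)) (.void 84 ⟨100000, 0, 0, 0, 0, 0, 0, 0, 0, ⟨0, 0⟩, 0⟩ 0 0)) (.void 103 ⟨95423, 0, 0, 4577, 0, 0, 0, 0, 0, ⟨0, 0⟩, 0⟩ 0 0))) (.cut .v 16777216 (.cut .v 8388608 (.cut .v 4194304 (.cut .v 2097152 (.cut .d 1553447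 (.void 6 ⟨0, 0, 100000, 0, 0, 0, 0, 0, 0, ⟨0, 0⟩, 0⟩ 0 0) (.cut .v 1048576 (.cut .v 524288 (.pos 124 .pm ⟨0, 0, 3259660, 0, 0, 0, 0, 0, 0, ⟨0, 0⟩, 0⟩ 0 0) (.pos 125 .pm ⟨0, 30094485, 0, 0, 0, 0, 0, 0, 0, ⟨0, 0⟩, 0⟩ 0 0)) (.pos 109 .pm ⟨0, 58307818, 0, 0, 0, 0, 0, 0, 0, ⟨0, 0⟩, 0⟩ 0 0))) (.cut .d 1553447 (.pos 7 .pm ⟨0, 0, 189250986, 0, 0, 0, 0, 0, 0, ⟨0, 0⟩, 0⟩ 0 0) (.cut .d 2330170 (.pos 7 .pm ⟨0, 0, 0, 0, 0, 0, 0, 0, 0, ⟨0, 0⟩, 0⟩ 0 0) (.pos 7 .pm ⟨0, 131085838, 0, 0, 0, 0, 0, 0, 0, ⟨0, 0⟩, 0⟩ 0 0)))) (.cut .d 1553447 (.pos 5 .pm ⟨0, 0, 47392689, 0, 0, 0, 0, 0, 0, ⟨0, 0⟩, 0⟩ 0 0) (.pos 5 .pm ⟨0, 140271875, 0, 0, 0, 0, 0, 0, 0, ⟨0, 0⟩, 0⟩ 0 0))) (.pos 3 .pm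 ⟨0, 0, 0, 0, 0, 0, 0, 0, 0, ⟨0, 0⟩, 0⟩ 0 0)) (.cut .v 268435456 (.cut .d 1553447 (.cut .v 67108864 (.cut .v 33554432 (.pos 24 .pp ⟨370847788, 0, 0, 0, 0, 0, 0, 0, 0, ⟨0, 0⟩, 0⟩ 0 0) (.cut .v 50331648 (.pos 74 .pp ⟨1471584145, 0, 0, 0, 0, 0, 0, 0, 0, ⟨0, 0⟩, 0⟩ 0 0) (.cut .d 776723 (.pos 75 .pp ⟨3919325563, 0, 0, 0, 0, 0, 0, 0, 0, ⟨0, 0⟩, 0⟩ 0 0) (.pos 75 .pp ⟨0, 0, 0, 0, 0, 0, 0, 0, 0, ⟨0, 0⟩, 0⟩ 0 0)))) (.cut .v 134217728 (.cut .d 776723 (.cut .d 388361 (.void 89 ⟨100000, 0, 0, 0, 0, 0, 0, 0, 0, ⟨0, 0⟩, 0⟩ 0 0) (.cut .v 100663296 (.pos 91 .pp ⟨6880694038, 0, 0, 0, 0, 0, 0, 0, 0, ⟨0, 0⟩, 0⟩ 0 0) (.cut .d 582542 (.pos 92 .pp ⟨24684450295, 0, 0, 0, 0, 0, 0, 0,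 0, ⟨0, 0⟩, 0⟩ 0 0) (.pos 92 .pp ⟨10532387882, 3688377613, 0, 0, 0, 0, 0, 0, 0, ⟨0, 0⟩, 0⟩ 0 0)))) (.pos 89 .pp ⟨0, 1947578107, 0, 0, 0, 0, 0, 0, 0, ⟨0, 0⟩, 0⟩ 0 0)) (.void 90 ⟨35632, 64368, 0, 0, 0, 0, 0, 0, 0, ⟨0, 0⟩, 0⟩ 0 0))) (.pos 83 .pp ⟨0, 333068550, 0, 0, 0, 0, 0, 0, 0, ⟨0, 0⟩, 0⟩ 0 0)) (.void 103 ⟨0, 0, 0, 100000, 0, 0, 0, 0, 0, ⟨0, 0⟩, 0⟩ 0 0)))),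
    by decide +kernel⟩

def covers23 : cell.Covers table row23.1 :=
  ⟨(.cut .d 0 (.cut .v 16777216 (.cut .d (-8388608) (.void 1 ⟨0, 0, 0, 0, 0, 100000, 0, 0, 0, ⟨0, 0⟩, 0⟩ 0 0) (.cut .d (-4194304) (.pos 1 .mm ⟨0, 0, 0, 0, 0, 167772160000, 0, 0, 0, ⟨0, 0⟩, 0⟩ 0 0) (.cut .d (-2097152) (.void 1 ⟨0, 0, 0, 0, 0, 100000, 0, 0, 0, ⟨0, 0⟩, 0⟩ 0 0) (.cut .d (-1048576) (.void 1 ⟨0, 0, 0, 0, 0, 100000, 0, 0, 0, ⟨0, 0⟩, 0⟩ 0 0) (.cut .d (-524288) (.void 1 ⟨0, 0, 0, 0, 0, 100000, 0, 0, 0, ⟨0, 0⟩, 0⟩ 0 0) (.cut .d (-262144) (.void 1 ⟨0, 0, 0, 0, 0, 100000, 0, 0, 0, ⟨0, 0⟩, 0⟩ 0 0) (.cut .d (-131072) (.void 1 ⟨0, 0, 0, 0, 0, 100000, 0, 0, 0, ⟨0, 0⟩, 0⟩ 0 0) (.cut .v 8388608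 (.cut .v 4194304 (.void 4 ⟨0, 0, 100000, 0, 0, 0, 0, 0, 0, ⟨0, 0⟩, 0⟩ 0 0) (.pos 5 .mm ⟨0, 0, 70369650, 0, 0, 843779706, 0, 0, 0, ⟨0, 0⟩, 0⟩ 0 0)) (.pos 3 .mm ⟨0, 0, 0, 0, 0, 976203303, 0, 0, 0, ⟨0, 0⟩, 0⟩ 0 0))))))))) (.cut .v 268435456 (.cut .v 67108864 (.cut .v 33554432 (.pos 24 .mp ⟨225062965, 0, 0, 0, 0, 25155784559, 0, 0, 0, ⟨0, 0⟩, 0⟩ 0 0) (.void 73 ⟨100000, 0, 0, 0, 0, 0, 0, 0, 0, ⟨0, 0⟩, 0⟩ 0 0)) (.void 84 ⟨100000, 0, 0, 0, 0, 0, 0, 0, 0, ⟨0, 0⟩, 0⟩ 0 0)) (.void 103 ⟨95325, 0, 0, 4675, 0, 0, 0, 0, 0, ⟨0, 0⟩, 0⟩ 0 0))) (.cut .v 16777216 (.cut .v 8388608 (.cut .v 4194304 (.cut .v 2097152 (.cut .d 1328514 (.void 6 ⟨0, 0, 100000, 0, 0, 0, 0, 0, 0, ⟨0,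 0⟩, 0⟩ 0 0) (.cut .v 1048576 (.cut .v 524288 (.cut .v 262144 (.pos 136 .pm ⟨0, 0, 11628278, 0, 0, 0, 0, 0, 0, ⟨0, 0⟩, 0⟩ 0 0) (.pos 137 .pm ⟨0, 7453981, 0, 0, 0, 0, 0, 0, 0, ⟨0, 0⟩, 0⟩ 0 0)) (.pos 125 .pm ⟨0, 29703496, 0, 0, 0, 0, 0, 0, 0, ⟨0, 0⟩, 0⟩ 0 0)) (.pos 109 .pm ⟨0, 52256348, 0, 0, 0, 0, 0, 0, 0, ⟨0, 0⟩, 0⟩ 0 0))) (.cut .d 1328514 (.pos 7 .pm ⟨0, 0, 262987658, 0, 0, 0, 0, 0, 0, ⟨0, 0⟩, 0⟩ 0 0) (.pos 7 .pm ⟨0, 77457695, 0, 0, 0, 0, 0, 0, 0, ⟨0, 0⟩, 0⟩ 0 0))) (.cut .d 1328514 (.pos 5 .pm ⟨0, 0, 71038095, 0, 0, 0, 0, 0, 0, ⟨0, 0⟩, 0⟩ 0 0) (.pos 5 .pm ⟨0, 131111809, 0, 0, 0, 0, 0, 0, 0, ⟨0, 0⟩, 0⟩ 0 0))) (.pos 3 .pm ⟨0, 0, 31113973, 0, 0, 0, 0, 0, 0, ⟨0,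 0⟩, 0⟩ 0 0)) (.cut .v 268435456 (.cut .d 1328514 (.cut .v 67108864 (.cut .v 33554432 (.pos 24 .pp ⟨225062965, 0, 0, 0, 0, 0, 0, 0, 0, ⟨0, 0⟩, 0⟩ 0 0) (.cut .v 50331648 (.pos 74 .pp ⟨1681500140, 0, 0, 0, 0, 0, 0, 0, 0, ⟨0, 0⟩, 0⟩ 0 0) (.pos 75 .pp ⟨3337109757, 0, 0, 0, 0, 0, 0, 0, 0, ⟨0, 0⟩, 0⟩ 0 0))) (.cut .v 134217728 (.cut .d 664257 (.cut .d 332128 (.void 89 ⟨100000, 0, 0, 0, 0, 0, 0, 0, 0, ⟨0, 0⟩, 0⟩ 0 0) (.cut .v 100663296 (.pos 91 .pp ⟨7718948280, 0, 0, 0, 0, 0, 0, 0, 0, ⟨0, 0⟩, 0⟩ 0 0) (.pos 92 .pp ⟨15006027648, 5326345291, 0, 0, 0, 0, 0, 0, 0, ⟨0, 0⟩, 0⟩ 0 0))) (.pos 89 .pp ⟨0, 2317761812, 0, 0, 0, 0, 0, 0, 0, ⟨0, 0⟩, 0⟩ 0 0)) (.void 90 ⟨82850, 9213,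 0, 7937, 0, 0, 0, 0, 0, ⟨0, 0⟩, 0⟩ 0 0))) (.pos 83 .pp ⟨0, 272911202, 0, 0, 0, 0, 0, 0, 0, ⟨0, 0⟩, 0⟩ 0 0)) (.void 103 ⟨0, 0, 0, 100000, 0, 0, 0, 0, 0, ⟨0, 0⟩, 0⟩ 0 0)))),
    by decide +kernel⟩

def covers24 : cell.Covers table row24.1 :=
  ⟨(.cut .d 0 (.cut .v 16777216 (.cut .v 8388608 (.void 2 ⟨0, 0, 100000, 0, 0, 0, 0, 0, 0, ⟨0, 0⟩, 0⟩ 0 0) (.cut .d (-8388608) (.void 3 ⟨100000, 0, 0, 0, 0, 0, 0, 0, 0, ⟨0, 0⟩, 0⟩ 0 0) (.cut .d (-4194304) (.void 3 ⟨100000, 0, 0, 0, 0, 0, 0, 0, 0, ⟨0, 0⟩, 0⟩ 0 0) (.cut .d (-2097152) (.void 3 ⟨100000, 0, 0, 0, 0, 0, 0, 0, 0, ⟨0, 0⟩, 0⟩ 0 0) (.cut .v 12582912 (.cut .d (-1048576) (.void 8 ⟨100000, 0, 0, 0, 0, 0, 0, 0, 0, ⟨0,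 0⟩, 0⟩ 0 0) (.cut .v 10485760 (.cut .d (-524288) (.void 10 ⟨0, 0, 0, 0, 0, 100000, 0, 0, 0, ⟨0, 0⟩, 0⟩ 0 0) (.cut .v 9437184 (.cut .d (-262144) (.void 128 ⟨0, 0, 0, 0, 0, 100000, 0, 0, 0, ⟨0, 0⟩, 0⟩ 0 0) (.cut .s 14942208 (.pos 128 .mm ⟨0, 0, 65990534, 0, 0, 1112978836, 0, 0, 0, ⟨0, 0⟩, 0⟩ 0 0) (.pos 128 .mm ⟨0, 0, 82458339, 0, 0, 1221347460, 0, 0, 0, ⟨0, 0⟩, 0⟩ 0 0))) (.pos 129 .mm ⟨0, 0, 0, 0, 0, 1557111376, 0, 0, 0, ⟨0, 0⟩, 0⟩ 0 0))) (.pos 11 .mm ⟨0, 0, 0, 0, 0, 2225576890, 0, 0, 0, ⟨0, 0⟩, 0⟩ 0 0))) (.pos 9 .mm ⟨0, 0, 0, 0, 0, 3922613834, 0, 0, 0, ⟨0, 0⟩, 0⟩ 0 0)))))) (.cut .v 268435456 (.cut .v 67108864 (.cut .v 33554432 (.pos 24 .mp ⟨0, 0, 0, 0, 0, 32182456481,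 0, 0, 0, ⟨0, 0⟩, 0⟩ 0 0) (.void 73 ⟨100000, 0, 0, 0, 0, 0, 0, 0, 0, ⟨0, 0⟩, 0⟩ 0 0)) (.void 84 ⟨100000, 0, 0, 0, 0, 0, 0, 0, 0, ⟨0, 0⟩, 0⟩ 0 0)) (.void 103 ⟨103479, 0, 0, 4119, 0, 0, 0, 0, 0, ⟨0, 0⟩, 0⟩ 0 0))) (.cut .v 16777216 (.cut .v 8388608 (.cut .v 4194304 (.cut .v 2097152 (.cut .v 1048576 (.cut .v 524288 (.cut .v 262144 (.pos 136 .pm ⟨0, 0, 19397957, 0, 0, 0, 0, 0, 0, ⟨0, 0⟩, 0⟩ 0 0) (.pos 137 .pm ⟨0, 0, 21663617, 0, 0, 0, 0, 0, 0, ⟨0, 0⟩, 0⟩ 0 0)) (.pos 125 .pm ⟨0, 0, 25730724, 0, 0, 0, 0, 0, 0, ⟨0, 0⟩, 0⟩ 0 0)) (.pos 109 .pm ⟨0, 0, 36333684, 0, 0, 0, 0, 0, 0, ⟨0, 0⟩, 0⟩ 0 0)) (.cut .d 1113533 (.pos 7 .pm ⟨0, 0, 376352819, 0, 0, 0, 0, 0, 0, ⟨0, 0⟩, 0⟩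 0 0) (.pos 7 .pm ⟨0, 52207270, 0, 0, 0, 0, 0, 0, 0, ⟨0, 0⟩, 0⟩ 0 0))) (.cut .d 1113533 (.pos 5 .pm ⟨0, 0, 535365371, 0, 0, 0, 0, 0, 0, ⟨0, 0⟩, 0⟩ 0 0) (.pos 5 .pm ⟨0, 97635747, 0, 0, 0, 0, 0, 0, 0, ⟨0, 0⟩, 0⟩ 0 0))) (.pos 3 .pm ⟨0, 0, 50619380, 0, 0, 0, 0, 0, 0, ⟨0, 0⟩, 0⟩ 0 0)) (.cut .v 268435456 (.cut .d 1113533 (.cut .v 67108864 (.cut .v 33554432 (.pos 24 .pp ⟨0, 0, 0, 0, 0, 0, 0, 0, 0, ⟨0, 0⟩, 0⟩ 0 0) (.cut .v 50331648 (.pos 74 .pp ⟨1957767545, 0, 0, 0, 0, 0, 0, 0, 0, ⟨0, 0⟩, 0⟩ 0 0) (.pos 75 .pp ⟨3865838225, 0, 0, 0, 0, 0, 0, 0, 0, ⟨0, 0⟩, 0⟩ 0 0))) (.cut .v 134217728 (.cut .d 556766 (.cut .v 100663296 (.pos 91 .pp ⟨10904208025, 0, 0, 0, 0, 0, 0, 0, 0,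 ⟨0, 0⟩, 0⟩ 0 0) (.cut .v 117440512 (.pos 114 .pp ⟨16436825581, 0, 0, 0, 0, 0, 0, 0, 0, ⟨0, 0⟩, 0⟩ 0 0) (.void 115 ⟨35377, 64623, 0, 0, 0, 0, 0, 0, 0, ⟨0, 0⟩, 0⟩ 0 0))) (.pos 89 .pp ⟨0, 2906933971, 0, 0, 0, 0, 0, 0, 0, ⟨0, 0⟩, 0⟩ 0 0)) (.void 90 ⟨90752, 0, 0, 9356, 0, 0, 0, 0, 0, ⟨0, 0⟩, 0⟩ 0 0))) (.pos 83 .pp ⟨0, 123311255, 0, 0, 0, 0, 0, 0, 0, ⟨0, 0⟩, 0⟩ 0 0)) (.void 103 ⟨0, 0, 0, 100000, 0, 0, 0, 0, 0, ⟨0, 0⟩, 0⟩ 0 0)))),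
    by decide +kernel⟩

def covers25 : cell.Covers table row25.1 :=
  ⟨(.cut .d 0 (.cut .v 16777216 (.cut .v 8388608 (.pos 2 .mm ⟨0, 0, 167772160000, 0, 0, 0, 0, 0, 0, ⟨0, 0⟩, 0⟩ 0 0) (.cut .d (-8388608) (.void 3 ⟨100000, 0, 0, 0, 0, 0, 0, 0, 0, ⟨0, 0⟩, 0⟩ 0 0) (.cut .d (-4194304) (.void 3 ⟨100000, 0, 0, 0, 0, 0, 0, 0, 0, ⟨0, 0⟩, 0⟩ 0 0) (.cut .d (-2097152) (.void 3 ⟨100000, 0, 0, 0, 0, 0, 0, 0, 0, ⟨0, 0⟩, 0⟩ 0 0) (.cut .v 12582912 (.cut .d (-1048576) (.void 8 ⟨100000, 0, 0, 0, 0, 0, 0, 0, 0, ⟨0, 0⟩, 0⟩ 0 0) (.cut .v 10485760 (.cut .d (-524288) (.void 10 ⟨100000, 0, 0, 0, 0, 0, 0, 0, 0, ⟨0, 0⟩, 0⟩ 0 0) (.cut .v 9437184 (.cut .d (-262144) (.void 128 ⟨0, 0, 0,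 0, 0, 100000, 0, 0, 0, ⟨0, 0⟩, 0⟩ 0 0) (.cut .s 15171584 (.pos 128 .mm ⟨0, 0, 94225306, 0, 0, 1315632704, 0, 0, 0, ⟨0, 0⟩, 0⟩ 0 0) (.cut .v 8912896 (.pos 130 .mm ⟨0, 0, 112415295, 0, 0, 1337237453, 0, 0, 0, ⟨0, 0⟩, 0⟩ 0 0) (.pos 131 .mm ⟨0, 0, 0, 0, 0, 1496558462, 0, 0, 0, ⟨0, 0⟩, 0⟩ 0 0)))) (.pos 129 .mm ⟨0, 0, 0, 0, 0, 1838631458, 0, 0, 0, ⟨0, 0⟩, 0⟩ 0 0))) (.pos 11 .mm ⟨0, 0, 0, 0, 0, 2637651815, 0, 0, 0, ⟨0, 0⟩, 0⟩ 0 0))) (.pos 9 .mm ⟨0, 0, 0, 0, 0, 4669802642, 0, 0, 0, ⟨0, 0⟩, 0⟩ 0 0)))))) (.cut .d (-8388608) (.void 102 ⟨100000, 0, 0, 0, 0, 0, 0, 0, 0, ⟨0, 0⟩, 0⟩ 0 0) (.cut .v 268435456 (.cut .v 67108864 (.pos 72 .mp ⟨3470470434, 0, 0, 0, 0, 44141311165,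 0, 0, 0, ⟨0, 0⟩, 0⟩ 0 0) (.void 84 ⟨100000, 0, 0, 0, 0, 0, 0, 0, 0, ⟨0, 0⟩, 0⟩ 0 0)) (.void 103 ⟨92950, 0, 0, 7050, 0, 0, 0, 0, 0, ⟨0, 0⟩, 0⟩ 0 0)))) (.cut .v 16777216 (.cut .v 8388608 (.cut .v 4194304 (.cut .v 2097152 (.cut .v 1048576 (.cut .v 524288 (.cut .v 262144 (.pos 136 .pm ⟨0, 0, 21793250, 0, 0, 0, 0, 0, 0, ⟨0, 0⟩, 0⟩ 0 0) (.pos 137 .pm ⟨0, 0, 29632180, 0, 0, 0, 0, 0, 0, ⟨0, 0⟩, 0⟩ 0 0)) (.pos 125 .pm ⟨0, 0, 42097961, 0, 0, 0, 0, 0, 0, ⟨0, 0⟩, 0⟩ 0 0)) (.pos 109 .pm ⟨0, 0, 62606245, 0, 0, 0, 0, 0, 0, ⟨0, 0⟩, 0⟩ 0 0)) (.pos 7 .pm ⟨0, 0, 94352434, 0, 0, 0, 0, 0, 0, ⟨0, 0⟩, 0⟩ 0 0)) (.pos 5 .pm ⟨0, 0, 171472706, 0, 0, 0, 0, 0, 0, ⟨0, 0⟩, 0⟩ 0 0)) (.pos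 3 .pm ⟨0, 0, 73406144, 0, 0, 0, 0, 0, 0, ⟨0, 0⟩, 0⟩ 0 0)) (.cut .v 268435456 (.cut .d 948278 (.cut .v 67108864 (.cut .v 33554432 (.pos 24 .pp ⟨0, 0, 0, 0, 0, 0, 0, 0, 0, ⟨0, 0⟩, 0⟩ 0 0) (.cut .v 50331648 (.pos 74 .pp ⟨2262318308, 0, 0, 0, 0, 0, 0, 0, 0, ⟨0, 0⟩, 0⟩ 0 0) (.pos 75 .pp ⟨4448371666, 0, 0, 0, 0, 0, 0, 0, 0, ⟨0, 0⟩, 0⟩ 0 0))) (.cut .v 134217728 (.cut .d 474139 (.cut .v 100663296 (.pos 91 .pp ⟨12268013399, 0, 0, 0, 0, 0, 0, 0, 0, ⟨0, 0⟩, 0⟩ 0 0) (.cut .v 117440512 (.pos 114 .pp ⟨18349168502, 0, 0, 0, 0, 0, 0, 0, 0, ⟨0, 0⟩, 0⟩ 0 0) (.void 115 ⟨35137, 64863, 0, 0, 0, 0, 0, 0, 0, ⟨0, 0⟩, 0⟩ 0 0))) (.pos 89 .pp ⟨0, 3698074573, 0, 0, 0, 0, 0, 0, 0, ⟨0,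 0⟩, 0⟩ 0 0)) (.void 90 ⟨90581, 0, 0, 9419, 0, 0, 0, 0, 0, ⟨0, 0⟩, 0⟩ 0 0))) (.pos 83 .pp ⟨0, 0, 0, 0, 0, 0, 0, 0, 0, ⟨0, 0⟩, 0⟩ 0 0)) (.void 103 ⟨0, 0, 0, 100000, 0, 0, 0, 0, 0, ⟨0, 0⟩, 0⟩ 0 0)))),
    by decide +kernel⟩

def covers26 : cell.Covers table row26.1 :=
  ⟨(.cut .d 0 (.cut .v 16777216 (.cut .v 8388608 (.pos 2 .mm ⟨0, 0, 167772160000, 0, 0, 0, 0, 0, 0, ⟨0, 0⟩, 0⟩ 0 0) (.cut .d (-8388608) (.void 3 ⟨100000, 0, 0, 0, 0, 0, 0, 0, 0, ⟨0, 0⟩, 0⟩ 0 0) (.cut .d (-4194304) (.void 3 ⟨100000, 0, 0, 0, 0, 0, 0, 0, 0, ⟨0, 0⟩, 0⟩ 0 0) (.cut .d (-2097152) (.void 3 ⟨100000, 0, 0, 0, 0, 0, 0, 0, 0, ⟨0, 0⟩, 0⟩ 0 0) (.cut .v 12582912 (.cut .d (-1048576) (.void 8 ⟨100000,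 0, 0, 0, 0, 0, 0, 0, 0, ⟨0, 0⟩, 0⟩ 0 0) (.cut .v 10485760 (.cut .d (-524288) (.void 10 ⟨100000, 0, 0, 0, 0, 0, 0, 0, 0, ⟨0, 0⟩, 0⟩ 0 0) (.cut .v 9437184 (.cut .d (-262144) (.void 128 ⟨0, 0, 0, 0, 0, 100000, 0, 0, 0, ⟨0, 0⟩, 0⟩ 0 0) (.cut .v 8912896 (.cut .v 8650752 (.cut .v 8519680 (.void 138 ⟨0, 0, 100000, 0, 0, 0, 0, 0, 0, ⟨0, 0⟩, 0⟩ 0 0) (.cut .d (-131072) (.void 139 ⟨0, 0, 0, 0, 0, 100000, 0, 0, 0, ⟨0, 0⟩, 0⟩ 0 0) (.cut .s 15400960 (.pos 139 .mm ⟨0, 0, 122549540, 0, 0, 1385502674, 0, 0, 0, ⟨0, 0⟩, 0⟩ 0 0) (.pos 139 .mm ⟨0, 0, 160568599, 0, 0, 1567625980, 0, 0, 0, ⟨0, 0⟩, 0⟩ 0 0)))) (.pos 133 .mm ⟨0, 0, 0, 0, 0, 1850560228, 0, 0, 0, ⟨0, 0⟩, 0⟩ 0 0)) (.pos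 131 .mm ⟨0, 0, 0, 0, 0, 1935805862, 0, 0, 0, ⟨0, 0⟩, 0⟩ 0 0))) (.pos 129 .mm ⟨0, 0, 0, 0, 0, 2385187312, 0, 0, 0, ⟨0, 0⟩, 0⟩ 0 0))) (.pos 11 .mm ⟨0, 0, 0, 0, 0, 3432392707, 0, 0, 0, ⟨0, 0⟩, 0⟩ 0 0))) (.pos 9 .mm ⟨0, 0, 0, 0, 0, 6100274183, 0, 0, 0, ⟨0, 0⟩, 0⟩ 0 0)))))) (.cut .v 268435456 (.cut .v 67108864 (.cut .v 33554432 (.pos 24 .mp ⟨0, 0, 0, 0, 0, 52091590500, 0, 0, 0, ⟨0, 0⟩, 0⟩ 0 0) (.void 73 ⟨100000, 0, 0, 0, 0, 0, 0, 0, 0, ⟨0, 0⟩, 0⟩ 0 0)) (.void 84 ⟨100000, 0, 0, 0, 0, 0, 0, 0, 0, ⟨0, 0⟩, 0⟩ 0 0)) (.void 103 ⟨100012, 0, 0, 4704, 0, 0, 0, 0, 0, ⟨0, 0⟩, 0⟩ 0 0))) (.cut .v 16777216 (.cut .v 8388608 (.cut .v 4194304 (.cut .v 2097152 (.cut .v 1048576 (.cut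 .v 524288 (.cut .v 262144 (.cut .v 131072 (.pos 142 .pm ⟨0, 0, 21603022, 0, 0, 0, 0, 0, 0, ⟨0, 0⟩, 0⟩ 0 0) (.pos 143 .pm ⟨0, 0, 29125066, 0, 0, 0, 0, 0, 0, ⟨0, 0⟩, 0⟩ 0 0)) (.pos 137 .pm ⟨0, 0, 40598559, 0, 0, 0, 0, 0, 0, ⟨0, 0⟩, 0⟩ 0 0)) (.pos 125 .pm ⟨0, 0, 61085498, 0, 0, 0, 0, 0, 0, ⟨0, 0⟩, 0⟩ 0 0)) (.pos 109 .pm ⟨0, 0, 93394421, 0, 0, 0, 0, 0, 0, ⟨0, 0⟩, 0⟩ 0 0)) (.pos 7 .pm ⟨0, 0, 147380145, 0, 0, 0, 0, 0, 0, ⟨0, 0⟩, 0⟩ 0 0)) (.pos 5 .pm ⟨0, 0, 282063405, 0, 0, 0, 0, 0, 0, ⟨0, 0⟩, 0⟩ 0 0)) (.pos 3 .pm ⟨0, 0, 98975379, 0, 0, 0, 0, 0, 0, ⟨0, 0⟩, 0⟩ 0 0)) (.cut .v 268435456 (.cut .d 828061 (.cut .v 67108864 (.cut .v 33554432 (.pos 24 .pp ⟨0, 0, 0, 0, 0,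 0, 0, 0, 0, ⟨0, 0⟩, 0⟩ 0 0) (.pos 73 .pp ⟨3214102793, 0, 0, 0, 0, 0, 0, 0, 0, ⟨0, 0⟩, 0⟩ 0 0)) (.cut .v 134217728 (.cut .d 414030 (.cut .v 100663296 (.pos 91 .pp ⟨14169021106, 0, 0, 0, 0, 0, 0, 0, 0, ⟨0, 0⟩, 0⟩ 0 0) (.cut .v 117440512 (.pos 114 .pp ⟨21296873214, 97281016, 0, 0, 0, 0, 0, 0, 0, ⟨0, 0⟩, 0⟩ 0 0) (.void 115 ⟨34790, 65210, 0, 0, 0, 0, 0, 0, 0, ⟨0, 0⟩, 0⟩ 0 0))) (.pos 89 .pp ⟨0, 4661713960, 0, 0, 0, 0, 0, 0, 0, ⟨0, 0⟩, 0⟩ 0 0)) (.void 90 ⟨90465, 0, 0, 9535, 0, 0, 0, 0, 0, ⟨0, 0⟩, 0⟩ 0 0))) (.pos 83 .pp ⟨0, 0, 0, 0, 0, 0, 0, 0, 0, ⟨0, 0⟩, 0⟩ 0 0)) (.void 103 ⟨0, 0, 0, 100000, 0, 0, 0, 0, 0, ⟨0, 0⟩, 0⟩ 0 0)))),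
    by decide +kernel⟩

def covers27 : cell.Covers table row27.1 :=
  ⟨(.cut .d 0 (.cut .v 16777216 (.cut .v 8388608 (.pos 2 .mm ⟨0, 0, 167772160000, 0, 0, 0, 0, 0, 0, ⟨0, 0⟩, 0⟩ 0 0) (.cut .d (-8388608) (.void 3 ⟨100000, 0, 0, 0, 0, 0, 0, 0, 0, ⟨0, 0⟩, 0⟩ 0 0) (.cut .d (-4194304) (.void 3 ⟨100000, 0, 0, 0, 0, 0, 0, 0, 0, ⟨0, 0⟩, 0⟩ 0 0) (.cut .d (-2097152) (.void 3 ⟨100000, 0, 0, 0, 0, 0, 0, 0, 0, ⟨0, 0⟩, 0⟩ 0 0) (.cut .v 12582912 (.cut .d (-1048576) (.void 8 ⟨100000, 0, 0, 0, 0, 0, 0, 0, 0, ⟨0, 0⟩, 0⟩ 0 0) (.cut .v 10485760 (.cut .d (-524288) (.void 10 ⟨100000, 0, 0, 0, 0, 0, 0, 0, 0, ⟨0, 0⟩, 0⟩ 0 0) (.cut .v 9437184 (.cut .d (-262144) (.void 128 ⟨0, 0, 0,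 0, 0, 100000, 0, 0, 0, ⟨0, 0⟩, 0⟩ 0 0) (.cut .v 8912896 (.cut .d (-131072) (.void 130 ⟨0, 0, 0, 0, 0, 100000, 0, 0, 0, ⟨0, 0⟩, 0⟩ 0 0) (.cut .v 8650752 (.cut .s 15654912 (.cut .s 15593472 (.pos 132 .mm ⟨0, 0, 181343074, 0, 0, 1667751042, 0, 0, 0, ⟨0, 0⟩, 0⟩ 0 0) (.pos 132 .mm ⟨0, 0, 203616061, 0, 0, 1789246713, 0, 0, 0, ⟨0, 0⟩, 0⟩ 0 0)) (.pos 132 .mm ⟨0, 0, 245413020, 0, 0, 2097105238, 0, 0, 0, ⟨0, 0⟩, 0⟩ 0 0)) (.pos 133 .mm ⟨0, 0, 0, 0, 0, 2354871537, 0, 0, 0, ⟨0, 0⟩, 0⟩ 0 0))) (.pos 131 .mm ⟨0, 0, 0, 0, 0, 2632728968, 0, 0, 0, ⟨0, 0⟩, 0⟩ 0 0))) (.pos 129 .mm ⟨0, 0, 0, 0, 0, 3244497211, 0, 0, 0, ⟨0, 0⟩, 0⟩ 0 0))) (.pos 11 .mm ⟨0, 0, 0, 0, 0, 4665120594, 0,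 0, 0, ⟨0, 0⟩, 0⟩ 0 0))) (.pos 9 .mm ⟨0, 0, 0, 0, 0, 8279028176, 0, 0, 0, ⟨0, 0⟩, 0⟩ 0 0)))))) (.cut .d (-8388608) (.void 102 ⟨100000, 0, 0, 0, 0, 0, 0, 0, 0, ⟨0, 0⟩, 0⟩ 0 0) (.cut .v 268435456 (.cut .v 67108864 (.pos 72 .mp ⟨3553137309, 0, 0, 0, 0, 80421955068, 0, 0, 0, ⟨0, 0⟩, 0⟩ 0 0) (.void 84 ⟨100000, 0, 0, 0, 0, 0, 0, 0, 0, ⟨0, 0⟩, 0⟩ 0 0)) (.void 103 ⟨92733, 0, 0, 7267, 0, 0, 0, 0, 0, ⟨0, 0⟩, 0⟩ 0 0)))) (.cut .v 16777216 (.cut .v 8388608 (.cut .v 4194304 (.cut .v 2097152 (.cut .v 1048576 (.cut .v 524288 (.cut .v 262144 (.cut .v 131072 (.pos 142 .pm ⟨0, 0, 25690370, 0, 0, 0, 0, 0, 0, ⟨0, 0⟩, 0⟩ 0 0) (.pos 143 .pm ⟨0, 0, 41962773, 0, 0, 0, 0, 0, 0, ⟨0, 0⟩,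 0⟩ 0 0)) (.pos 137 .pm ⟨0, 0, 62741540, 0, 0, 0, 0, 0, 0, ⟨0, 0⟩, 0⟩ 0 0)) (.pos 125 .pm ⟨0, 0, 97393894, 0, 0, 0, 0, 0, 0, ⟨0, 0⟩, 0⟩ 0 0)) (.pos 109 .pm ⟨0, 0, 158048283, 0, 0, 0, 0, 0, 0, ⟨0, 0⟩, 0⟩ 0 0)) (.pos 7 .pm ⟨0, 0, 264174704, 0, 0, 0, 0, 0, 0, ⟨0, 0⟩, 0⟩ 0 0)) (.pos 5 .pm ⟨0, 0, 519506377, 0, 0, 0, 0, 0, 0, ⟨0, 0⟩, 0⟩ 0 0)) (.pos 3 .pm ⟨0, 0, 146757474, 0, 0, 0, 0, 0, 0, ⟨0, 0⟩, 0⟩ 0 0)) (.cut .v 268435456 (.cut .d 672505 (.cut .v 67108864 (.cut .v 33554432 (.pos 24 .pp ⟨0, 0, 0, 0, 0, 0, 0, 0, 0, ⟨0, 0⟩, 0⟩ 0 0) (.pos 73 .pp ⟨3954222831, 0, 0, 0, 0, 0, 0, 0, 0, ⟨0, 0⟩, 0⟩ 0 0)) (.cut .v 134217728 (.cut .d 336252 (.cut .v 100663296 (.pos 91 .pp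 ⟨17608873469, 0, 0, 0, 0, 0, 0, 0, 0, ⟨0, 0⟩, 0⟩ 0 0) (.cut .v 117440512 (.pos 114 .pp ⟨26835436694, 2106028354, 0, 0, 0, 0, 0, 0, 0, ⟨0, 0⟩, 0⟩ 0 0) (.void 115 ⟨34486, 65514, 0, 0, 0, 0, 0, 0, 0, ⟨0, 0⟩, 0⟩ 0 0))) (.pos 89 .pp ⟨0, 6902013445, 0, 0, 0, 0, 0, 0, 0, ⟨0, 0⟩, 0⟩ 0 0)) (.void 90 ⟨90368, 0, 0, 9632, 0, 0, 0, 0, 0, ⟨0, 0⟩, 0⟩ 0 0))) (.pos 83 .pp ⟨0, 0, 0, 0, 0, 0, 0, 0, 0, ⟨0, 0⟩, 0⟩ 0 0)) (.void 103 ⟨0, 0, 0, 100000, 0, 0, 0, 0, 0, ⟨0, 0⟩, 0⟩ 0 0)))),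
    by decide +kernel⟩

def covers28 : cell.Covers table row28.1 :=
  ⟨(.cut .d 0 (.cut .v 16777216 (.cut .v 8388608 (.pos 2 .mm ⟨0, 0, 167772160000, 0, 0, 0, 0, 0, 0, ⟨0, 0⟩, 0⟩ 0 0) (.cut .d (-8388608) (.pos 3 .mm ⟨167772160000, 0, 0, 0, 0, 0, 0, 0, 0, ⟨0, 0⟩, 0⟩ 0 0) (.cut .d (-4194304) (.void 3 ⟨100000, 0, 0, 0, 0, 0, 0, 0, 0, ⟨0, 0⟩, 0⟩ 0 0) (.cut .d (-2097152) (.void 3 ⟨100000, 0, 0, 0, 0, 0, 0, 0, 0, ⟨0, 0⟩, 0⟩ 0 0) (.cut .v 12582912 (.cut .d (-1048576) (.void 8 ⟨100000, 0, 0, 0, 0, 0, 0, 0, 0, ⟨0, 0⟩, 0⟩ 0 0) (.cut .v 10485760 (.cut .d (-524288) (.void 10 ⟨100000, 0, 0, 0, 0, 0, 0, 0, 0, ⟨0, 0⟩, 0⟩ 0 0) (.cut .v 9437184 (.cut .v 8912896 (.cut .v 8650752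 (.void 132 ⟨0, 0, 100000, 0, 0, 0, 0, 0, 0, ⟨0, 0⟩, 0⟩ 0 0) (.cut .d (-262144) (.void 133 ⟨100000, 0, 0, 0, 0, 0, 0, 0, 0, ⟨0, 0⟩, 0⟩ 0 0) (.cut .d (-131072) (.void 133 ⟨0, 0, 0, 0, 0, 100000, 0, 0, 0, ⟨0, 0⟩, 0⟩ 0 0) (.cut .s 15876096 (.pos 133 .mm ⟨0, 0, 269051815, 0, 0, 2526096765, 0, 0, 0, ⟨0, 0⟩, 0⟩ 0 0) (.cut .s 15925248 (.pos 133 .mm ⟨0, 0, 321285360, 0, 0, 2723625695, 0, 0, 0, ⟨0, 0⟩, 0⟩ 0 0) (.pos 133 .mm ⟨0, 0, 352863556, 0, 0, 2966995117, 0, 0, 0, ⟨0, 0⟩, 0⟩ 0 0)))))) (.pos 131 .mm ⟨0, 0, 0, 0, 0, 4032876119, 0, 0, 0, ⟨0, 0⟩, 0⟩ 0 0)) (.pos 129 .mm ⟨0, 0, 0, 0, 0, 4457528318, 0, 0, 0, ⟨0, 0⟩, 0⟩ 0 0))) (.pos 11 .mm ⟨0, 0, 0, 0, 0, 6372185954, 0,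 0, 0, ⟨0, 0⟩, 0⟩ 0 0))) (.pos 9 .mm ⟨0, 0, 0, 0, 0, 11226649464, 0, 0, 0, ⟨0, 0⟩, 0⟩ 0 0)))))) (.cut .v 268435456 (.cut .v 67108864 (.cut .v 33554432 (.pos 24 .mp ⟨0, 0, 0, 0, 0, 95688256044, 0, 0, 0, ⟨0, 0⟩, 0⟩ 0 0) (.void 73 ⟨100000, 0, 0, 0, 0, 0, 0, 0, 0, ⟨0, 0⟩, 0⟩ 0 0)) (.void 84 ⟨100000, 0, 0, 0, 0, 0, 0, 0, 0, ⟨0, 0⟩, 0⟩ 0 0)) (.void 103 ⟨94976, 0, 0, 5024, 0, 0, 0, 0, 0, ⟨0, 0⟩, 0⟩ 0 0))) (.cut .v 16777216 (.cut .v 8388608 (.cut .v 4194304 (.cut .v 2097152 (.cut .v 1048576 (.cut .v 524288 (.cut .v 262144 (.cut .v 131072 (.pos 142 .pm ⟨0, 0, 32870504, 0, 0, 0, 0, 0, 0, ⟨0, 0⟩, 0⟩ 0 0) (.pos 143 .pm ⟨0, 0, 59366722, 0, 0, 0, 0, 0, 0, ⟨0, 0⟩, 0⟩ 0 0))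 (.pos 137 .pm ⟨0, 0, 93442022, 0, 0, 0, 0, 0, 0, ⟨0, 0⟩, 0⟩ 0 0)) (.pos 125 .pm ⟨0, 0, 154630070, 0, 0, 0, 0, 0, 0, ⟨0, 0⟩, 0⟩ 0 0)) (.pos 109 .pm ⟨0, 0, 259456929, 0, 0, 0, 0, 0, 0, ⟨0, 0⟩, 0⟩ 0 0)) (.pos 7 .pm ⟨0, 0, 456760004, 0, 0, 0, 0, 0, 0, ⟨0, 0⟩, 0⟩ 0 0)) (.pos 5 .pm ⟨0, 0, 926610561, 0, 0, 0, 0, 0, 0, ⟨0, 0⟩, 0⟩ 0 0)) (.cut .v 12582912 (.pos 8 .pm ⟨0, 0, 265384570, 0, 0, 0, 0, 0, 0, ⟨0, 0⟩, 0⟩ 0 0) (.pos 9 .pm ⟨0, 0, 0, 0, 0, 0, 0, 0, 0, ⟨0, 0⟩, 0⟩ 0 0))) (.cut .v 268435456 (.cut .v 67108864 (.cut .v 33554432 (.pos 24 .pp ⟨0, 0, 0, 0, 0, 0, 0, 0, 0, ⟨0, 0⟩, 0⟩ 0 0) (.pos 73 .pp ⟨3770150423, 0, 0, 0, 0, 0, 0, 0, 0, ⟨0, 0⟩, 0⟩ 0 0)) (.cut .v 134217728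 (.cut .d 531367 (.cut .d 265683 (.cut .v 100663296 (.pos 91 .pp ⟨22986830626, 0, 0, 0, 0, 0, 0, 0, 0, ⟨0, 0⟩, 0⟩ 0 0) (.cut .v 117440512 (.cut .d 132841 (.void 114 ⟨100000, 0, 0, 0, 0, 0, 0, 0, 0, ⟨0, 0⟩, 0⟩ 0 0) (.cut .d 199262 (.pos 114 .pp ⟨38697403243, 14278881602, 0, 0, 0, 0, 0, 0, 0, ⟨0, 0⟩, 0⟩ 0 0) (.pos 114 .pp ⟨28048583278, 13414627714, 0, 0, 0, 0, 0, 0, 0, ⟨0, 0⟩, 0⟩ 0 0))) (.void 115 ⟨34254, 65746, 0, 0, 0, 0, 0, 0, 0, ⟨0, 0⟩, 0⟩ 0 0))) (.pos 89 .pp ⟨0, 11150413715, 0, 0, 0, 0, 0, 0, 0, ⟨0, 0⟩, 0⟩ 0 0)) (.pos 89 .pp ⟨0, 0, 0, 0, 0, 0, 0, 0, 0, ⟨0, 0⟩, 0⟩ 0 0)) (.void 90 ⟨90160, 0, 0, 9840, 0, 0, 0, 0, 0, ⟨0, 0⟩, 0⟩ 0 0))) (.void 103 ⟨0, 0, 0, 100000,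 0, 0, 0, 0, 0, ⟨0, 0⟩, 0⟩ 0 0)))),
    by decide +kernel⟩

def covers29 : cell.Covers table row29.1 :=
  ⟨(.cut .d 0 (.cut .v 16777216 (.cut .v 8388608 (.pos 2 .mm ⟨0, 0, 167772160000, 0, 0, 0, 0, 0, 0, ⟨0, 0⟩, 0⟩ 0 0) (.cut .d (-8388608) (.void 3 ⟨0, 0, 0, 3748, 0, 78558, 0, 17607, 0, ⟨(-1), 10059067⟩, 0⟩ 0 124) (.cut .d (-4194304) (.void 3 ⟨100000, 0, 0, 0, 0, 0, 0, 0, 0, ⟨0, 0⟩, 0⟩ 0 0) (.cut .d (-2097152) (.void 3 ⟨100000, 0, 0, 0, 0, 0, 0, 0, 0, ⟨0, 0⟩, 0⟩ 0 0) (.cut .v 12582912 (.cut .d (-1048576) (.void 8 ⟨100000, 0, 0, 0, 0, 0, 0, 0, 0, ⟨0, 0⟩, 0⟩ 0 0) (.cut .v 10485760 (.cut .d (-524288) (.void 10 ⟨100000, 0, 0, 0, 0, 0, 0, 0, 0, ⟨0, 0⟩, 0⟩ 0 0) (.cut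 .s 16056320 (.cut .v 9437184 (.cut .d (-262144) (.void 128 ⟨100000, 0, 0, 0, 0, 0, 0, 0, 0, ⟨0, 0⟩, 0⟩ 0 0) (.cut .d (-131072) (.void 128 ⟨0, 0, 0, 0, 0, 100000, 0, 0, 0, ⟨0, 0⟩, 0⟩ 0 0) (.cut .d (-65536) (.void 128 ⟨0, 0, 0, 0, 0, 89744, 0, 0, 0, ⟨0, 0⟩, 0⟩ 0 0) (.pos 128 .mm ⟨0, 0, 379026962, 0, 0, 3039460660, 0, 0, 0, ⟨0, 0⟩, 0⟩ 0 0)))) (.pos 129 .mm ⟨0, 0, 0, 0, 0, 5150630701, 0, 0, 0, ⟨0, 0⟩, 0⟩ 0 0)) (.pos 10 .mm ⟨0, 0, 492273370, 0, 0, 5750950376, 0, 0, 0, ⟨0, 0⟩, 0⟩ 0 0))) (.pos 11 .mm ⟨0, 0, 0, 0, 0, 8777795123, 0, 0, 0, ⟨0, 0⟩, 0⟩ 0 0))) (.pos 9 .mm ⟨0, 0, 0, 0, 0, 15385951199, 0, 0, 0, ⟨0, 0⟩, 0⟩ 0 0)))))) (.cut .d (-8388608) (.void 102 ⟨100000,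 0, 0, 0, 0, 0, 0, 0, 0, ⟨0, 0⟩, 0⟩ 0 0) (.cut .v 268435456 (.cut .v 67108864 (.pos 72 .mp ⟨4523385046, 0, 0, 0, 0, 145185246232, 0, 0, 0, ⟨0, 0⟩, 0⟩ 0 0) (.void 84 ⟨100000, 0, 0, 0, 0, 0, 0, 0, 0, ⟨0, 0⟩, 0⟩ 0 0)) (.void 103 ⟨92579, 0, 0, 7421, 0, 0, 0, 0, 0, ⟨0, 0⟩, 0⟩ 0 0)))) (.cut .v 16777216 (.cut .v 8388608 (.cut .v 4194304 (.cut .v 2097152 (.cut .v 1048576 (.cut .v 524288 (.cut .v 262144 (.cut .v 131072 (.cut .v 65536 (.pos 148 .pm ⟨0, 0, 30721088, 0, 0, 0, 0, 0, 0, ⟨0, 0⟩, 0⟩ 0 0) (.pos 149 .pm ⟨0, 0, 52760595, 0, 0, 0, 0, 0, 0, ⟨0, 0⟩, 0⟩ 0 0)) (.pos 143 .pm ⟨0, 0, 82875918, 0, 0, 0, 0, 0, 0, ⟨0, 0⟩, 0⟩ 0 0)) (.pos 137 .pm ⟨0, 0, 137671916, 0, 0, 0,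 0, 0, 0, ⟨0, 0⟩, 0⟩ 0 0)) (.pos 125 .pm ⟨0, 0, 229762625, 0, 0, 0, 0, 0, 0, ⟨0, 0⟩, 0⟩ 0 0)) (.pos 109 .pm ⟨0, 0, 392995614, 0, 0, 0, 0, 0, 0, ⟨0, 0⟩, 0⟩ 0 0)) (.pos 7 .pm ⟨0, 0, 690515122, 0, 0, 0, 0, 0, 0, ⟨0, 0⟩, 0⟩ 0 0)) (.pos 5 .pm ⟨0, 0, 1541562301, 0, 0, 0, 0, 0, 0, ⟨0, 0⟩, 0⟩ 0 0)) (.pos 3 .pm ⟨0, 0, 313493392, 0, 0, 0, 0, 0, 0, ⟨0, 0⟩, 0⟩ 0 0)) (.cut .v 268435456 (.cut .v 67108864 (.cut .v 33554432 (.pos 24 .pp ⟨0, 0, 0, 0, 0, 0, 0, 0, 0, ⟨0, 0⟩, 0⟩ 0 0) (.pos 73 .pp ⟨5331259136, 0, 0, 0, 0, 0, 0, 0, 0, ⟨0, 0⟩, 0⟩ 0 0)) (.cut .v 134217728 (.cut .d 421582 (.cut .d 210791 (.cut .v 100663296 (.pos 91 .pp ⟨29584284506, 0, 0, 0, 0, 0, 0, 0, 0, ⟨0, 0⟩, 0⟩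 0 0) (.cut .v 117440512 (.cut .d 105395 (.void 114 ⟨100000, 0, 0, 0, 0, 0, 0, 0, 0, ⟨0, 0⟩, 0⟩ 0 0) (.cut .v 109051904 (.pos 146 .pp ⟨31097950185, 0, 0, 0, 0, 0, 0, 0, 0, ⟨0, 0⟩, 0⟩ 0 0) (.cut .d 158093 (.cut .v 113246208 (.pos 150 .pp ⟨38364940723, 0, 0, 0, 0, 0, 0, 0, 0, ⟨0, 0⟩, 0⟩ 0 0) (.pos 151 .pp ⟨55363491882, 29212869606, 0, 0, 0, 0, 0, 0, 0, ⟨0, 0⟩, 0⟩ 0 0)) (.pos 147 .pp ⟨40891754770, 15355082872, 0, 0, 0, 0, 0, 0, 0, ⟨0, 0⟩, 0⟩ 0 0)))) (.void 115 ⟨34061, 65939, 0, 0, 0, 0, 0, 0, 0, ⟨0, 0⟩, 0⟩ 0 0))) (.pos 89 .pp ⟨0, 18201046451, 0, 0, 0, 0, 0, 0, 0, ⟨0, 0⟩, 0⟩ 0 0)) (.pos 89 .pp ⟨0, 0, 0, 0, 0, 0, 0, 0, 0, ⟨0, 0⟩, 0⟩ 0 0)) (.void 90 ⟨90125, 0, 0,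 9875, 0, 0, 0, 0, 0, ⟨0, 0⟩, 0⟩ 0 0))) (.void 103 ⟨0, 0, 0, 100000, 0, 0, 0, 0, 0, ⟨0, 0⟩, 0⟩ 0 0)))),
    by decide +kernel⟩

def covers30 : cell.Covers table row30.1 :=
  ⟨(.cut .d 0 (.cut .v 16777216 (.cut .v 8388608 (.pos 2 .mm ⟨0, 0, 167772160000, 0, 0, 0, 0, 0, 0, ⟨0, 0⟩, 0⟩ 0 0) (.cut .d (-8388608) (.pos 3 .mm ⟨89107995142, 0, 0, 0, 0, 78664164858, 0, 0, 0, ⟨0, 0⟩, 0⟩ 0 0) (.pos 3 .mm ⟨0, 0, 562766856, 0, 0, 48248614721, 0, 0, 0, ⟨0, 0⟩, 0⟩ 0 0))) (.cut .v 4294967296 (.cut .d (-8388608) (.void 102 ⟨100000, 0, 0, 0, 0, 0, 0, 0, 0, ⟨0, 0⟩, 0⟩ 0 0) (.cut .v 268435456 (.cut .v 67108864 (.pos 72 .mp ⟨73301089087, 0, 0, 0, 0, 94471070913, 0, 0, 0, ⟨0, 0⟩,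 0⟩ 0 0) (.void 84 ⟨100000, 0, 0, 0, 0, 0, 0, 0, 0, ⟨0, 0⟩, 0⟩ 0 0)) (.void 103 ⟨92523, 0, 0, 7477, 0, 0, 0, 0, 0, ⟨0, 0⟩, 0⟩ 0 0))) (.void 154 ⟨94888, 0, 0, 5112, 0, 0, 0, 0, 0, ⟨0, 0⟩, 0⟩ 0 0))) (.cut .v 16777216 (.cut .v 8388608 (.cut .v 4194304 (.cut .v 2097152 (.cut .v 1048576 (.cut .v 524288 (.cut .v 262144 (.cut .v 131072 (.cut .v 65536 (.pos 148 .pm ⟨0, 0, 37480631, 0, 0, 0, 0, 0, 0, ⟨0, 0⟩, 0⟩ 0 0) (.pos 149 .pm ⟨0, 0, 71254424, 0, 0, 0, 0, 0, 0, ⟨0, 0⟩, 0⟩ 0 0)) (.pos 143 .pm ⟨0, 0, 117801999, 0, 0, 0, 0, 0, 0, ⟨0, 0⟩, 0⟩ 0 0)) (.pos 137 .pm ⟨0, 0, 198593271, 0, 0, 0, 0, 0, 0, ⟨0, 0⟩, 0⟩ 0 0)) (.pos 125 .pm ⟨0, 0, 338812047, 0, 0, 0, 0, 0, 0, ⟨0, 0⟩,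 0⟩ 0 0)) (.pos 109 .pm ⟨0, 0, 587759888, 0, 0, 0, 0, 0, 0, ⟨0, 0⟩, 0⟩ 0 0)) (.pos 7 .pm ⟨0, 0, 1043212215, 0, 0, 0, 0, 0, 0, ⟨0, 0⟩, 0⟩ 0 0)) (.pos 5 .pm ⟨0, 0, 2443171430, 0, 0, 0, 0, 0, 0, ⟨0, 0⟩, 0⟩ 0 0)) (.pos 3 .pm ⟨0, 0, 562766856, 0, 0, 0, 0, 0, 0, ⟨0, 0⟩, 0⟩ 0 0)) (.cut .v 4294967296 (.cut .v 268435456 (.cut .v 67108864 (.pos 72 .pp ⟨3414971553, 0, 0, 0, 0, 0, 0, 0, 0, ⟨0, 0⟩, 0⟩ 0 0) (.cut .v 134217728 (.cut .d 332139 (.cut .d 166069 (.cut .v 100663296 (.pos 91 .pp ⟨39652608513, 0, 0, 0, 0, 0, 0, 0, 0, ⟨0, 0⟩, 0⟩ 0 0) (.cut .d 83034 (.void 92 ⟨100000, 0, 0, 0, 0, 0, 0, 0, 0, ⟨0, 0⟩, 0⟩ 0 0) (.cut .l 750040 (.cut .v 117440512 (.cut .d 124551 (.pos 114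 .pp ⟨69644832584, 31434856276, 0, 0, 0, 0, 0, 0, 0, ⟨0, 0⟩, 0⟩ 0 0) (.cut .d 145310 (.cut .s 16203776 (.cut .v 109051904 (.pos 146 .pp ⟨36369972087, 0, 0, 0, 0, 0, 0, 0, 0, ⟨0, 0⟩, 0⟩ 0 0) (.pos 147 .pp ⟨56446552481, 29211119174, 0, 0, 0, 0, 0, 0, 0, ⟨0, 0⟩, 0⟩ 0 0)) (.pos 114 .pp ⟨59389742611, 28660097771, 0, 0, 0, 0, 0, 0, 0, ⟨0, 0⟩, 0⟩ 0 0)) (.pos 114 .pp ⟨0, 39627265263, 0, 0, 0, 0, 0, 0, 0, ⟨0, 0⟩, 0⟩ 0 0))) (.void 115 ⟨33854, 66146, 0, 0, 0, 0, 0, 0, 0, ⟨0, 0⟩, 0⟩ 0 0)) (.pos 92 .pp ⟨69748903553, 17528833489, 0, 0, 0, 0, 0, 0, 0, ⟨0, 0⟩, 0⟩ 0 0)))) (.pos 89 .pp ⟨0, 28288456269, 0, 0, 0, 0, 0, 0, 0, ⟨0, 0⟩, 0⟩ 0 0)) (.pos 89 .pp ⟨0, 0, 0, 0, 0, 0, 0, 0,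 0, ⟨0, 0⟩, 0⟩ 0 0)) (.void 90 ⟨90100, 0, 0, 9900, 0, 0, 0, 0, 0, ⟨0, 0⟩, 0⟩ 0 0))) (.void 103 ⟨0, 0, 0, 100000, 0, 0, 0, 0, 0, ⟨0, 0⟩, 0⟩ 0 0)) (.void 154 ⟨0, 0, 0, 100000, 0, 0, 0, 0, 0, ⟨0, 0⟩, 0⟩ 0 0)))),
    by decide +kernel⟩

def covers31 : cell.Covers table row31.1 :=
  ⟨(.cut .d 0 (.cut .v 16777216 (.cut .v 8388608 (.pos 2 .mm ⟨0, 0, 167772160000, 0, 0, 0, 0, 0, 0, ⟨0, 0⟩, 0⟩ 0 0) (.pos 3 .mm ⟨0, 0, 1000247729, 0, 0, 110374185750, 0, 0, 0, ⟨0, 0⟩, 0⟩ 0 0)) (.cut .v 4294967296 (.cut .v 268435456 (.cut .v 67108864 (.cut .d (-8388608) (.void 72 ⟨100000, 0, 0, 0, 0, 0, 0, 0, 0, ⟨0, 0⟩, 0⟩ 0 0) (.cut .d (-4194304) (.void 72 ⟨100000, 0, 0, 0, 0, 0, 0, 0,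 0, ⟨0, 0⟩, 0⟩ 0 0) (.pos 72 .mp ⟨3589253009, 0, 0, 0, 0, 164182906991, 0, 0, 0, ⟨0, 0⟩, 0⟩ 0 0))) (.void 84 ⟨100000, 0, 0, 0, 0, 0, 0, 0, 0, ⟨0, 0⟩, 0⟩ 0 0)) (.void 103 ⟨95604, 0, 0, 5135, 0, 0, 0, 0, 0, ⟨0, 0⟩, 0⟩ 0 0)) (.void 154 ⟨94859, 0, 0, 5141, 0, 0, 0, 0, 0, ⟨0, 0⟩, 0⟩ 0 0))) (.cut .v 16777216 (.cut .v 8388608 (.cut .v 4194304 (.cut .v 2097152 (.cut .v 1048576 (.cut .v 524288 (.cut .v 262144 (.cut .v 131072 (.cut .v 65536 (.pos 148 .pm ⟨0, 0, 45859837, 0, 0, 0, 0, 0, 0, ⟨0, 0⟩, 0⟩ 0 0) (.pos 149 .pm ⟨0, 0, 93669267, 0, 0, 0, 0, 0, 0, ⟨0, 0⟩, 0⟩ 0 0)) (.pos 143 .pm ⟨0, 0, 154684351, 0, 0, 0, 0, 0, 0, ⟨0, 0⟩, 0⟩ 0 0)) (.pos 137 .pm ⟨0, 0, 259955374, 0,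 0, 0, 0, 0, 0, ⟨0, 0⟩, 0⟩ 0 0)) (.pos 125 .pm ⟨0, 0, 430298642, 0, 0, 0, 0, 0, 0, ⟨0, 0⟩, 0⟩ 0 0)) (.pos 109 .pm ⟨0, 0, 737992492, 0, 0, 0, 0, 0, 0, ⟨0, 0⟩, 0⟩ 0 0)) (.pos 7 .pm ⟨0, 0, 1470230861, 0, 0, 0, 0, 0, 0, ⟨0, 0⟩, 0⟩ 0 0)) (.pos 5 .pm ⟨0, 0, 3762077236, 0, 0, 0, 0, 0, 0, ⟨0, 0⟩, 0⟩ 0 0)) (.pos 3 .pm ⟨0, 0, 1000247729, 0, 0, 0, 0, 0, 0, ⟨0, 0⟩, 0⟩ 0 0)) (.cut .v 4294967296 (.cut .v 268435456 (.cut .v 67108864 (.pos 72 .pp ⟨3129452771, 0, 0, 0, 0, 0, 0, 0, 0, ⟨0, 0⟩, 0⟩ 0 0) (.cut .v 134217728 (.cut .d 261881 (.cut .d 130940 (.cut .v 100663296 (.pos 91 .pp ⟨45204043356, 0, 0, 0, 0, 0, 0, 0, 0, ⟨0, 0⟩, 0⟩ 0 0) (.cut .d 65470 (.void 92 ⟨100000, 0, 0, 0,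 0, 0, 0, 0, 0, ⟨0, 0⟩, 0⟩ 0 0) (.cut .v 117440512 (.cut .d 98205 (.pos 114 .pp ⟨145506928558, 22265231442, 0, 0, 0, 0, 0, 0, 0, ⟨0, 0⟩, 0⟩ 0 0) (.pos 114 .pp ⟨71251415575, 35337344160, 0, 0, 0, 0, 0, 0, 0, ⟨0, 0⟩, 0⟩ 0 0)) (.pos 115 .pp ⟨93973564054, 73520189604, 0, 278406342, 0, 0, 0, 0, 0, ⟨0, 0⟩, 0⟩ 0 0)))) (.pos 89 .pp ⟨0, 43343259411, 0, 0, 0, 0, 0, 0, 0, ⟨0, 0⟩, 0⟩ 0 0)) (.pos 89 .pp ⟨0, 5410458496, 0, 0, 0, 0, 0, 0, 0, ⟨0, 0⟩, 0⟩ 0 0)) (.void 90 ⟨90083, 0, 0, 9917, 0, 0, 0, 0, 0, ⟨0, 0⟩, 0⟩ 0 0))) (.void 103 ⟨0, 0, 0, 100000, 0, 0, 0, 0, 0, ⟨0, 0⟩, 0⟩ 0 0)) (.void 154 ⟨0, 0, 0, 100000, 0, 0, 0, 0, 0, ⟨0, 0⟩, 0⟩ 0 0)))),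
    by decide +kernel⟩

def covers32 : cell.Covers table row32.1 :=
  ⟨(.cut .d 0 (.cut .v 16777216 (.cut .v 8388608 (.pos 2 .mm ⟨0, 0, 167772160000, 0, 0, 0, 0, 0, 0, ⟨0, 0⟩, 0⟩ 0 0) (.pos 3 .mm ⟨0, 0, 2507538101, 0, 0, 143753221799, 0, 0, 0, ⟨0, 0⟩, 0⟩ 0 0)) (.cut .v 4294967296 (.cut .v 268435456 (.cut .v 67108864 (.cut .d (-8388608) (.void 72 ⟨100000, 0, 0, 0, 0, 0, 0, 0, 0, ⟨0, 0⟩, 0⟩ 0 0) (.cut .d (-4194304) (.void 72 ⟨100000, 0, 0, 0, 0, 0, 0, 0, 0, ⟨0, 0⟩, 0⟩ 0 0) (.pos 72 .mp ⟨81735031570, 0, 0, 0, 0, 86037128430, 0, 0, 0, ⟨0, 0⟩, 0⟩ 0 0))) (.void 84 ⟨100000, 0, 0, 0, 0, 0, 0, 0, 0, ⟨0, 0⟩, 0⟩ 0 0)) (.void 103 ⟨94834, 0, 0, 5166, 0, 0, 0, 0, 0, ⟨0,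 0⟩, 0⟩ 0 0)) (.void 154 ⟨94835, 0, 0, 5165, 0, 0, 0, 0, 0, ⟨0, 0⟩, 0⟩ 0 0))) (.cut .v 16777216 (.cut .v 8388608 (.cut .v 4194304 (.cut .v 2097152 (.cut .v 1048576 (.cut .v 524288 (.cut .v 262144 (.cut .v 131072 (.cut .v 65536 (.cut .v 32768 (.pos 155 .pm ⟨0, 0, 39214487, 0, 0, 0, 0, 0, 0, ⟨0, 0⟩, 0⟩ 0 0) (.pos 156 .pm ⟨0, 0, 77519306, 0, 0, 0, 0, 0, 0, ⟨0, 0⟩, 0⟩ 0 0)) (.pos 149 .pm ⟨0, 0, 130940479, 0, 0, 0, 0, 0, 0, ⟨0, 0⟩, 0⟩ 0 0)) (.pos 143 .pm ⟨0, 0, 225124278, 0, 0, 0, 0, 0, 0, ⟨0, 0⟩, 0⟩ 0 0)) (.pos 137 .pm ⟨0, 0, 391730346, 0, 0, 0, 0, 0, 0, ⟨0, 0⟩, 0⟩ 0 0)) (.pos 125 .pm ⟨0, 0, 693545100, 0, 0, 0, 0, 0, 0, ⟨0, 0⟩, 0⟩ 0 0)) (.pos 109 .pm ⟨0, 0, 1215471691,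 0, 0, 0, 0, 0, 0, ⟨0, 0⟩, 0⟩ 0 0)) (.pos 7 .pm ⟨0, 0, 2256782337, 0, 0, 0, 0, 0, 0, ⟨0, 0⟩, 0⟩ 0 0)) (.pos 5 .pm ⟨0, 0, 5067425819, 0, 0, 0, 0, 0, 0, ⟨0, 0⟩, 0⟩ 0 0)) (.pos 3 .pm ⟨0, 0, 2165181803, 0, 0, 0, 0, 0, 0, ⟨0, 0⟩, 0⟩ 0 0)) (.cut .v 4294967296 (.cut .v 268435456 (.cut .v 67108864 (.pos 72 .pp ⟨0, 0, 0, 0, 0, 0, 0, 0, 0, ⟨0, 0⟩, 0⟩ 0 0) (.cut .v 134217728 (.cut .v 100663296 (.pos 91 .pp ⟨43480948248, 0, 0, 0, 0, 0, 0, 0, 0, ⟨0, 0⟩, 0⟩ 0 0) (.cut .d 209926 (.cut .d 104963 (.cut .v 117440512 (.pos 114 .pp ⟨97590888204, 0, 0, 0, 0, 0, 0, 0, 0, ⟨0, 0⟩, 0⟩ 0 0) (.cut .d 52481 (.void 115 ⟨100000, 0, 0, 0, 0, 0, 0, 0, 0, ⟨0, 0⟩, 0⟩ 0 0) (.pos 115 .pp ⟨159038576737,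 0, 0, 8733583263, 0, 0, 0, 0, 0, ⟨0, 0⟩, 0⟩ 0 0))) (.pos 92 .pp ⟨0, 88960345203, 0, 0, 0, 0, 0, 0, 0, ⟨0, 0⟩, 0⟩ 0 0)) (.void 92 ⟨0, 0, 0, 100000, 0, 0, 0, 0, 0, ⟨0, 0⟩, 0⟩ 0 0))) (.void 90 ⟨90065, 0, 0, 9935, 0, 0, 0, 0, 0, ⟨0, 0⟩, 0⟩ 0 0))) (.void 103 ⟨0, 0, 0, 100000, 0, 0, 0, 0, 0, ⟨0, 0⟩, 0⟩ 0 0)) (.void 154 ⟨0, 0, 0, 100000, 0, 0, 0, 0, 0, ⟨0, 0⟩, 0⟩ 0 0)))),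
    by decide +kernel⟩

def covers33 : cell.Covers table row33.1 :=
  ⟨(.cut .d 0 (.cut .v 16777216 (.cut .d (-8388608) (.void 1 ⟨0, 0, 0, 0, 0, 34406, 0, 59811, 0, ⟨(-1), 9929541⟩, 0⟩ 0 126) (.cut .v 8388608 (.void 2 ⟨0, 0, 100000, 0, 0, 0, 0, 0, 0, ⟨0, 0⟩, 0⟩ 0 0) (.pos 3 .mm ⟨0, 0, 3082101046, 0, 0, 110136705968, 0, 0, 0, ⟨0, 0⟩, 0⟩ 0 0))) (.cut .v 4294967296 (.cut .v 268435456 (.cut .v 67108864 (.cut .d (-8388608) (.void 72 ⟨100000, 0, 0, 0, 0, 0, 0, 0, 0, ⟨0, 0⟩, 0⟩ 0 0) (.cut .v 33554432 (.pos 24 .mp ⟨124109814746, 0, 0, 0, 0, 43662345254, 0, 0, 0, ⟨0, 0⟩, 0⟩ 0 0) (.void 73 ⟨100000, 0, 0, 0, 0, 0, 0, 0, 0, ⟨0, 0⟩, 0⟩ 0 0))) (.void 84 ⟨100000, 0, 0, 0,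 0, 0, 0, 0, 0, ⟨0, 0⟩, 0⟩ 0 0)) (.void 103 ⟨94815, 0, 0, 5185, 0, 0, 0, 0, 0, ⟨0, 0⟩, 0⟩ 0 0)) (.void 154 ⟨94815, 0, 0, 5185, 0, 0, 0, 0, 0, ⟨0, 0⟩, 0⟩ 0 0))) (.cut .v 16777216 (.cut .v 8388608 (.cut .v 4194304 (.cut .v 2097152 (.cut .v 1048576 (.cut .v 524288 (.cut .v 262144 (.cut .v 131072 (.cut .v 65536 (.cut .v 32768 (.pos 155 .pm ⟨0, 0, 42479671, 0, 0, 0, 0, 0, 0, ⟨0, 0⟩, 0⟩ 0 0) (.pos 156 .pm ⟨0, 0, 83570496, 0, 0, 0, 0, 0, 0, ⟨0, 0⟩, 0⟩ 0 0)) (.pos 149 .pm ⟨0, 0, 141283116, 0, 0, 0, 0, 0, 0, ⟨0, 0⟩, 0⟩ 0 0)) (.pos 143 .pm ⟨0, 0, 247097495, 0, 0, 0, 0, 0, 0, ⟨0, 0⟩, 0⟩ 0 0)) (.pos 137 .pm ⟨0, 0, 440933860, 0, 0, 0, 0, 0, 0, ⟨0, 0⟩, 0⟩ 0 0)) (.pos 125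 .pm ⟨0, 0, 800213991, 0, 0, 0, 0, 0, 0, ⟨0, 0⟩, 0⟩ 0 0)) (.pos 109 .pm ⟨0, 0, 1495943311, 0, 0, 0, 0, 0, 0, ⟨0, 0⟩, 0⟩ 0 0)) (.pos 7 .pm ⟨0, 0, 3022723626, 0, 0, 0, 0, 0, 0, ⟨0, 0⟩, 0⟩ 0 0)) (.pos 5 .pm ⟨0, 0, 7814293801, 0, 0, 0, 0, 0, 0, ⟨0, 0⟩, 0⟩ 0 0)) (.pos 3 .pm ⟨0, 0, 3082101046, 0, 0, 0, 0, 0, 0, ⟨0, 0⟩, 0⟩ 0 0)) (.cut .v 4294967296 (.cut .v 268435456 (.cut .v 67108864 (.pos 72 .pp ⟨0, 0, 0, 0, 0, 0, 0, 0, 0, ⟨0, 0⟩, 0⟩ 0 0) (.cut .v 134217728 (.cut .v 100663296 (.pos 91 .pp ⟨58696411669, 0, 0, 0, 0, 0, 0, 0, 0, ⟨0, 0⟩, 0⟩ 0 0) (.cut .d 167105 (.cut .d 83552 (.cut .d 41776 (.void 92 ⟨100000, 0, 0, 0, 0, 0, 0, 0, 0, ⟨0, 0⟩, 0⟩ 0 0) (.cut .d 62664 (.cut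 .d 52220 (.cut .s 16482304 (.void 92 ⟨100000, 0, 0, 0, 0, 0, 0, 0, 0, ⟨0, 0⟩, 0⟩ 0 0) (.pos 92 .pp ⟨161631696475, 0, 0, 6140463525, 0, 0, 0, 0, 0, ⟨0, 0⟩, 0⟩ 0 0)) (.pos 92 .pp ⟨160937919602, 0, 0, 6834240398, 0, 0, 0, 0, 0, ⟨0, 0⟩, 0⟩ 0 0)) (.pos 92 .pp ⟨144041936821, 17931385759, 0, 5798837421, 0, 0, 0, 0, 0, ⟨0, 0⟩, 0⟩ 0 0))) (.pos 92 .pp ⟨0, 138905431409, 0, 0, 0, 0, 0, 0, 0, ⟨0, 0⟩, 0⟩ 0 0)) (.void 92 ⟨0, 0, 0, 100000, 0, 0, 0, 0, 0, ⟨0, 0⟩, 0⟩ 0 0))) (.void 90 ⟨90052, 0, 0, 9948, 0, 0, 0, 0, 0, ⟨0, 0⟩, 0⟩ 0 0))) (.void 103 ⟨0, 0, 0, 100000, 0, 0, 0, 0, 0, ⟨0, 0⟩, 0⟩ 0 0)) (.void 154 ⟨0, 0, 0, 100000, 0, 0, 0, 0, 0, ⟨0, 0⟩, 0⟩ 0 0)))),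
    by decide +kernel⟩

def covers34 : cell.Covers table row34.1 :=
  ⟨(.cut .d 0 (.cut .v 16777216 (.cut .d (-8388608) (.void 1 ⟨0, 0, 35580, 0, 0, 0, 0, 63417, 0, ⟨(-1), 9865425⟩, 0⟩ 0 127) (.cut .v 8388608 (.void 2 ⟨0, 0, 100000, 0, 0, 0, 0, 0, 0, ⟨0, 0⟩, 0⟩ 0 0) (.pos 3 .mm ⟨0, 0, 11586709884, 0, 0, 136294824714, 0, 0, 0, ⟨0, 0⟩, 0⟩ 0 0))) (.cut .v 4294967296 (.cut .v 268435456 (.cut .v 67108864 (.cut .d (-8388608) (.void 72 ⟨100000, 0, 0, 0, 0, 0, 0, 0, 0, ⟨0, 0⟩, 0⟩ 0 0) (.cut .v 33554432 (.cut .d (-4194304) (.void 24 ⟨100000, 0, 0, 0, 0, 0, 0, 0, 0, ⟨0, 0⟩, 0⟩ 0 0) (.pos 24 .mp ⟨41405594384, 0, 0, 0, 0, 126366565616, 0, 0, 0, ⟨0, 0⟩, 0⟩ 0 0)) (.void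 73 ⟨100000, 0, 0, 0, 0, 0, 0, 0, 0, ⟨0, 0⟩, 0⟩ 0 0))) (.void 84 ⟨100000, 0, 0, 0, 0, 0, 0, 0, 0, ⟨0, 0⟩, 0⟩ 0 0)) (.void 103 ⟨94800, 0, 0, 5200, 0, 0, 0, 0, 0, ⟨0, 0⟩, 0⟩ 0 0)) (.void 154 ⟨94594, 0, 0, 5406, 0, 0, 0, 0, 0, ⟨0, 0⟩, 0⟩ 0 0))) (.cut .v 16777216 (.cut .v 8388608 (.cut .v 4194304 (.cut .v 2097152 (.cut .v 1048576 (.cut .v 524288 (.cut .v 262144 (.cut .v 131072 (.cut .v 65536 (.cut .v 32768 (.pos 155 .pm ⟨0, 0, 53702821, 0, 0, 0, 0, 0, 0, ⟨0, 0⟩, 0⟩ 0 0) (.pos 156 .pm ⟨0, 0, 112316996, 0, 0, 0, 0, 0, 0, ⟨0, 0⟩, 0⟩ 0 0)) (.pos 149 .pm ⟨0, 0, 190007937, 0, 0, 0, 0, 0, 0, ⟨0, 0⟩, 0⟩ 0 0)) (.pos 143 .pm ⟨0, 0, 342898605, 0, 0, 0, 0, 0, 0, ⟨0, 0⟩, 0⟩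 0 0)) (.pos 137 .pm ⟨0, 0, 647841964, 0, 0, 0, 0, 0, 0, ⟨0, 0⟩, 0⟩ 0 0)) (.pos 125 .pm ⟨0, 0, 1243973166, 0, 0, 0, 0, 0, 0, ⟨0, 0⟩, 0⟩ 0 0)) (.pos 109 .pm ⟨0, 0, 2397810213, 0, 0, 0, 0, 0, 0, ⟨0, 0⟩, 0⟩ 0 0)) (.pos 7 .pm ⟨0, 0, 4589943925, 0, 0, 0, 0, 0, 0, ⟨0, 0⟩, 0⟩ 0 0)) (.pos 5 .pm ⟨0, 0, 8614027657, 0, 0, 0, 0, 0, 0, ⟨0, 0⟩, 0⟩ 0 0)) (.pos 3 .pm ⟨0, 0, 11586709884, 0, 0, 0, 0, 0, 0, ⟨0, 0⟩, 0⟩ 0 0)) (.cut .v 4294967296 (.cut .v 268435456 (.cut .v 67108864 (.pos 72 .pp ⟨0, 0, 0, 0, 0, 0, 0, 0, 0, ⟨0, 0⟩, 0⟩ 0 0) (.cut .v 134217728 (.pos 89 .pp ⟨111515695812, 56256464188, 0, 0, 0, 0, 0, 0, 0, ⟨0, 0⟩, 0⟩ 0 0) (.void 90 ⟨89958, 0, 0, 10042, 0, 0, 0, 0, 0,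 ⟨0, 0⟩, 0⟩ 0 0))) (.void 103 ⟨0, 0, 0, 100000, 0, 0, 0, 0, 0, ⟨0, 0⟩, 0⟩ 0 0)) (.void 154 ⟨0, 0, 0, 100000, 0, 0, 0, 0, 0, ⟨0, 0⟩, 0⟩ 0 0)))),
    by decide +kernel⟩

def covers35 : cell.Covers table row35.1 :=
  ⟨(.cut .d 0 (.cut .v 16777216 (.cut .d (-8388608) (.void 1 ⟨0, 0, 0, 4584, 0, 87529, 0, 8295, 0, ⟨(-1), 9865425⟩, 0⟩ 0 127) (.cut .v 8388608 (.void 2 ⟨0, 0, 99088, 0, 0, 0, 0, 0, 0, ⟨0, 0⟩, 0⟩ 0 0) (.cut .v 12582912 (.pos 8 .mm ⟨0, 0, 16218729603, 0, 0, 138758465316, 0, 0, 0, ⟨0, 0⟩, 0⟩ 0 0) (.pos 9 .mm ⟨79804707315, 0, 0, 0, 0, 87967452685, 0, 0, 0, ⟨0, 0⟩, 0⟩ 0 0)))) (.cut .v 4294967296 (.cut .v 268435456 (.cut .d (-8388608) (.void 83 ⟨100000, 0,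 0, 0, 0, 0, 0, 0, 0, ⟨0, 0⟩, 0⟩ 0 0) (.cut .d (-4194304) (.void 83 ⟨100000, 0, 0, 0, 0, 0, 0, 0, 0, ⟨0, 0⟩, 0⟩ 0 0) (.cut .v 67108864 (.cut .v 33554432 (.pos 24 .mp ⟨157490274938, 0, 0, 0, 0, 10281885062, 0, 0, 0, ⟨0, 0⟩, 0⟩ 0 0) (.void 73 ⟨938715189, 0, 0, 0, 0, 61284811, 0, 0, 0, ⟨0, 0⟩, 0⟩ 0 0)) (.void 84 ⟨938715189, 0, 0, 0, 0, 61284811, 0, 0, 0, ⟨0, 0⟩, 0⟩ 0 0)))) (.void 103 ⟨96293, 0, 0, 4994, 0, 0, 0, 0, 0, ⟨0, 0⟩, 0⟩ 0 0)) (.void 154 ⟨100000, 0, 0, 0, 0, 0, 0, 0, 0, ⟨0, 0⟩, 0⟩ 0 0))) (.cut .v 16777216 (.cut .v 8388608 (.cut .v 4194304 (.cut .v 2097152 (.cut .v 1048576 (.cut .v 524288 (.cut .v 262144 (.cut .v 131072 (.cut .v 65536 (.cut .v 32768 (.cut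 .v 16384 (.pos 159 .pm ⟨0, 0, 46644889, 0, 0, 0, 0, 0, 0, ⟨0, 0⟩, 0⟩ 0 0) (.pos 160 .pm ⟨0, 0, 98041363, 0, 0, 0, 0, 0, 0, ⟨0, 0⟩, 0⟩ 0 0)) (.pos 156 .pm ⟨0, 0, 160721380, 0, 0, 0, 0, 0, 0, ⟨0, 0⟩, 0⟩ 0 0)) (.pos 149 .pm ⟨0, 0, 279257924, 0, 0, 0, 0, 0, 0, ⟨0, 0⟩, 0⟩ 0 0)) (.pos 143 .pm ⟨0, 0, 515070780, 0, 0, 0, 0, 0, 0, ⟨0, 0⟩, 0⟩ 0 0)) (.pos 137 .pm ⟨0, 0, 980155845, 0, 0, 0, 0, 0, 0, ⟨0, 0⟩, 0⟩ 0 0)) (.pos 125 .pm ⟨0, 0, 1883989445, 0, 0, 0, 0, 0, 0, ⟨0, 0⟩, 0⟩ 0 0)) (.pos 109 .pm ⟨0, 0, 3617573573, 0, 0, 0, 0, 0, 0, ⟨0, 0⟩, 0⟩ 0 0)) (.pos 7 .pm ⟨0, 0, 6862413354, 0, 0, 0, 0, 0, 0, ⟨0, 0⟩, 0⟩ 0 0)) (.pos 5 .pm ⟨0, 0, 12671201425, 0, 0, 0, 0, 0, 0, ⟨0, 0⟩,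 0⟩ 0 0)) (.pos 3 .pm ⟨0, 0, 15913584328, 0, 0, 0, 0, 0, 0, ⟨0, 0⟩, 0⟩ 0 0)) (.cut .v 4294967296 (.cut .v 268435456 (.cut .d 107866 (.cut .v 67108864 (.pos 72 .pp ⟨0, 0, 0, 0, 0, 0, 0, 0, 0, ⟨0, 0⟩, 0⟩ 0 0) (.cut .v 134217728 (.pos 89 .pp ⟨167772160000, 0, 0, 0, 0, 0, 0, 0, 0, ⟨0, 0⟩, 0⟩ 0 0) (.cut .s 16588800 (.void 90 ⟨89143, 0, 0, 10857, 0, 0, 0, 0, 0, ⟨0, 0⟩, 0⟩ 0 0) (.void 90 ⟨89951, 0, 0, 10049, 0, 0, 0, 0, 0, ⟨0, 0⟩, 0⟩ 0 0)))) (.cut .s 16588800 (.cut .v 67108864 (.pos 72 .pp ⟨0, 0, 0, 0, 0, 0, 0, 0, 0, ⟨0, 0⟩, 0⟩ 0 0) (.pos 84 .pp ⟨0, 156480728857, 0, 11291431143, 0, 0, 0, 0, 0, ⟨0, 0⟩, 0⟩ 0 0)) (.cut .v 67108864 (.pos 72 .pp ⟨0, 0, 0, 0, 0, 0, 0, 0,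 0, ⟨0, 0⟩, 0⟩ 0 0) (.void 84 ⟨0, 0, 0, 100000, 0, 0, 0, 0, 0, ⟨0, 0⟩, 0⟩ 0 0)))) (.void 103 ⟨0, 0, 0, 100000, 0, 0, 0, 0, 0, ⟨0, 0⟩, 0⟩ 0 0)) (.cut .d 107866 (.void 154 ⟨0, 0, 0, 114095, 0, 0, 0, 0, 0, ⟨0, 0⟩, 0⟩ 0 0) (.void 154 ⟨0, 0, 0, 114095, 0, 0, 0, 0, 0, ⟨0, 0⟩, 0⟩ 0 0))))),
    by decide +kernel⟩

def covers36 : cell.Covers table row36.1 :=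
  ⟨(.cut .d 0 (.cut .v 16777216 (.cut .d (-8388608) (.void 1 ⟨0, 0, 0, 0, 0, 36955, 0, 62803, 0, ⟨(-1), 9865425⟩, 0⟩ 0 127) (.cut .d (-4194304) (.void 1 ⟨0, 0, 100000, 0, 0, 0, 0, 0, 0, ⟨0, 0⟩, 0⟩ 0 0) (.cut .v 8388608 (.void 2 ⟨0, 0, 100000, 0, 0, 0, 0, 0, 0, ⟨0, 0⟩, 0⟩ 0 0) (.pos 3 .mm ⟨34454628913, 0, 30054733373, 0, 0, 103262797714, 0, 0, 0, ⟨0, 0⟩, 0⟩ 0 0)))) (.cut .v 4294967296 (.cut .d (-8388608) (.void 102 ⟨1000000000, 0, 0, 0, 0, 0, 0, 0, 0, ⟨0, 0⟩, 0⟩ 0 0) (.cut .v 268435456 (.cut .v 67108864 (.cut .d (-4194304) (.void 72 ⟨1000000000, 0, 0, 0, 0, 0, 0, 0, 0, ⟨0, 0⟩, 0⟩ 0 0) (.cut .v 33554432 (.cut .d (-2097152) (.void 24 ⟨1000000000, 0, 0, 0, 0, 0,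 0, 0, 0, ⟨0, 0⟩, 0⟩ 0 0) (.pos 24 .mp ⟨155169990951, 0, 0, 0, 0, 12602169049, 0, 0, 0, ⟨0, 0⟩, 0⟩ 0 0)) (.void 73 ⟨924885219, 0, 0, 0, 0, 75114781, 0, 0, 0, ⟨0, 0⟩, 0⟩ 0 0))) (.void 84 ⟨924885219, 0, 0, 0, 0, 75114781, 0, 0, 0, ⟨0, 0⟩, 0⟩ 0 0)) (.void 103 ⟨924885219, 0, 0, 0, 0, 75114781, 0, 0, 0, ⟨0, 0⟩, 0⟩ 0 0))) (.void 154 ⟨94776, 0, 0, 5224, 0, 0, 0, 0, 0, ⟨0, 0⟩, 0⟩ 0 0))) (.cut .v 16777216 (.cut .v 8388608 (.cut .v 4194304 (.cut .v 2097152 (.cut .v 1048576 (.cut .v 524288 (.cut .v 262144 (.cut .v 131072 (.cut .v 65536 (.cut .v 32768 (.cut .v 16384 (.pos 159 .pm ⟨0, 0, 60830780, 0, 0, 0, 0, 0, 0, ⟨0, 0⟩, 0⟩ 0 0) (.pos 160 .pm ⟨0, 0, 134869143, 0, 0, 0,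 0, 0, 0, ⟨0, 0⟩, 0⟩ 0 0)) (.pos 156 .pm ⟨0, 0, 230171947, 0, 0, 0, 0, 0, 0, ⟨0, 0⟩, 0⟩ 0 0)) (.pos 149 .pm ⟨0, 0, 410127324, 0, 0, 0, 0, 0, 0, ⟨0, 0⟩, 0⟩ 0 0)) (.pos 143 .pm ⟨0, 0, 763238067, 0, 0, 0, 0, 0, 0, ⟨0, 0⟩, 0⟩ 0 0)) (.pos 137 .pm ⟨0, 0, 1475301621, 0, 0, 0, 0, 0, 0, ⟨0, 0⟩, 0⟩ 0 0)) (.pos 125 .pm ⟨0, 0, 2866761781, 0, 0, 0, 0, 0, 0, ⟨0, 0⟩, 0⟩ 0 0)) (.pos 109 .pm ⟨0, 0, 5556233543, 0, 0, 0, 0, 0, 0, ⟨0, 0⟩, 0⟩ 0 0)) (.pos 7 .pm ⟨0, 0, 10648602009, 0, 0, 0, 0, 0, 0, ⟨0, 0⟩, 0⟩ 0 0)) (.pos 5 .pm ⟨0, 0, 19929888584, 0, 0, 0, 0, 0, 0, ⟨0, 0⟩, 0⟩ 0 0)) (.pos 3 .pm ⟨0, 0, 23371221834, 0, 0, 0, 0, 0, 0, ⟨0, 0⟩, 0⟩ 0 0)) (.cut .v 4294967296 (.cut .v 268435456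 (.cut .v 67108864 (.pos 72 .pp ⟨0, 0, 0, 0, 0, 0, 0, 0, 0, ⟨0, 0⟩, 0⟩ 0 0) (.cut .v 134217728 (.pos 89 .pp ⟨167772160000, 0, 0, 0, 0, 0, 0, 0, 0, ⟨0, 0⟩, 0⟩ 0 0) (.void 90 ⟨90026, 0, 0, 9974, 0, 0, 0, 0, 0, ⟨0, 0⟩, 0⟩ 0 0))) (.void 103 ⟨0, 0, 0, 100000, 0, 0, 0, 0, 0, ⟨0, 0⟩, 0⟩ 0 0)) (.void 154 ⟨0, 0, 0, 100000, 0, 0, 0, 0, 0, ⟨0, 0⟩, 0⟩ 0 0)))),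
    by decide +kernel⟩

def covers37 : cell.Covers table row37.1 :=
  ⟨(.cut .d 0 (.cut .v 16777216 (.cut .d (-8388608) (.void 1 ⟨0, 0, 100000, 0, 0, 0, 0, 0, 0, ⟨0, 0⟩, 0⟩ 0 0) (.cut .d (-4194304) (.void 1 ⟨0, 0, 66871, 0, 0, 0, 0, 0, 0, ⟨0, 0⟩, 0⟩ 0 0) (.cut .v 8388608 (.void 2 ⟨0, 0, 100000, 0, 0, 0, 0, 0, 0, ⟨0, 0⟩, 0⟩ 0 0) (.pos 3 .mm ⟨87436264165, 0, 49125243505, 0, 0, 31210652330, 0, 0, 0, ⟨0, 0⟩, 0⟩ 0 0)))) (.cut .v 4294967296 (.cut .d (-8388608) (.void 102 ⟨1000000000, 0, 0, 0, 0, 0, 0, 0, 0, ⟨0, 0⟩, 0⟩ 0 0) (.cut .v 268435456 (.cut .v 67108864 (.cut .d (-4194304) (.void 72 ⟨1000000000, 0, 0, 0, 0, 0, 0, 0, 0, ⟨0, 0⟩, 0⟩ 0 0) (.cut .v 33554432 (.cut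 .d (-2097152) (.void 24 ⟨1000000000, 0, 0, 0, 0, 0, 0, 0, 0, ⟨0, 0⟩, 0⟩ 0 0) (.cut .d (-1048576) (.void 24 ⟨1000000000, 0, 0, 0, 0, 0, 0, 0, 0, ⟨0, 0⟩, 0⟩ 0 0) (.pos 24 .mp ⟨158842807990, 0, 0, 0, 0, 8929352010, 0, 0, 0, ⟨0, 0⟩, 0⟩ 0 0))) (.void 73 ⟨946776915, 0, 0, 0, 0, 53223085, 0, 0, 0, ⟨0, 0⟩, 0⟩ 0 0))) (.void 84 ⟨946776915, 0, 0, 0, 0, 53223085, 0, 0, 0, ⟨0, 0⟩, 0⟩ 0 0)) (.void 103 ⟨946776915, 0, 0, 0, 0, 53223085, 0, 0, 0, ⟨0, 0⟩, 0⟩ 0 0))) (.void 154 ⟨94704, 0, 0, 5296, 0, 0, 0, 0, 0, ⟨0, 0⟩, 0⟩ 0 0))) (.cut .v 16777216 (.cut .v 8388608 (.cut .v 4194304 (.cut .v 2097152 (.cut .v 1048576 (.cut .v 524288 (.cut .v 262144 (.cut .v 131072 (.cut .v 65536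 (.cut .v 32768 (.cut .v 16384 (.pos 159 .pm ⟨0, 0, 72240619, 0, 0, 0, 0, 0, 0, ⟨0, 0⟩, 0⟩ 0 0) (.pos 160 .pm ⟨0, 0, 163787052, 0, 0, 0, 0, 0, 0, ⟨0, 0⟩, 0⟩ 0 0)) (.pos 156 .pm ⟨0, 0, 283523338, 0, 0, 0, 0, 0, 0, ⟨0, 0⟩, 0⟩ 0 0)) (.pos 149 .pm ⟨0, 0, 511159969, 0, 0, 0, 0, 0, 0, ⟨0, 0⟩, 0⟩ 0 0)) (.pos 143 .pm ⟨0, 0, 975030565, 0, 0, 0, 0, 0, 0, ⟨0, 0⟩, 0⟩ 0 0)) (.pos 137 .pm ⟨0, 0, 1910139180, 0, 0, 0, 0, 0, 0, ⟨0, 0⟩, 0⟩ 0 0)) (.pos 125 .pm ⟨0, 0, 3755803680, 0, 0, 0, 0, 0, 0, ⟨0, 0⟩, 0⟩ 0 0)) (.pos 109 .pm ⟨0, 0, 7376033551, 0, 0, 0, 0, 0, 0, ⟨0, 0⟩, 0⟩ 0 0)) (.pos 7 .pm ⟨0, 0, 14393019395, 0, 0, 0, 0, 0, 0, ⟨0, 0⟩, 0⟩ 0 0)) (.pos 5 .pm ⟨0, 0, 27689523098,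 0, 0, 0, 0, 0, 0, ⟨0, 0⟩, 0⟩ 0 0)) (.pos 3 .pm ⟨0, 0, 32137484406, 0, 0, 0, 0, 0, 0, ⟨0, 0⟩, 0⟩ 0 0)) (.cut .v 4294967296 (.cut .v 268435456 (.cut .v 67108864 (.pos 72 .pp ⟨0, 0, 0, 0, 0, 0, 0, 0, 0, ⟨0, 0⟩, 0⟩ 0 0) (.cut .v 134217728 (.pos 89 .pp ⟨167772160000, 0, 0, 0, 0, 0, 0, 0, 0, ⟨0, 0⟩, 0⟩ 0 0) (.cut .s 16654336 (.void 90 ⟨90031, 0, 0, 9969, 0, 0, 0, 0, 0, ⟨0, 0⟩, 0⟩ 0 0) (.void 90 ⟨90026, 0, 0, 9974, 0, 0, 0, 0, 0, ⟨0, 0⟩, 0⟩ 0 0)))) (.void 103 ⟨0, 0, 0, 100000, 0, 0, 0, 0, 0, ⟨0, 0⟩, 0⟩ 0 0)) (.void 154 ⟨0, 0, 0, 100000, 0, 0, 0, 0, 0, ⟨0, 0⟩, 0⟩ 0 0)))),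
    by decide +kernel⟩

def covers38 : cell.Covers table row38.1 :=
  ⟨(.cut .d 0 (.cut .v 16777216 (.cut .d (-8388608) (.void 1 ⟨0, 0, 0, 0, 0, 100000, 0, 0, 0, ⟨0, 0⟩, 0⟩ 0 0) (.cut .d (-4194304) (.void 1 ⟨0, 0, 0, 0, 0, 100000, 0, 0, 0, ⟨0, 0⟩, 0⟩ 0 0) (.cut .d (-2097152) (.void 1 ⟨0, 0, 0, 0, 0, 100000, 0, 0, 0, ⟨0, 0⟩, 0⟩ 0 0) (.cut .v 8388608 (.void 2 ⟨0, 0, 100000, 0, 0, 0, 0, 0, 0, ⟨0, 0⟩, 0⟩ 0 0) (.pos 3 .mm ⟨155722926074, 0, 12049233926, 0, 0, 0, 0, 0, 0, ⟨0, 0⟩, 0⟩ 0 0))))) (.cut .v 4294967296 (.cut .v 268435456 (.cut .v 67108864 (.cut .d (-8388608) (.void 72 ⟨100000, 0, 0, 0, 0, 0, 0, 0, 0, ⟨0, 0⟩, 0⟩ 0 0) (.cut .d (-4194304) (.void 72 ⟨100000,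 0, 0, 0, 0, 0, 0, 0, 0, ⟨0, 0⟩, 0⟩ 0 0) (.cut .v 33554432 (.cut .d (-2097152) (.void 24 ⟨100000, 0, 0, 0, 0, 0, 0, 0, 0, ⟨0, 0⟩, 0⟩ 0 0) (.cut .d (-1048576) (.void 24 ⟨100000, 0, 0, 0, 0, 0, 0, 0, 0, ⟨0, 0⟩, 0⟩ 0 0) (.cut .v 25165824 (.cut .v 20971520 (.cut .d (-524288) (.void 27 ⟨100000, 0, 0, 0, 0, 0, 0, 0, 0, ⟨0, 0⟩, 0⟩ 0 0) (.pos 27 .mp ⟨150618136460, 0, 0, 0, 0, 17154023540, 0, 0, 0, ⟨0, 0⟩, 0⟩ 0 0)) (.void 28 ⟨100000, 0, 0, 0, 0, 0, 0, 0, 0, ⟨0, 0⟩, 0⟩ 0 0)) (.void 26 ⟨100000, 0, 0, 0, 0, 0, 0, 0, 0, ⟨0, 0⟩, 0⟩ 0 0)))) (.void 73 ⟨100000, 0, 0, 0, 0, 0, 0, 0, 0, ⟨0, 0⟩, 0⟩ 0 0)))) (.void 84 ⟨100000, 0, 0, 0, 0, 0, 0, 0, 0, ⟨0, 0⟩, 0⟩ 0 0)) (.void 103 ⟨94728,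 0, 0, 5227, 0, 0, 0, 0, 0, ⟨0, 0⟩, 0⟩ 0 0)) (.void 154 ⟨94769, 0, 0, 5233, 0, 0, 0, 0, 0, ⟨0, 0⟩, 0⟩ 0 0))) (.cut .v 16777216 (.cut .v 8388608 (.cut .v 4194304 (.cut .v 2097152 (.cut .v 1048576 (.cut .v 524288 (.cut .v 262144 (.cut .v 131072 (.cut .v 65536 (.cut .v 32768 (.cut .v 16384 (.cut .v 8192 (.pos 165 .pm ⟨0, 0, 64464156, 0, 0, 0, 0, 0, 0, ⟨0, 0⟩, 0⟩ 0 0) (.pos 166 .pm ⟨0, 0, 144607059, 0, 0, 0, 0, 0, 0, ⟨0, 0⟩, 0⟩ 0 0)) (.pos 160 .pm ⟨0, 0, 247686378, 0, 0, 0, 0, 0, 0, ⟨0, 0⟩, 0⟩ 0 0)) (.pos 156 .pm ⟨0, 0, 436071766, 0, 0, 0, 0, 0, 0, ⟨0, 0⟩, 0⟩ 0 0)) (.pos 149 .pm ⟨0, 0, 797287057, 0, 0, 0, 0, 0, 0, ⟨0, 0⟩, 0⟩ 0 0)) (.pos 143 .pm ⟨0, 0, 1527004196,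 0, 0, 0, 0, 0, 0, ⟨0, 0⟩, 0⟩ 0 0)) (.pos 137 .pm ⟨0, 0, 2950667160, 0, 0, 0, 0, 0, 0, ⟨0, 0⟩, 0⟩ 0 0)) (.pos 125 .pm ⟨0, 0, 5697877353, 0, 0, 0, 0, 0, 0, ⟨0, 0⟩, 0⟩ 0 0)) (.pos 109 .pm ⟨0, 0, 10906768681, 0, 0, 0, 0, 0, 0, ⟨0, 0⟩, 0⟩ 0 0)) (.pos 7 .pm ⟨0, 0, 20467035855, 0, 0, 0, 0, 0, 0, ⟨0, 0⟩, 0⟩ 0 0)) (.pos 5 .pm ⟨0, 0, 37017107559, 0, 0, 0, 0, 0, 0, ⟨0, 0⟩, 0⟩ 0 0)) (.pos 3 .pm ⟨0, 0, 40469477007, 0, 0, 0, 0, 0, 0, ⟨0, 0⟩, 0⟩ 0 0)) (.cut .v 4294967296 (.cut .v 268435456 (.cut .v 67108864 (.pos 72 .pp ⟨0, 0, 0, 0, 0, 0, 0, 0, 0, ⟨0, 0⟩, 0⟩ 0 0) (.cut .v 134217728 (.cut .v 100663296 (.pos 91 .pp ⟨167772160000, 0, 0, 0, 0, 0, 0, 0, 0, ⟨0, 0⟩, 0⟩ 0 0) (.cut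 .d 57740 (.cut .d 28870 (.cut .d 14435 (.void 92 ⟨100000, 0, 0, 0, 0, 0, 0, 0, 0, ⟨0, 0⟩, 0⟩ 0 0) (.pos 92 .pp ⟨167772160000, 0, 0, 0, 0, 0, 0, 0, 0, ⟨0, 0⟩, 0⟩ 0 0)) (.pos 92 .pp ⟨0, 145786916749, 0, 21985243251, 0, 0, 0, 0, 0, ⟨0, 0⟩, 0⟩ 0 0)) (.void 92 ⟨0, 0, 0, 100000, 0, 0, 0, 0, 0, ⟨0, 0⟩, 0⟩ 0 0))) (.void 90 ⟨90022, 0, 0, 9978, 0, 0, 0, 0, 0, ⟨0, 0⟩, 0⟩ 0 0))) (.cut .s 16678912 (.void 103 ⟨0, 0, 0, 1000000000, 0, 0, 0, 0, 0, ⟨0, 0⟩, 0⟩ 0 0) (.void 103 ⟨0, 0, 0, 100000, 0, 0, 0, 0, 0, ⟨0, 0⟩, 0⟩ 0 0))) (.void 154 ⟨0, 0, 0, 100000, 0, 0, 0, 0, 0, ⟨0, 0⟩, 0⟩ 0 0)))),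
    by decide +kernel⟩

def covers39 : cell.Covers table row39.1 :=
  ⟨(.cut .d 0 (.cut .v 16777216 (.cut .d (-8388608) (.void 1 ⟨0, 0, 100000, 0, 0, 0, 0, 0, 0, ⟨0, 0⟩, 0⟩ 0 0) (.cut .d (-4194304) (.void 1 ⟨0, 0, 100000, 0, 0, 0, 0, 0, 0, ⟨0, 0⟩, 0⟩ 0 0) (.cut .d (-2097152) (.void 1 ⟨0, 0, 100000, 0, 0, 0, 0, 0, 0, ⟨0, 0⟩, 0⟩ 0 0) (.cut .d (-1048576) (.void 1 ⟨0, 0, 100000, 0, 0, 0, 0, 0, 0, ⟨0, 0⟩, 0⟩ 0 0) (.cut .v 8388608 (.void 2 ⟨0, 0, 100000, 0, 0, 0, 0, 0, 0, ⟨0, 0⟩, 0⟩ 0 0) (.cut .d (-524288) (.void 3 ⟨1000000000, 0, 0, 0, 0, 0, 0, 0, 0, ⟨0, 0⟩, 0⟩ 0 0) (.pos 3 .mm ⟨143456531335, 0, 24315628665, 0, 0, 0, 0, 0, 0, ⟨0, 0⟩, 0⟩ 0 0))))))) (.cut .v 4294967296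 (.cut .d (-8388608) (.void 102 ⟨1000000000, 0, 0, 0, 0, 0, 0, 0, 0, ⟨0, 0⟩, 0⟩ 0 0) (.cut .v 268435456 (.cut .v 67108864 (.cut .d (-4194304) (.void 72 ⟨1000000000, 0, 0, 0, 0, 0, 0, 0, 0, ⟨0, 0⟩, 0⟩ 0 0) (.cut .d (-2097152) (.void 72 ⟨1000000000, 0, 0, 0, 0, 0, 0, 0, 0, ⟨0, 0⟩, 0⟩ 0 0) (.cut .v 33554432 (.cut .d (-1048576) (.void 24 ⟨1000000000, 0, 0, 0, 0, 0, 0, 0, 0, ⟨0, 0⟩, 0⟩ 0 0) (.cut .d (-524288) (.void 24 ⟨1000000000, 0, 0, 0, 0, 0, 0, 0, 0, ⟨0, 0⟩, 0⟩ 0 0) (.cut .d (-262144) (.void 24 ⟨1000000000, 0, 0, 0, 0, 0, 0, 0, 0, ⟨0, 0⟩, 0⟩ 0 0) (.cut .d (-131072) (.void 24 ⟨1000000000, 0, 0, 0, 0, 0, 0, 0, 0, ⟨0, 0⟩, 0⟩ 0 0) (.pos 24 .mp ⟨167772160000, 0,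 0, 0, 0, 0, 0, 0, 0, ⟨0, 0⟩, 0⟩ 0 0))))) (.void 73 ⟨1000000000, 0, 0, 0, 0, 0, 0, 0, 0, ⟨0, 0⟩, 0⟩ 0 0)))) (.void 84 ⟨1000000000, 0, 0, 0, 0, 0, 0, 0, 0, ⟨0, 0⟩, 0⟩ 0 0)) (.void 103 ⟨1000000000, 0, 0, 0, 0, 0, 0, 0, 0, ⟨0, 0⟩, 0⟩ 0 0))) (.void 154 ⟨94756, 0, 0, 5244, 0, 0, 0, 0, 0, ⟨0, 0⟩, 0⟩ 0 0))) (.cut .v 16777216 (.cut .v 8388608 (.cut .v 4194304 (.cut .v 2097152 (.cut .v 1048576 (.cut .v 524288 (.cut .v 262144 (.cut .v 131072 (.cut .v 65536 (.cut .v 32768 (.cut .v 16384 (.cut .v 8192 (.pos 165 .pm ⟨0, 0, 68874334, 0, 0, 0, 0, 0, 0, ⟨0, 0⟩, 0⟩ 0 0) (.pos 166 .pm ⟨0, 0, 157780810, 0, 0, 0, 0, 0, 0, ⟨0, 0⟩, 0⟩ 0 0)) (.pos 160 .pm ⟨0, 0, 281378278, 0, 0, 0,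 0, 0, 0, ⟨0, 0⟩, 0⟩ 0 0)) (.pos 156 .pm ⟨0, 0, 509217398, 0, 0, 0, 0, 0, 0, ⟨0, 0⟩, 0⟩ 0 0)) (.pos 149 .pm ⟨0, 0, 950129852, 0, 0, 0, 0, 0, 0, ⟨0, 0⟩, 0⟩ 0 0)) (.pos 143 .pm ⟨0, 0, 1852058089, 0, 0, 0, 0, 0, 0, ⟨0, 0⟩, 0⟩ 0 0)) (.pos 137 .pm ⟨0, 0, 3688212427, 0, 0, 0, 0, 0, 0, ⟨0, 0⟩, 0⟩ 0 0)) (.pos 125 .pm ⟨0, 0, 7360761390, 0, 0, 0, 0, 0, 0, ⟨0, 0⟩, 0⟩ 0 0)) (.pos 109 .pm ⟨0, 0, 14706820465, 0, 0, 0, 0, 0, 0, ⟨0, 0⟩, 0⟩ 0 0)) (.pos 7 .pm ⟨0, 0, 29402783212, 0, 0, 0, 0, 0, 0, ⟨0, 0⟩, 0⟩ 0 0)) (.pos 5 .pm ⟨0, 0, 58810087095, 0, 0, 0, 0, 0, 0, ⟨0, 0⟩, 0⟩ 0 0)) (.pos 3 .pm ⟨0, 0, 65617192698, 0, 0, 0, 0, 0, 0, ⟨0, 0⟩, 0⟩ 0 0)) (.cut .v 4294967296 (.cut .v 268435456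 (.cut .v 67108864 (.pos 72 .pp ⟨0, 0, 0, 0, 0, 0, 0, 0, 0, ⟨0, 0⟩, 0⟩ 0 0) (.cut .v 134217728 (.cut .s 16703488 (.cut .s 16699392 (.cut .s 16697344 (.cut .s 16696320 (.cut .d 41162 (.cut .d 20581 (.cut .d 10290 (.void 89 ⟨1000000000, 0, 0, 0, 0, 0, 0, 0, 0, ⟨0, 0⟩, 0⟩ 0 0) (.pos 89 .pp ⟨125107248968, 0, 0, 42664911032, 0, 0, 0, 0, 0, ⟨0, 0⟩, 0⟩ 0 0)) (.pos 89 .pp ⟨0, 146384227192, 0, 21387932808, 0, 0, 0, 0, 0, ⟨0, 0⟩, 0⟩ 0 0)) (.pos 89 .pp ⟨0, 0, 0, 0, 0, 0, 0, 0, 0, ⟨0, 0⟩, 0⟩ 0 0)) (.pos 89 .pp ⟨167772160000, 0, 0, 0, 0, 0, 0, 0, 0, ⟨0, 0⟩, 0⟩ 0 0)) (.pos 89 .pp ⟨167772160000, 0, 0, 0, 0, 0, 0, 0, 0, ⟨0, 0⟩, 0⟩ 0 0)) (.pos 89 .pp ⟨167772160000, 0, 0, 0,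 0, 0, 0, 0, 0, ⟨0, 0⟩, 0⟩ 0 0)) (.pos 89 .pp ⟨167772160000, 0, 0, 0, 0, 0, 0, 0, 0, ⟨0, 0⟩, 0⟩ 0 0)) (.void 90 ⟨89912, 0, 0, 10088, 0, 0, 0, 0, 0, ⟨0, 0⟩, 0⟩ 0 0))) (.void 103 ⟨0, 0, 0, 100000, 0, 0, 0, 0, 0, ⟨0, 0⟩, 0⟩ 0 0)) (.void 154 ⟨0, 0, 0, 100000, 0, 0, 0, 0, 0, ⟨0, 0⟩, 0⟩ 0 0)))),
    by decide +kernel⟩

def covers40 : cell.Covers table row40.1 :=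
  ⟨(.cut .d 0 (.cut .v 16777216 (.cut .d (-8388608) (.void 1 ⟨0, 0, 0, 0, 0, 1000000000, 0, 0, 0, ⟨0, 0⟩, 0⟩ 0 0) (.cut .d (-4194304) (.void 1 ⟨0, 0, 0, 0, 0, 1000000000, 0, 0, 0, ⟨0, 0⟩, 0⟩ 0 0) (.cut .d (-2097152) (.void 1 ⟨0, 0, 0, 0, 0, 1000000000, 0, 0, 0, ⟨0, 0⟩, 0⟩ 0 0) (.cut .d (-1048576) (.void 1 ⟨0, 0, 0, 0, 0, 1000000000, 0, 0, 0, ⟨0, 0⟩, 0⟩ 0 0) (.cut .d (-524288) (.void 1 ⟨0, 0, 0, 0, 0, 1000000000, 0, 0, 0, ⟨0, 0⟩, 0⟩ 0 0) (.cut .d (-262144) (.void 1 ⟨0, 0, 0, 0, 0, 1000000000, 0, 0, 0, ⟨0, 0⟩, 0⟩ 0 0) (.cut .d (-131072) (.void 1 ⟨0, 0, 0, 0, 0, 1000000000, 0, 0, 0, ⟨0, 0⟩, 0⟩ 0 0) (.cut .v 8388608 (.pos 2 .mm ⟨0, 0, 167772160000, 0, 0, 0, 0,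 0, 0, ⟨0, 0⟩, 0⟩ 0 0) (.pos 3 .mm ⟨167772160000, 0, 0, 0, 0, 0, 0, 0, 0, ⟨0, 0⟩, 0⟩ 0 0))))))))) (.cut .v 4294967296 (.cut .d (-8388608) (.void 102 ⟨100000, 0, 0, 2355, 0, 0, 0, 0, 0, ⟨0, 0⟩, 0⟩ 0 0) (.cut .d (-4194304) (.void 102 ⟨1000000000, 0, 0, 0, 0, 0, 0, 0, 0, ⟨0, 0⟩, 0⟩ 0 0) (.cut .v 268435456 (.cut .v 67108864 (.cut .d (-2097152) (.void 72 ⟨1000000000, 0, 0, 0, 0, 0, 0, 0, 0, ⟨0, 0⟩, 0⟩ 0 0) (.cut .v 33554432 (.cut .d (-1048576) (.void 24 ⟨1000000000, 0, 0, 0, 0, 0, 0, 0, 0, ⟨0, 0⟩, 0⟩ 0 0) (.cut .d (-524288) (.void 24 ⟨1000000000, 0, 0, 0, 0, 0, 0, 0, 0, ⟨0, 0⟩, 0⟩ 0 0) (.cut .d (-262144) (.void 24 ⟨1000000000, 0, 0, 0, 0, 0, 0, 0, 0, ⟨0, 0⟩, 0⟩ 0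 0) (.cut .d (-131072) (.void 24 ⟨1000000000, 0, 0, 0, 0, 0, 0, 0, 0, ⟨0, 0⟩, 0⟩ 0 0) (.cut .d (-65536) (.void 24 ⟨1000000000, 0, 0, 0, 0, 0, 0, 0, 0, ⟨0, 0⟩, 0⟩ 0 0) (.pos 24 .mp ⟨167772160000, 0, 0, 0, 0, 0, 0, 0, 0, ⟨0, 0⟩, 0⟩ 0 0)))))) (.void 73 ⟨100000, 0, 0, 0, 0, 0, 0, 0, 0, ⟨0, 0⟩, 0⟩ 0 0))) (.void 84 ⟨100000, 0, 0, 0, 0, 0, 0, 0, 0, ⟨0, 0⟩, 0⟩ 0 0)) (.void 103 ⟨100000, 0, 0, 0, 0, 0, 0, 0, 0, ⟨0, 0⟩, 0⟩ 0 0)))) (.void 154 ⟨100000, 0, 0, 0, 0, 0, 0, 0, 0, ⟨0, 0⟩, 0⟩ 0 0))) (.cut .v 16777216 (.cut .v 8388608 (.cut .v 4194304 (.cut .v 2097152 (.cut .v 1048576 (.cut .v 524288 (.cut .v 262144 (.cut .v 131072 (.cut .v 65536 (.cut .v 32768 (.cut .v 16384 (.pos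 159 .pm ⟨0, 0, 153699133, 0, 0, 0, 0, 0, 0, ⟨0, 0⟩, 0⟩ 0 0) (.pos 160 .pm ⟨0, 0, 479104123, 0, 0, 0, 0, 0, 0, ⟨0, 0⟩, 0⟩ 0 0)) (.pos 156 .pm ⟨0, 0, 925944544, 0, 0, 0, 0, 0, 0, ⟨0, 0⟩, 0⟩ 0 0)) (.pos 149 .pm ⟨0, 0, 1794743970, 0, 0, 0, 0, 0, 0, ⟨0, 0⟩, 0⟩ 0 0)) (.pos 143 .pm ⟨0, 0, 3503149653, 0, 0, 0, 0, 0, 0, ⟨0, 0⟩, 0⟩ 0 0)) (.pos 137 .pm ⟨0, 0, 6848056804, 0, 0, 0, 0, 0, 0, ⟨0, 0⟩, 0⟩ 0 0)) (.pos 125 .pm ⟨0, 0, 13345865121, 0, 0, 0, 0, 0, 0, ⟨0, 0⟩, 0⟩ 0 0)) (.pos 109 .pm ⟨0, 0, 25784906922, 0, 0, 0, 0, 0, 0, ⟨0, 0⟩, 0⟩ 0 0)) (.pos 7 .pm ⟨0, 0, 48953422723, 0, 0, 0, 0, 0, 0, ⟨0, 0⟩, 0⟩ 0 0)) (.pos 5 .pm ⟨0, 0, 89996805901, 0, 0, 0, 0, 0, 0, ⟨0, 0⟩, 0⟩ 0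 0)) (.pos 3 .pm ⟨0, 0, 167772160000, 0, 0, 0, 0, 0, 0, ⟨0, 0⟩, 0⟩ 0 0)) (.cut .v 4294967296 (.cut .v 268435456 (.cut .v 67108864 (.pos 72 .pp ⟨0, 0, 0, 0, 0, 0, 0, 0, 0, ⟨0, 0⟩, 0⟩ 0 0) (.pos 84 .pp ⟨13271204411, 0, 0, 154500955589, 0, 0, 0, 0, 0, ⟨0, 0⟩, 0⟩ 0 0)) (.void 103 ⟨79102542, 0, 0, 920897458, 0, 0, 0, 0, 0, ⟨0, 0⟩, 0⟩ 0 0)) (.void 154 ⟨79102542, 0, 0, 920897458, 0, 0, 0, 0, 0, ⟨0, 0⟩, 0⟩ 0 0)))),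
    by decide +kernel⟩

def covers41 : cell.Covers table row41.1 :=
  ⟨(.cut .d 0 (.cut .v 16777216 (.cut .d (-8388608) (.void 1 ⟨0, 0, 0, 0, 0, 1000000000, 0, 0, 0, ⟨0, 0⟩, 0⟩ 0 0) (.cut .d (-4194304) (.void 1 ⟨0, 0, 100000, 0, 0, 0, 0, 0, 0, ⟨0, 0⟩, 0⟩ 0 0) (.cut .d (-2097152) (.void 1 ⟨0, 0, 100000, 0, 0, 0, 0, 0, 0, ⟨0, 0⟩, 0⟩ 0 0) (.cut .d (-1048576) (.void 1 ⟨0, 0, 100000, 0, 0, 0, 0, 0, 0, ⟨0, 0⟩, 0⟩ 0 0) (.cut .d (-524288) (.void 1 ⟨0, 0, 100000, 0, 0, 0, 0, 0, 0, ⟨0, 0⟩, 0⟩ 0 0) (.cut .d (-262144) (.void 1 ⟨0, 0, 100000, 0, 0, 0, 0, 0, 0, ⟨0, 0⟩, 0⟩ 0 0) (.cut .d (-131072) (.void 1 ⟨0, 0, 100000, 0, 0, 0, 0, 0, 0, ⟨0, 0⟩, 0⟩ 0 0) (.cut .d (-65536)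 (.void 1 ⟨0, 0, 100000, 0, 0, 0, 0, 0, 0, ⟨0, 0⟩, 0⟩ 0 0) (.cut .v 8388608 (.cut .s 16736256 (.void 2 ⟨0, 0, 1000000000, 0, 0, 0, 0, 0, 0, ⟨0, 0⟩, 0⟩ 0 0) (.void 2 ⟨0, 0, 1000000000, 0, 0, 0, 0, 0, 0, ⟨0, 0⟩, 0⟩ 0 0)) (.pos 3 .mm ⟨167772160000, 0, 0, 0, 0, 0, 0, 0, 0, ⟨0, 0⟩, 0⟩ 0 0)))))))))) (.cut .v 4294967296 (.cut .v 268435456 (.cut .d (-8388608) (.void 83 ⟨0, 0, 0, 0, 0, 1000000000, 0, 0, 0, ⟨0, 0⟩, 0⟩ 0 0) (.cut .v 67108864 (.cut .d (-4194304) (.void 72 ⟨1000000000, 0, 0, 0, 0, 0, 0, 0, 0, ⟨0, 0⟩, 0⟩ 0 0) (.cut .d (-2097152) (.void 72 ⟨1000000000, 0, 0, 0, 0, 0, 0, 0, 0, ⟨0, 0⟩, 0⟩ 0 0) (.cut .d (-1048576) (.void 72 ⟨1000000000, 0, 0, 0, 0, 0, 0, 0, 0,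 ⟨0, 0⟩, 0⟩ 0 0) (.cut .v 33554432 (.cut .d (-524288) (.void 24 ⟨1000000000, 0, 0, 0, 0, 0, 0, 0, 0, ⟨0, 0⟩, 0⟩ 0 0) (.cut .d (-262144) (.void 24 ⟨1000000000, 0, 0, 0, 0, 0, 0, 0, 0, ⟨0, 0⟩, 0⟩ 0 0) (.cut .d (-131072) (.void 24 ⟨1000000000, 0, 0, 0, 0, 0, 0, 0, 0, ⟨0, 0⟩, 0⟩ 0 0) (.cut .d (-65536) (.void 24 ⟨1000000000, 0, 0, 0, 0, 0, 0, 0, 0, ⟨0, 0⟩, 0⟩ 0 0) (.cut .d (-32768) (.void 24 ⟨1000000000, 0, 0, 0, 0, 0, 0, 0, 0, ⟨0, 0⟩, 0⟩ 0 0) (.pos 24 .mp ⟨167772160000, 0, 0, 0, 0, 0, 0, 0, 0, ⟨0, 0⟩, 0⟩ 0 0)))))) (.void 73 ⟨1000000000, 0, 0, 0, 0, 0, 0, 0, 0, ⟨0, 0⟩, 0⟩ 0 0))))) (.void 84 ⟨1000000000, 0, 0, 0, 0, 0, 0, 0, 0, ⟨0, 0⟩, 0⟩ 0 0))) (.void 103 ⟨94747,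 0, 0, 5253, 0, 0, 0, 0, 0, ⟨0, 0⟩, 0⟩ 0 0)) (.void 154 ⟨94747, 0, 0, 5253, 0, 0, 0, 0, 0, ⟨0, 0⟩, 0⟩ 0 0))) (.cut .v 16777216 (.cut .v 8388608 (.cut .v 4194304 (.cut .v 2097152 (.cut .v 1048576 (.cut .v 524288 (.cut .v 262144 (.cut .v 131072 (.cut .v 65536 (.cut .v 32768 (.cut .v 16384 (.cut .v 8192 (.pos 165 .pm ⟨0, 0, 106360250, 0, 0, 0, 0, 0, 0, ⟨0, 0⟩, 0⟩ 0 0) (.pos 166 .pm ⟨0, 0, 283661610, 0, 0, 0, 0, 0, 0, ⟨0, 0⟩, 0⟩ 0 0)) (.pos 160 .pm ⟨0, 0, 531877881, 0, 0, 0, 0, 0, 0, ⟨0, 0⟩, 0⟩ 0 0)) (.pos 156 .pm ⟨0, 0, 1047809962, 0, 0, 0, 0, 0, 0, ⟨0, 0⟩, 0⟩ 0 0)) (.pos 149 .pm ⟨0, 0, 2079677911, 0, 0, 0, 0, 0, 0, ⟨0, 0⟩, 0⟩ 0 0)) (.pos 143 .pm ⟨0, 0, 4143428954,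 0, 0, 0, 0, 0, 0, ⟨0, 0⟩, 0⟩ 0 0)) (.pos 137 .pm ⟨0, 0, 8270991622, 0, 0, 0, 0, 0, 0, ⟨0, 0⟩, 0⟩ 0 0)) (.pos 125 .pm ⟨0, 0, 16526359281, 0, 0, 0, 0, 0, 0, ⟨0, 0⟩, 0⟩ 0 0)) (.pos 109 .pm ⟨0, 0, 33038063898, 0, 0, 0, 0, 0, 0, ⟨0, 0⟩, 0⟩ 0 0)) (.pos 7 .pm ⟨0, 0, 66065350325, 0, 0, 0, 0, 0, 0, ⟨0, 0⟩, 0⟩ 0 0)) (.pos 5 .pm ⟨0, 0, 132135431950, 0, 0, 0, 0, 0, 0, ⟨0, 0⟩, 0⟩ 0 0)) (.pos 3 .pm ⟨0, 0, 167772160000, 0, 0, 0, 0, 0, 0, ⟨0, 0⟩, 0⟩ 0 0)) (.cut .v 4294967296 (.cut .v 268435456 (.cut .v 67108864 (.pos 72 .pp ⟨0, 0, 0, 0, 0, 0, 0, 0, 0, ⟨0, 0⟩, 0⟩ 0 0) (.pos 84 .pp ⟨0, 0, 0, 167772160000, 0, 0, 0, 0, 0, ⟨0, 0⟩, 0⟩ 0 0)) (.void 103 ⟨0, 0, 0, 100000, 0, 0, 0,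 0, 0, ⟨0, 0⟩, 0⟩ 0 0)) (.void 154 ⟨0, 0, 0, 100000, 0, 0, 0, 0, 0, ⟨0, 0⟩, 0⟩ 0 0)))),
    by decide +kernel⟩

def covers42 : cell.Covers table row42.1 :=
  ⟨(.cut .d 0 (.cut .v 16777216 (.cut .d (-8388608) (.void 1 ⟨0, 0, 100000, 0, 0, 0, 0, 0, 0, ⟨0, 0⟩, 0⟩ 0 0) (.cut .d (-4194304) (.void 1 ⟨0, 0, 100000, 0, 0, 0, 0, 0, 0, ⟨0, 0⟩, 0⟩ 0 0) (.cut .v 8388608 (.void 2 ⟨0, 0, 100000, 0, 0, 0, 0, 0, 0, ⟨0, 0⟩, 0⟩ 0 0) (.cut .d (-2097152) (.void 3 ⟨1000000000, 0, 0, 0, 0, 0, 0, 0, 0, ⟨0, 0⟩, 0⟩ 0 0) (.cut .d (-1048576) (.void 3 ⟨1000000000, 0, 0, 0, 0, 0, 0, 0, 0, ⟨0, 0⟩, 0⟩ 0 0) (.cut .d (-524288) (.void 3 ⟨1000000000, 0, 0, 0, 0, 0, 0, 0, 0, ⟨0, 0⟩, 0⟩ 0 0) (.cut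 .d (-262144) (.void 3 ⟨1000000000, 0, 0, 0, 0, 0, 0, 0, 0, ⟨0, 0⟩, 0⟩ 0 0) (.cut .d (-131072) (.void 3 ⟨1000000000, 0, 0, 0, 0, 0, 0, 0, 0, ⟨0, 0⟩, 0⟩ 0 0) (.cut .d (-65536) (.void 3 ⟨1000000000, 0, 0, 0, 0, 0, 0, 0, 0, ⟨0, 0⟩, 0⟩ 0 0) (.cut .d (-32768) (.void 3 ⟨1000000000, 0, 0, 0, 0, 0, 0, 0, 0, ⟨0, 0⟩, 0⟩ 0 0) (.pos 3 .mm ⟨167772160000, 0, 0, 0, 0, 0, 0, 0, 0, ⟨0, 0⟩, 0⟩ 0 0))))))))))) (.cut .v 4294967296 (.cut .d (-8388608) (.void 102 ⟨57008, 0, 192, 192, 0, 0, 0, 42992, 0, ⟨(-1), 9801748⟩, 0⟩ 0 128) (.cut .v 268435456 (.cut .v 67108864 (.cut .d (-4194304) (.void 72 ⟨1000000000, 0, 0, 0, 0, 0, 0, 0, 0, ⟨0, 0⟩, 0⟩ 0 0) (.cut .d (-2097152) (.void 72 ⟨1000000000,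 0, 0, 0, 0, 0, 0, 0, 0, ⟨0, 0⟩, 0⟩ 0 0) (.cut .d (-1048576) (.void 72 ⟨1000000000, 0, 0, 0, 0, 0, 0, 0, 0, ⟨0, 0⟩, 0⟩ 0 0) (.cut .d (-524288) (.void 72 ⟨1000000000, 0, 0, 0, 0, 0, 0, 0, 0, ⟨0, 0⟩, 0⟩ 0 0) (.cut .d (-262144) (.void 72 ⟨1000000000, 0, 0, 0, 0, 0, 0, 0, 0, ⟨0, 0⟩, 0⟩ 0 0) (.cut .d (-131072) (.void 72 ⟨1000000000, 0, 0, 0, 0, 0, 0, 0, 0, ⟨0, 0⟩, 0⟩ 0 0) (.cut .d (-65536) (.void 72 ⟨1000000000, 0, 0, 0, 0, 0, 0, 0, 0, ⟨0, 0⟩, 0⟩ 0 0) (.cut .d (-32768) (.void 72 ⟨1000000000, 0, 0, 0, 0, 0, 0, 0, 0, ⟨0, 0⟩, 0⟩ 0 0) (.cut .d (-16384) (.void 72 ⟨1000000000, 0, 0, 0, 0, 0, 0, 0, 0, ⟨0, 0⟩, 0⟩ 0 0) (.pos 72 .mp ⟨167772160000, 0, 0, 0, 0, 0, 0, 0, 0, ⟨0,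 0⟩, 0⟩ 0 0)))))))))) (.void 84 ⟨1000000000, 0, 0, 0, 0, 0, 0, 0, 0, ⟨0, 0⟩, 0⟩ 0 0)) (.void 103 ⟨1000000000, 0, 0, 0, 0, 0, 0, 0, 0, ⟨0, 0⟩, 0⟩ 0 0))) (.void 154 ⟨94845, 0, 0, 5155, 0, 0, 0, 0, 0, ⟨0, 0⟩, 0⟩ 0 0))) (.cut .v 16777216 (.cut .v 8388608 (.cut .v 4194304 (.cut .d 16417 (.pos 4 .pm ⟨0, 0, 167772160000, 0, 0, 0, 0, 0, 0, ⟨0, 0⟩, 0⟩ 0 0) (.cut .v 2097152 (.cut .v 1048576 (.cut .v 524288 (.cut .v 262144 (.cut .v 131072 (.cut .v 65536 (.cut .v 32768 (.cut .v 16384 (.cut .v 8192 (.pos 165 .pm ⟨0, 0, 55850408, 0, 0, 0, 0, 0, 0, ⟨0, 0⟩, 0⟩ 0 0) (.pos 166 .pm ⟨0, 0, 501155174, 0, 0, 0, 0, 0, 0, ⟨0, 0⟩, 0⟩ 0 0)) (.pos 160 .pm ⟨0, 0, 986348082, 0, 0, 0, 0,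 0, 0, ⟨0, 0⟩, 0⟩ 0 0)) (.pos 156 .pm ⟨0, 0, 1956734847, 0, 0, 0, 0, 0, 0, ⟨0, 0⟩, 0⟩ 0 0)) (.pos 149 .pm ⟨0, 0, 3897512181, 0, 0, 0, 0, 0, 0, ⟨0, 0⟩, 0⟩ 0 0)) (.pos 143 .pm ⟨0, 0, 7779082058, 0, 0, 0, 0, 0, 0, ⟨0, 0⟩, 0⟩ 0 0)) (.pos 137 .pm ⟨0, 0, 15542282648, 0, 0, 0, 0, 0, 0, ⟨0, 0⟩, 0⟩ 0 0)) (.pos 125 .pm ⟨0, 0, 31068927177, 0, 0, 0, 0, 0, 0, ⟨0, 0⟩, 0⟩ 0 0)) (.pos 109 .pm ⟨0, 0, 62123189625, 0, 0, 0, 0, 0, 0, ⟨0, 0⟩, 0⟩ 0 0)) (.pos 7 .pm ⟨0, 0, 124235608088, 0, 0, 0, 0, 0, 0, ⟨0, 0⟩, 0⟩ 0 0))) (.pos 5 .pm ⟨0, 0, 167772160000, 0, 0, 0, 0, 0, 0, ⟨0, 0⟩, 0⟩ 0 0)) (.pos 3 .pm ⟨0, 0, 167772160000, 0, 0, 0, 0, 0, 0, ⟨0, 0⟩, 0⟩ 0 0)) (.cut .v 4294967296 (.cut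 .v 268435456 (.cut .s 16750592 (.pos 83 .pp ⟨72874154428, 0, 0, 94898005572, 0, 0, 0, 0, 0, ⟨0, 0⟩, 0⟩ 0 0) (.cut .d 16417 (.cut .d 8208 (.cut .d 4104 (.cut .d 2052 (.cut .v 67108864 (.pos 72 .pp ⟨0, 0, 0, 0, 0, 0, 0, 0, 0, ⟨0, 0⟩, 0⟩ 0 0) (.cut .v 134217728 (.void 89 ⟨100000, 0, 0, 0, 0, 0, 0, 0, 0, ⟨0, 0⟩, 0⟩ 0 0) (.void 90 ⟨100000, 0, 0, 0, 0, 0, 0, 0, 0, ⟨0, 0⟩, 0⟩ 0 0))) (.pos 83 .pp ⟨68574209882, 0, 0, 99197950118, 0, 0, 0, 0, 0, ⟨0, 0⟩, 0⟩ 0 0)) (.pos 83 .pp ⟨0, 0, 0, 8446771292, 0, 0, 0, 0, 0, ⟨0, 0⟩, 0⟩ 0 0)) (.pos 83 .pp ⟨0, 0, 0, 0, 0, 0, 0, 0, 0, ⟨0, 0⟩, 0⟩ 0 0)) (.pos 83 .pp ⟨0, 0, 0, 0, 0, 0, 0, 0, 0, ⟨0, 0⟩, 0⟩ 0 0))) (.void 103 ⟨0, 0, 0, 100000,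 0, 0, 0, 0, 0, ⟨0, 0⟩, 0⟩ 0 0)) (.void 154 ⟨0, 0, 0, 100000, 0, 0, 0, 0, 0, ⟨0, 0⟩, 0⟩ 0 0)))),
    by decide +kernel⟩

def covers43 : cell.Covers table row43.1 :=
  ⟨(.cut .d 0 (.cut .v 16777216 (.cut .d (-8388608) (.void 1 ⟨0, 0, 0, 0, 0, 1000000000, 0, 0, 0, ⟨0, 0⟩, 0⟩ 0 0) (.cut .d (-4194304) (.void 1 ⟨0, 0, 0, 0, 0, 1000000000, 0, 0, 0, ⟨0, 0⟩, 0⟩ 0 0) (.cut .d (-2097152) (.void 1 ⟨0, 0, 0, 0, 0, 1000000000, 0, 0, 0, ⟨0, 0⟩, 0⟩ 0 0) (.cut .d (-1048576) (.void 1 ⟨0, 0, 0, 0, 0, 1000000000, 0, 0, 0, ⟨0, 0⟩, 0⟩ 0 0) (.cut .v 8388608 (.cut .s 16760832 (.void 2 ⟨0, 0, 100000, 0, 0, 0, 0, 0, 0, ⟨0, 0⟩, 0⟩ 0 0) (.cut .d (-524288) (.void 2 ⟨0, 0, 1000000000, 0,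 0, 0, 0, 0, 0, ⟨0, 0⟩, 0⟩ 0 0) (.void 2 ⟨0, 0, 1000000000, 0, 0, 0, 0, 0, 0, ⟨0, 0⟩, 0⟩ 0 0))) (.cut .d (-524288) (.void 3 ⟨1000000000, 0, 0, 0, 0, 0, 0, 0, 0, ⟨0, 0⟩, 0⟩ 0 0) (.cut .d (-262144) (.void 3 ⟨1000000000, 0, 0, 0, 0, 0, 0, 0, 0, ⟨0, 0⟩, 0⟩ 0 0) (.cut .d (-131072) (.void 3 ⟨1000000000, 0, 0, 0, 0, 0, 0, 0, 0, ⟨0, 0⟩, 0⟩ 0 0) (.cut .d (-65536) (.void 3 ⟨1000000000, 0, 0, 0, 0, 0, 0, 0, 0, ⟨0, 0⟩, 0⟩ 0 0) (.cut .d (-32768) (.void 3 ⟨1000000000, 0, 0, 0, 0, 0, 0, 0, 0, ⟨0, 0⟩, 0⟩ 0 0) (.cut .d (-16384) (.void 3 ⟨1000000000, 0, 0, 0, 0, 0, 0, 0, 0, ⟨0, 0⟩, 0⟩ 0 0) (.pos 3 .mm ⟨167772160000, 0, 0, 0, 0, 0, 0, 0, 0, ⟨0, 0⟩, 0⟩ 0 0)))))))))))) (.cut .v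 4294967296 (.cut .d (-8388608) (.void 102 ⟨0, 0, 0, 0, 0, 1000000000, 0, 0, 0, ⟨0, 0⟩, 0⟩ 0 0) (.cut .v 268435456 (.cut .v 67108864 (.cut .d (-4194304) (.void 72 ⟨1000000000, 0, 0, 0, 0, 0, 0, 0, 0, ⟨0, 0⟩, 0⟩ 0 0) (.cut .d (-2097152) (.void 72 ⟨1000000000, 0, 0, 0, 0, 0, 0, 0, 0, ⟨0, 0⟩, 0⟩ 0 0) (.cut .d (-1048576) (.void 72 ⟨1000000000, 0, 0, 0, 0, 0, 0, 0, 0, ⟨0, 0⟩, 0⟩ 0 0) (.cut .d (-524288) (.void 72 ⟨1000000000, 0, 0, 0, 0, 0, 0, 0, 0, ⟨0, 0⟩, 0⟩ 0 0) (.cut .d (-262144) (.void 72 ⟨1000000000, 0, 0, 0, 0, 0, 0, 0, 0, ⟨0, 0⟩, 0⟩ 0 0) (.cut .d (-131072) (.void 72 ⟨1000000000, 0, 0, 0, 0, 0, 0, 0, 0, ⟨0, 0⟩, 0⟩ 0 0) (.cut .d (-65536) (.void 72 ⟨1000000000,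 0, 0, 0, 0, 0, 0, 0, 0, ⟨0, 0⟩, 0⟩ 0 0) (.cut .d (-32768) (.void 72 ⟨1000000000, 0, 0, 0, 0, 0, 0, 0, 0, ⟨0, 0⟩, 0⟩ 0 0) (.cut .d (-16384) (.void 72 ⟨1000000000, 0, 0, 0, 0, 0, 0, 0, 0, ⟨0, 0⟩, 0⟩ 0 0) (.cut .d (-8192) (.void 72 ⟨1000000000, 0, 0, 0, 0, 0, 0, 0, 0, ⟨0, 0⟩, 0⟩ 0 0) (.pos 72 .mp ⟨167772160000, 0, 0, 0, 0, 0, 0, 0, 0, ⟨0, 0⟩, 0⟩ 0 0))))))))))) (.void 84 ⟨1000000000, 0, 0, 0, 0, 0, 0, 0, 0, ⟨0, 0⟩, 0⟩ 0 0)) (.void 103 ⟨1000000000, 0, 0, 0, 0, 0, 0, 0, 0, ⟨0, 0⟩, 0⟩ 0 0))) (.void 154 ⟨1000000000, 0, 0, 0, 0, 0, 0, 0, 0, ⟨0, 0⟩, 0⟩ 0 0))) (.cut .v 16777216 (.cut .v 8388608 (.cut .v 4194304 (.cut .v 2097152 (.cut .d 10254 (.pos 6 .pm ⟨0, 0, 167772160000,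 0, 0, 0, 0, 0, 0, ⟨0, 0⟩, 0⟩ 0 0) (.cut .v 1048576 (.cut .v 524288 (.cut .v 262144 (.cut .v 131072 (.cut .v 65536 (.cut .v 32768 (.cut .v 16384 (.cut .v 8192 (.cut .v 4096 (.pos 169 .pm ⟨0, 0, 51289980, 0, 0, 0, 0, 0, 0, ⟨0, 0⟩, 0⟩ 0 0) (.pos 170 .pm ⟨0, 0, 518823279, 0, 0, 0, 0, 0, 0, ⟨0, 0⟩, 0⟩ 0 0)) (.pos 166 .pm ⟨0, 0, 1021710565, 0, 0, 0, 0, 0, 0, ⟨0, 0⟩, 0⟩ 0 0)) (.pos 160 .pm ⟨0, 0, 2027485375, 0, 0, 0, 0, 0, 0, ⟨0, 0⟩, 0⟩ 0 0)) (.pos 156 .pm ⟨0, 0, 4039035950, 0, 0, 0, 0, 0, 0, ⟨0, 0⟩, 0⟩ 0 0)) (.pos 149 .pm ⟨0, 0, 8062140912, 0, 0, 0, 0, 0, 0, ⟨0, 0⟩, 0⟩ 0 0)) (.pos 143 .pm ⟨0, 0, 16108366095, 0, 0, 0, 0, 0, 0, ⟨0, 0⟩, 0⟩ 0 0)) (.pos 137 .pm ⟨0, 0,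 32200877491, 0, 0, 0, 0, 0, 0, ⟨0, 0⟩, 0⟩ 0 0)) (.pos 125 .pm ⟨0, 0, 64386144399, 0, 0, 0, 0, 0, 0, ⟨0, 0⟩, 0⟩ 0 0)) (.pos 109 .pm ⟨0, 0, 128757654685, 0, 0, 0, 0, 0, 0, ⟨0, 0⟩, 0⟩ 0 0))) (.pos 7 .pm ⟨0, 0, 167772160000, 0, 0, 0, 0, 0, 0, ⟨0, 0⟩, 0⟩ 0 0)) (.pos 5 .pm ⟨0, 0, 167772160000, 0, 0, 0, 0, 0, 0, ⟨0, 0⟩, 0⟩ 0 0)) (.pos 3 .pm ⟨0, 0, 167772160000, 0, 0, 0, 0, 0, 0, ⟨0, 0⟩, 0⟩ 0 0)) (.cut .v 4294967296 (.cut .v 268435456 (.cut .d 10254 (.cut .d 5127 (.cut .d 2563 (.cut .v 67108864 (.pos 72 .pp ⟨0, 0, 0, 0, 0, 0, 0, 0, 0, ⟨0, 0⟩, 0⟩ 0 0) (.cut .v 134217728 (.pos 89 .pp ⟨167772160000, 0, 0, 0, 0, 0, 0, 0, 0, ⟨0, 0⟩, 0⟩ 0 0) (.void 90 ⟨1000000000, 0, 0,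 0, 0, 0, 0, 0, 0, ⟨0, 0⟩, 0⟩ 0 0))) (.pos 83 .pp ⟨61125838664, 0, 0, 106646321336, 0, 0, 0, 0, 0, ⟨0, 0⟩, 0⟩ 0 0)) (.pos 83 .pp ⟨0, 0, 0, 0, 0, 0, 0, 0, 0, ⟨0, 0⟩, 0⟩ 0 0)) (.pos 83 .pp ⟨0, 0, 0, 0, 0, 0, 0, 0, 0, ⟨0, 0⟩, 0⟩ 0 0)) (.cut .s 16760832 (.void 103 ⟨0, 0, 0, 100000, 0, 0, 0, 0, 0, ⟨0, 0⟩, 0⟩ 0 0) (.void 103 ⟨0, 0, 0, 100000, 0, 0, 0, 0, 0, ⟨0, 0⟩, 0⟩ 0 0))) (.void 154 ⟨0, 0, 0, 100000, 0, 0, 0, 0, 0, ⟨0, 0⟩, 0⟩ 0 0)))),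
    by decide +kernel⟩

def covers44 : cell.Covers table row44.1 :=
  ⟨(.cut .d 0 (.cut .v 16777216 (.cut .d (-8388608) (.void 1 ⟨0, 0, 100000, 0, 0, 0, 0, 0, 0, ⟨0, 0⟩, 0⟩ 0 0) (.cut .d (-4194304) (.void 1 ⟨0, 0, 100000, 0, 0, 0, 0, 0, 0, ⟨0, 0⟩, 0⟩ 0 0) (.cut .d (-2097152) (.void 1 ⟨0, 0, 100000, 0, 0, 0, 0, 0, 0, ⟨0, 0⟩, 0⟩ 0 0) (.cut .d (-1048576) (.void 1 ⟨0, 0, 100000, 0, 0, 0, 0, 0, 0, ⟨0, 0⟩, 0⟩ 0 0) (.cut .d (-524288) (.void 1 ⟨0, 0, 100000, 0, 0, 0, 0, 0, 0, ⟨0, 0⟩, 0⟩ 0 0) (.cut .d (-262144) (.void 1 ⟨0, 0, 100000, 0, 0, 0, 0, 0, 0, ⟨0, 0⟩, 0⟩ 0 0) (.cut .d (-131072) (.void 1 ⟨0, 0, 100000, 0, 0, 0, 0, 0, 0, ⟨0, 0⟩, 0⟩ 0 0) (.cut .d (-65536) (.void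 1 ⟨0, 0, 100000, 0, 0, 0, 0, 0, 0, ⟨0, 0⟩, 0⟩ 0 0) (.cut .d (-32768) (.void 1 ⟨0, 0, 100000, 0, 0, 0, 0, 0, 0, ⟨0, 0⟩, 0⟩ 0 0) (.cut .d (-16384) (.void 1 ⟨0, 0, 100000, 0, 0, 0, 0, 0, 0, ⟨0, 0⟩, 0⟩ 0 0) (.cut .v 8388608 (.void 2 ⟨0, 0, 1000000000, 0, 0, 0, 0, 0, 0, ⟨0, 0⟩, 0⟩ 0 0) (.pos 3 .mm ⟨167772160000, 0, 0, 0, 0, 0, 0, 0, 0, ⟨0, 0⟩, 0⟩ 0 0)))))))))))) (.cut .v 4294967296 (.cut .d (-8388608) (.void 102 ⟨35890, 0, 97, 7, 0, 12011, 0, 51994, 0, ⟨(-1), 9801748⟩, 0⟩ 0 128) (.cut .v 268435456 (.cut .v 67108864 (.cut .d (-4194304) (.void 72 ⟨1000000000, 0, 0, 0, 0, 0, 0, 0, 0, ⟨0, 0⟩, 0⟩ 0 0) (.cut .d (-2097152) (.void 72 ⟨1000000000, 0, 0, 0, 0, 0, 0, 0, 0,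 ⟨0, 0⟩, 0⟩ 0 0) (.cut .d (-1048576) (.void 72 ⟨1000000000, 0, 0, 0, 0, 0, 0, 0, 0, ⟨0, 0⟩, 0⟩ 0 0) (.cut .d (-524288) (.void 72 ⟨1000000000, 0, 0, 0, 0, 0, 0, 0, 0, ⟨0, 0⟩, 0⟩ 0 0) (.cut .d (-262144) (.void 72 ⟨1000000000, 0, 0, 0, 0, 0, 0, 0, 0, ⟨0, 0⟩, 0⟩ 0 0) (.cut .d (-131072) (.void 72 ⟨1000000000, 0, 0, 0, 0, 0, 0, 0, 0, ⟨0, 0⟩, 0⟩ 0 0) (.cut .d (-65536) (.void 72 ⟨1000000000, 0, 0, 0, 0, 0, 0, 0, 0, ⟨0, 0⟩, 0⟩ 0 0) (.cut .d (-32768) (.void 72 ⟨1000000000, 0, 0, 0, 0, 0, 0, 0, 0, ⟨0, 0⟩, 0⟩ 0 0) (.cut .d (-16384) (.void 72 ⟨1000000000, 0, 0, 0, 0, 0, 0, 0, 0, ⟨0, 0⟩, 0⟩ 0 0) (.cut .d (-8192) (.void 72 ⟨1000000000, 0, 0, 0, 0, 0, 0, 0, 0, ⟨0, 0⟩, 0⟩ 0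 0) (.pos 72 .mp ⟨167772160000, 0, 0, 0, 0, 0, 0, 0, 0, ⟨0, 0⟩, 0⟩ 0 0))))))))))) (.void 84 ⟨1000000000, 0, 0, 0, 0, 0, 0, 0, 0, ⟨0, 0⟩, 0⟩ 0 0)) (.void 103 ⟨1000000000, 0, 0, 0, 0, 0, 0, 0, 0, ⟨0, 0⟩, 0⟩ 0 0))) (.void 154 ⟨1000000000, 0, 0, 0, 0, 0, 0, 0, 0, ⟨0, 0⟩, 0⟩ 0 0))) (.cut .v 16777216 (.cut .v 8388608 (.cut .v 4194304 (.cut .v 2097152 (.cut .v 1048576 (.cut .v 524288 (.cut .v 262144 (.cut .v 131072 (.cut .v 65536 (.cut .v 32768 (.cut .v 16384 (.cut .v 8192 (.cut .v 4096 (.cut .s 16766976 (.pos 169 .pm ⟨0, 0, 265719782, 0, 0, 0, 0, 0, 0, ⟨0, 0⟩, 0⟩ 0 0) (.pos 169 .pm ⟨0, 0, 15935010, 0, 0, 0, 0, 0, 0, ⟨0, 0⟩, 0⟩ 0 0)) (.pos 170 .pm ⟨0, 0, 1145679520,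 0, 0, 0, 0, 0, 0, ⟨0, 0⟩, 0⟩ 0 0)) (.pos 166 .pm ⟨0, 0, 2275453443, 0, 0, 0, 0, 0, 0, ⟨0, 0⟩, 0⟩ 0 0)) (.pos 160 .pm ⟨0, 0, 4535001528, 0, 0, 0, 0, 0, 0, ⟨0, 0⟩, 0⟩ 0 0)) (.pos 156 .pm ⟨0, 0, 9054098653, 0, 0, 0, 0, 0, 0, ⟨0, 0⟩, 0⟩ 0 0)) (.pos 149 .pm ⟨0, 0, 18092296725, 0, 0, 0, 0, 0, 0, ⟨0, 0⟩, 0⟩ 0 0)) (.pos 143 .pm ⟨0, 0, 36168708158, 0, 0, 0, 0, 0, 0, ⟨0, 0⟩, 0⟩ 0 0)) (.pos 137 .pm ⟨0, 0, 72321592183, 0, 0, 0, 0, 0, 0, ⟨0, 0⟩, 0⟩ 0 0)) (.pos 125 .pm ⟨0, 0, 144627604863, 0, 0, 0, 0, 0, 0, ⟨0, 0⟩, 0⟩ 0 0)) (.pos 109 .pm ⟨0, 0, 167772160000, 0, 0, 0, 0, 0, 0, ⟨0, 0⟩, 0⟩ 0 0)) (.pos 7 .pm ⟨0, 0, 167772160000, 0, 0, 0, 0, 0, 0, ⟨0, 0⟩, 0⟩ 0 0)) (.pos 5 .pm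 ⟨0, 0, 167772160000, 0, 0, 0, 0, 0, 0, ⟨0, 0⟩, 0⟩ 0 0)) (.pos 3 .pm ⟨0, 0, 167772160000, 0, 0, 0, 0, 0, 0, ⟨0, 0⟩, 0⟩ 0 0)) (.cut .v 4294967296 (.cut .v 268435456 (.cut .s 16766976 (.cut .s 16765952 (.cut .s 16765440 (.cut .s 16765184 (.cut .d 6150 (.cut .d 3075 (.cut .v 67108864 (.pos 72 .pp ⟨0, 0, 0, 0, 0, 0, 0, 0, 0, ⟨0, 0⟩, 0⟩ 0 0) (.cut .v 134217728 (.pos 89 .pp ⟨167772160000, 0, 0, 0, 0, 0, 0, 0, 0, ⟨0, 0⟩, 0⟩ 0 0) (.cut .v 201326592 (.void 161 ⟨90006, 0, 0, 9994, 0, 0, 0, 0, 0, ⟨0, 0⟩, 0⟩ 0 0) (.void 162 ⟨0, 0, 0, 100000, 0, 0, 0, 0, 0, ⟨0, 0⟩, 0⟩ 0 0)))) (.pos 83 .pp ⟨0, 0, 0, 84427828436, 0, 0, 0, 0, 0, ⟨0, 0⟩, 0⟩ 0 0)) (.pos 83 .pp ⟨0, 0, 0, 0, 0,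 0, 0, 0, 0, ⟨0, 0⟩, 0⟩ 0 0)) (.pos 83 .pp ⟨6210524129, 0, 0, 161561635871, 0, 0, 0, 0, 0, ⟨0, 0⟩, 0⟩ 0 0)) (.pos 83 .pp ⟨0, 0, 0, 0, 0, 0, 0, 0, 0, ⟨0, 0⟩, 0⟩ 0 0)) (.pos 83 .pp ⟨0, 0, 0, 0, 0, 0, 0, 0, 0, ⟨0, 0⟩, 0⟩ 0 0)) (.pos 83 .pp ⟨0, 0, 0, 0, 0, 0, 0, 0, 0, ⟨0, 0⟩, 0⟩ 0 0)) (.void 103 ⟨0, 0, 0, 100000, 0, 0, 0, 0, 0, ⟨0, 0⟩, 0⟩ 0 0)) (.void 154 ⟨0, 0, 0, 100000, 0, 0, 0, 0, 0, ⟨0, 0⟩, 0⟩ 0 0)))),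
    by decide +kernel⟩

def covers45 : cell.Covers table row45.1 :=
  ⟨(.cut .d 0 (.cut .v 16777216 (.cut .d (-8388608) (.void 1 ⟨0, 0, 0, 0, 0, 1000000000, 0, 0, 0, ⟨0, 0⟩, 0⟩ 0 0) (.cut .d (-4194304) (.void 1 ⟨0, 0, 0, 0, 0, 1000000000, 0, 0, 0, ⟨0, 0⟩, 0⟩ 0 0) (.cut .d (-2097152) (.void 1 ⟨0, 0, 0, 0, 0, 1000000000, 0, 0, 0, ⟨0, 0⟩, 0⟩ 0 0) (.cut .d (-1048576) (.void 1 ⟨0, 0, 0, 0, 0, 1000000000, 0, 0, 0, ⟨0, 0⟩, 0⟩ 0 0) (.cut .d (-524288) (.void 1 ⟨0, 0, 0, 0, 0, 1000000000, 0, 0, 0, ⟨0, 0⟩, 0⟩ 0 0) (.cut .v 8388608 (.void 2 ⟨0, 0, 100000, 0, 0, 0, 0, 0, 0, ⟨0, 0⟩, 0⟩ 0 0) (.cut .d (-262144) (.void 3 ⟨1000000000, 0, 0, 0, 0, 0, 0, 0, 0, ⟨0, 0⟩, 0⟩ 0 0)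 (.cut .d (-131072) (.void 3 ⟨1000000000, 0, 0, 0, 0, 0, 0, 0, 0, ⟨0, 0⟩, 0⟩ 0 0) (.cut .d (-65536) (.void 3 ⟨1000000000, 0, 0, 0, 0, 0, 0, 0, 0, ⟨0, 0⟩, 0⟩ 0 0) (.cut .d (-32768) (.void 3 ⟨1000000000, 0, 0, 0, 0, 0, 0, 0, 0, ⟨0, 0⟩, 0⟩ 0 0) (.cut .d (-16384) (.void 3 ⟨1000000000, 0, 0, 0, 0, 0, 0, 0, 0, ⟨0, 0⟩, 0⟩ 0 0) (.cut .d (-8192) (.void 3 ⟨1000000000, 0, 0, 0, 0, 0, 0, 0, 0, ⟨0, 0⟩, 0⟩ 0 0) (.pos 3 .mm ⟨167772160000, 0, 0, 0, 0, 0, 0, 0, 0, ⟨0, 0⟩, 0⟩ 0 0))))))))))))) (.cut .d (-8388608) (.void 153 ⟨53924, 0, 1, 0, 0, 0, 0, 46076, 0, ⟨(-1), 9801748⟩, 0⟩ 0 128) (.cut .v 4294967296 (.cut .v 268435456 (.cut .v 67108864 (.cut .d (-4194304) (.void 72 ⟨1000000000,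 0, 0, 0, 0, 0, 0, 0, 0, ⟨0, 0⟩, 0⟩ 0 0) (.cut .d (-2097152) (.void 72 ⟨1000000000, 0, 0, 0, 0, 0, 0, 0, 0, ⟨0, 0⟩, 0⟩ 0 0) (.cut .d (-1048576) (.void 72 ⟨1000000000, 0, 0, 0, 0, 0, 0, 0, 0, ⟨0, 0⟩, 0⟩ 0 0) (.cut .d (-524288) (.void 72 ⟨1000000000, 0, 0, 0, 0, 0, 0, 0, 0, ⟨0, 0⟩, 0⟩ 0 0) (.cut .d (-262144) (.void 72 ⟨1000000000, 0, 0, 0, 0, 0, 0, 0, 0, ⟨0, 0⟩, 0⟩ 0 0) (.cut .d (-131072) (.void 72 ⟨1000000000, 0, 0, 0, 0, 0, 0, 0, 0, ⟨0, 0⟩, 0⟩ 0 0) (.cut .d (-65536) (.void 72 ⟨1000000000, 0, 0, 0, 0, 0, 0, 0, 0, ⟨0, 0⟩, 0⟩ 0 0) (.cut .d (-32768) (.void 72 ⟨1000000000, 0, 0, 0, 0, 0, 0, 0, 0, ⟨0, 0⟩, 0⟩ 0 0) (.cut .d (-16384) (.void 72 ⟨1000000000, 0, 0, 0, 0,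 0, 0, 0, 0, ⟨0, 0⟩, 0⟩ 0 0) (.cut .d (-8192) (.void 72 ⟨1000000000, 0, 0, 0, 0, 0, 0, 0, 0, ⟨0, 0⟩, 0⟩ 0 0) (.pos 72 .mp ⟨167772160000, 0, 0, 0, 0, 0, 0, 0, 0, ⟨0, 0⟩, 0⟩ 0 0))))))))))) (.void 84 ⟨100000, 0, 0, 0, 0, 0, 0, 0, 0, ⟨0, 0⟩, 0⟩ 0 0)) (.void 103 ⟨100000, 0, 0, 0, 0, 0, 0, 0, 0, ⟨0, 0⟩, 0⟩ 0 0)) (.cut .l 750040 (.void 154 ⟨1000000000, 0, 0, 0, 0, 0, 0, 0, 0, ⟨0, 0⟩, 0⟩ 0 0) (.void 154 ⟨1000000000, 0, 0, 0, 0, 0, 0, 0, 0, ⟨0, 0⟩, 0⟩ 0 0))))) (.cut .v 16777216 (.pos 1 .pm ⟨0, 0, 15887996, 0, 0, 0, 0, 0, 0, ⟨0, 0⟩, 0⟩ 0 0) (.cut .v 4294967296 (.cut .v 268435456 (.pos 83 .pp ⟨0, 0, 0, 0, 0, 0, 0, 0, 0, ⟨0, 0⟩, 0⟩ 0 0) (.cut .s 16771072 (.void 103 ⟨0,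 0, 0, 100000, 0, 0, 0, 0, 0, ⟨0, 0⟩, 0⟩ 0 0) (.void 103 ⟨0, 0, 0, 100000, 0, 0, 0, 0, 0, ⟨0, 0⟩, 0⟩ 0 0))) (.void 154 ⟨0, 0, 0, 100000, 0, 0, 0, 0, 0, ⟨0, 0⟩, 0⟩ 0 0)))),
    by decide +kernel⟩

end Vale.Agent.P237.Petty.Cor.Grid.N17.Low
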